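import Vale.Agent.P366.T4.A4c

/-!
T4, [A4]: **scalar curvature of `g = G + (p - 1) dr²`** for `G` with unit lapse and no shift, `p`
arbitrary.
-/

open MeasureTheory Metric Filter Topology Set
open scoped ContDiff ENNReal Matrix

noncomputable section
namespace Vale.Agent.T4
open Vale.Agent.P366.Stmt Vale.Agent.P366.T2

variable {n : ℕ}

namespace Jet

variable (J : Jet n)

lemma UgBg_tr (v p : ℝ) (hvp : v * p = 1) (dp : Fin n → ℝ) (i : Fin n) :
    ∑ k, ∑ l, J.Ug v k l * J.Bg p dp i k l = (∑ k, ∑ l, J.U k l * J.B i k l) + v * dp i := by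
  simp only [J.UgBg v p hvp dp]
  have e : ∀ k, (∑ l, J.U k l * J.B i k l) + v * dp i * (J.N k * J.N k) +
      (1 - v) / J.r * (J.P i k * J.N k) + (p - 1) / J.r * (J.S k i * J.N k) +
      (v - 1) / J.r * (((if k = i then 1 else 0) - J.G k i) * J.N k) =
      (∑ l, J.U k l * J.B i k l) + v * dp i * (J.N k * J.N k) +
      (1 - v) / J.r * (J.P i k * J.N k) + (p - 1) / J.r * (J.S k i * J.N k) +
      (v - 1) / J.r * ((if k = i then J.N k else 0) - J.G i k * J.N k) := by
    intro k
    rw [J.Gs k i]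
    split_ifs <;> ring
  simp only [e, Finset.sum_add_distrib, Finset.sum_sub_distrib, ← Finset.mul_sum, J.NN, J.PN,
    J.SN', J.GN]
  simp

lemma M_div (k : Fin n) : ∑ j, J.M j k j = ((n : ℝ) - 1) / J.r * J.N k := by
  have e : ∀ j, J.M j k j = 1 / J.r * (J.P k j * J.N j) + J.N k / J.r * J.P j j := by
    intro j; unfold M; ring
  simp only [e, Finset.sum_add_distrib, ← Finset.mul_sum, J.PN, J.trP]
  ring

lemma Ag_div (v : ℝ) (dv : Fin n → ℝ) (k : Fin n) :
    ∑ j, J.Ag v dv j k j = (∑ j, J.A j k j) + J.dn dv * J.N k +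
      (v - 1) * (((n : ℝ) - 1) / J.r * J.N k) := by
  have e : ∀ j, J.Ag v dv j k j = J.A j k j + J.N k * (dv j * J.N j) + (v - 1) * J.M j k j := by
    intro j; unfold Ag; ring
  simp only [e, Finset.sum_add_distrib, ← Finset.mul_sum, J.M_div]
  unfold dn
  ring

end Jet

lemma contDiffAt_dN {f : E n → ℝ} {x : E n} (hx : x ≠ 0) (hf : ContDiffAt ℝ ∞ f x) :
    ContDiffAt ℝ ∞ (dN f) x := by
  unfold dN
  exact ContDiffAt.sum fun i _ => (contDiffAt_nx i hx).mul (contDiffAt_pd hf i)

lemma sum_P_nx {x : E n} (hx : x ≠ 0) (i : Fin n) :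
    ∑ j, nx j x * (((if i = j then 1 else 0) - nx i x * nx j x) / len x) = 0 := by
  have e : ∀ j, nx j x * (((if i = j then 1 else 0) - nx i x * nx j x) / len x) =
      1 / len x * ((if i = j then nx j x else 0) - nx i x * (nx j x * nx j x)) := by
    intro j; split_ifs <;> ring
  simp only [e, ← Finset.mul_sum, Finset.sum_sub_distrib, sum_nx_mul hx]
  simp

/-- radial derivative of a radial component -/
lemma dN_nxsum {x : E n} (hx : x ≠ 0) (w : Fin n → E n → ℝ)
    (hw : ∀ i, ContDiffAt ℝ ∞ (w i) x) :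
    dN (fun y => ∑ i, nx i y * w i y) x = ∑ i, ∑ j, nx i x * nx j x * pd j (w i) x := by
  have h1 : ∀ j, pd j (fun y => ∑ i, nx i y * w i y) x =
      ∑ i, ((((if i = j then 1 else 0) - nx i x * nx j x) / len x) * w i x +
        nx i x * pd j (w i) x) := fun j =>
    (HP.sum Finset.univ fun i _ => (HP_nx hx j i).mul (HP.of_contDiffAt (hw i) j)).pd
  unfold dN
  simp only [h1, Finset.mul_sum]
  rw [Finset.sum_comm]
  refine Finset.sum_congr rfl fun i _ => ?_
  have e : ∀ j, nx j x * ((((if i = j then 1 else 0) - nx i x * nx j x) / len x) * w i x +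
        nx i x * pd j (w i) x) =
      w i x * (nx j x * (((if i = j then 1 else 0) - nx i x * nx j x) / len x)) +
        nx i x * nx j x * pd j (w i) x := fun j => by ring
  simp only [e, Finset.sum_add_distrib, ← Finset.mul_sum, sum_P_nx hx]
  simp

/-- divergence of a radial field -/
lemma div_nx {x : E n} (hx : x ≠ 0) (f : E n → ℝ) (hf : ContDiffAt ℝ ∞ f x) :
    ∑ k, pd k (fun y => nx k y * f y) x = ((n : ℝ) - 1) / len x * f x + dN f x := by
  have h1 : ∀ k, pd k (fun y => nx k y * f y) x =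
      (f x / len x) * (1 - nx k x * nx k x) + nx k x * pd k f x := by
    intro k
    rw [((HP_nx hx k k).mul (HP.of_contDiffAt hf k)).pd]
    simp only [if_true]
    ring
  simp only [h1, Finset.sum_add_distrib, ← Finset.mul_sum, Finset.sum_sub_distrib, sum_nx_mul hx]
  unfold dN
  simp
  ring

lemma dN_inv_len {x : E n} (hx : x ≠ 0) (c : ℝ) :
    dN (fun y => c / len y) x = -c / len x ^ 2 := by
  have hl := len_ne hx
  have h1 : HasDerivAt (fun t : ℝ => c / t) (-c / (len x) ^ 2) (len x) := by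
    have := (hasDerivAt_inv hl).const_mul c
    have e : (fun t : ℝ => c / t) = fun t => c * t⁻¹ := by funext t; rw [div_eq_mul_inv]
    rw [e]
    have e2 : -c / len x ^ 2 = c * -(len x ^ 2)⁻¹ := by ring
    rw [e2]
    exact this
  unfold dN
  have h2 : ∀ k, pd k (fun y => c / len y) x = -c / (len x) ^ 2 / len x * x k := fun k =>
    (HP.radial hx h1 k).pd
  have h3 : ∀ k, nx k x * (-c / (len x) ^ 2 / len x * x k) = -c / len x ^ 2 * (nx k x * nx k x) := by
    intro k
    have := nx_mul_len hx k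
    rw [← this]
    field_simp
  simp only [h2, h3, ← Finset.mul_sum, sum_nx_mul hx, mul_one]

namespace Lapse

variable {G g : Field n} {R : ℝ} (h : Lapse G g R)
include h

lemma contDiffAt_Lg {x : E n} (hx : R < len x) (i : Fin n) : ContDiffAt ℝ ∞ (Lg G i) x := by
  unfold Lg
  exact contDiffAt_const.mul (ContDiffAt.sum fun k _ => ContDiffAt.sum fun l _ =>
    (h.contDiffAt_up hx k l).mul (contDiffAt_pd (h.Gs k l).contDiffAt i))

lemma contDiffAt_Vg {x : E n} (hx : R < len x) (k : Fin n) : ContDiffAt ℝ ∞ (Vg G k) x := by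
  unfold Vg
  exact ((ContDiffAt.sum fun j _ => (h.contDiffAt_up hx k j).mul (h.contDiffAt_Lg hx j)).neg).sub
    (ContDiffAt.sum fun j _ => contDiffAt_pd (h.contDiffAt_up hx k j) j)

lemma contDiffAt_H1 {x : E n} (hx : R < len x) : ContDiffAt ℝ ∞ (H1 G) x := by
  have hx0 := h.ne_zero hx.le
  unfold H1
  exact (contDiffAt_const.div (contDiffAt_len hx0) (len_ne hx0)).add
    (ContDiffAt.sum fun i _ => (contDiffAt_nx i hx0).mul (h.contDiffAt_Lg hx i))

lemma vp {x : E n} (hx : R ≤ len x) : 1 / rad g x * rad g x = 1 := by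
  have := (h.ppos x hx).ne'
  field_simp

lemma Lg_g {x : E n} (hx : R < len x) (i : Fin n) : Lg g i x = Lg G i x + glf g i x := by
  have hp := h.vp hx.le
  have h1 := (h.jet hx).UgBg_tr _ _ hp (fun k => 2 * rad g x * glf g k x) i
  unfold Lg
  have h2 : ∀ k l, up g k l x * pd i (fun y => g y k l) x =
      (h.jet hx).Ug (1 / rad g x) k l *
        (h.jet hx).Bg (rad g x) (fun k => 2 * rad g x * glf g k x) i k l := by
    intro k l
    rw [(h.HP_g hx i k l).pd, h.up_g' hx.le]
    rfl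
  simp only [h2, h1]
  have h3 : ∑ k, ∑ l, (h.jet hx).U k l * (h.jet hx).B i k l =
      ∑ k, ∑ l, up G k l x * pd i (fun y => G y k l) x := rfl
  rw [h3]
  linear_combination (glf g i x) * hp

lemma div_up_g {x : E n} (hx : R < len x) (k : Fin n) :
    ∑ j, pd j (up g k j) x = (∑ j, pd j (up G k j) x) -
      2 * (1 / rad g x) * dN (lf g) x * nx k x +
      (1 / rad g x - 1) * (((n : ℝ) - 1) / len x * nx k x) := by
  have h1 : ∀ j, pd j (up g k j) x =
      (h.jet hx).Ag (1 / rad g x) (fun k => -2 * (1 / rad g x) * glf g k x) j k j :=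
    fun j => (h.HP_up_g hx j k j).pd
  simp only [h1, Jet.Ag_div]
  have h2 : (h.jet hx).dn (fun k => -2 * (1 / rad g x) * glf g k x) =
      -2 * (1 / rad g x) * dN (lf g) x := by
    unfold Jet.dn dN
    rw [Finset.mul_sum]
    refine Finset.sum_congr rfl fun i _ => ?_
    show -2 * (1 / rad g x) * glf g i x * nx i x = -2 * (1 / rad g x) * (nx i x * glf g i x)
    ring
  rw [h2]
  show (∑ j, pd j (up G k j) x) + -2 * (1 / rad g x) * dN (lf g) x * nx k x +
      (1 / rad g x - 1) * (((n : ℝ) - 1) / len x * nx k x) = _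
  ring

/-- the radial part of `V` -/
lemma Vg_g {x : E n} (hx : R < len x) (k : Fin n) :
    Vg g k x = Vg G k x - (∑ l, Sm G k l x * glf g l x) +
      nx k x * (1 / rad g x * dN (lf g) x - (1 / rad g x - 1) * H1 G x) := by
  have h1 : ∑ j, up g k j x * Lg g j x = (∑ j, up G k j x * Lg G j x) +
      (∑ l, Sm G k l x * glf g l x) + nx k x * dN (lf g) x +
      (1 / rad g x - 1) * nx k x * ((∑ i, nx i x * Lg G i x) + dN (lf g) x) := by
    have e : ∀ j, up g k j x * Lg g j x = up G k j x * Lg G j x + Sm G k j x * glf g j x +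
        nx k x * (nx j x * glf g j x) + (1 / rad g x - 1) * nx k x * (nx j x * Lg G j x) +
        (1 / rad g x - 1) * nx k x * (nx j x * glf g j x) := by
      intro j
      rw [h.up_g' hx.le, h.Lg_g hx]
      unfold Sm; ring
    simp only [e, Finset.sum_add_distrib, ← Finset.mul_sum]
    have e2 : ∑ i, nx i x * glf g i x = dN (lf g) x := rfl
    rw [e2]; ring
  unfold Vg
  rw [h1, h.div_up_g hx]
  unfold H1
  ring

/-- the scalar function in `Vg_g` -/
lemma dN_phi {x : E n} (hx : R < len x) :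
    dN (fun y => 1 / rad g y * dN (lf g) y - (1 / rad g y - 1) * H1 G y) x =
      -2 * (1 / rad g x) * dN (lf g) x ^ 2 + 1 / rad g x * dN (dN (lf g)) x +
        2 * (1 / rad g x) * dN (lf g) x * H1 G x - (1 / rad g x - 1) * dN (H1 G) x := by
  have hx0 := h.ne_zero hx.le
  have hlf := contDiffAt_lf h.gs hx0 (h.ppos x hx.le)
  have h1 : ∀ k, pd k (fun y => 1 / rad g y * dN (lf g) y - (1 / rad g y - 1) * H1 G y) x =
      (-2 * (1 / rad g x) * glf g k x * dN (lf g) x + 1 / rad g x * pd k (dN (lf g)) x) -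
      ((-2 * (1 / rad g x) * glf g k x - 0) * H1 G x + (1 / rad g x - 1) * pd k (H1 G) x) := by
    intro k
    exact (((h.HP_v hx k).mul (HP.of_contDiffAt (contDiffAt_dN hx0 hlf) k)).sub
      (((h.HP_v hx k).sub (HP.const k 1 x)).mul (HP.of_contDiffAt (h.contDiffAt_H1 hx) k))).pd
  have h2 : ∀ k, nx k x * ((-2 * (1 / rad g x) * glf g k x * dN (lf g) x +
      1 / rad g x * pd k (dN (lf g)) x) - ((-2 * (1 / rad g x) * glf g k x - 0) * H1 G x +
      (1 / rad g x - 1) * pd k (H1 G) x)) =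
      (-2 * (1 / rad g x) * dN (lf g) x) * (nx k x * glf g k x) +
      1 / rad g x * (nx k x * pd k (dN (lf g)) x) +
      2 * (1 / rad g x) * H1 G x * (nx k x * glf g k x) -
      (1 / rad g x - 1) * (nx k x * pd k (H1 G) x) := fun k => by ring
  have e1 : dN (fun y => 1 / rad g y * dN (lf g) y - (1 / rad g y - 1) * H1 G y) x =
      ∑ k, nx k x * pd k (fun y => 1 / rad g y * dN (lf g) y - (1 / rad g y - 1) * H1 G y) x := rfl
  rw [e1]
  simp only [h1, h2, Finset.sum_add_distrib, Finset.sum_sub_distrib, ← Finset.mul_sum]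
  have e2 : ∑ i, nx i x * glf g i x = dN (lf g) x := rfl
  have e3 : ∑ i, nx i x * pd i (dN (lf g)) x = dN (dN (lf g)) x := rfl
  have e4 : ∑ i, nx i x * pd i (H1 G) x = dN (H1 G) x := rfl
  rw [e2, e3, e4]
  ring

lemma contDiffAt_phi {x : E n} (hx : R < len x) :
    ContDiffAt ℝ ∞ (fun y => 1 / rad g y * dN (lf g) y - (1 / rad g y - 1) * H1 G y) x := by
  have hx0 := h.ne_zero hx.le
  have hp := (h.ppos x hx.le).ne'
  have hlf := contDiffAt_lf h.gs hx0 (h.ppos x hx.le)
  have h1 : ContDiffAt ℝ ∞ (fun y => 1 / rad g y) x :=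
    contDiffAt_const.div (contDiffAt_rad h.gs hx0) hp
  exact (h1.mul (contDiffAt_dN hx0 hlf)).sub ((h1.sub contDiffAt_const).mul (h.contDiffAt_H1 hx))

/-- divergence of `V` -/
lemma div_Vg {x : E n} (hx : R < len x) :
    ∑ k, pd k (Vg g k) x = (∑ k, pd k (Vg G k) x) - DS G (glf g) x +
      ((n : ℝ) - 1) / len x * (1 / rad g x * dN (lf g) x - (1 / rad g x - 1) * H1 G x) +
      (-2 * (1 / rad g x) * dN (lf g) x ^ 2 + 1 / rad g x * dN (dN (lf g)) x +
        2 * (1 / rad g x) * dN (lf g) x * H1 G x - (1 / rad g x - 1) * dN (H1 G) x) := by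
  have hx0 := h.ne_zero hx.le
  have hphi := h.contDiffAt_phi hx
  have hS : ∀ k, ContDiffAt ℝ ∞ (fun y => ∑ l, Sm G k l y * glf g l y) x := fun k =>
    ContDiffAt.sum fun l _ => (h.contDiffAt_Sm hx k l).mul (h.contDiffAt_glf hx.le l)
  have h1 : ∀ k, pd k (Vg g k) x = pd k (Vg G k) x -
      pd k (fun y => ∑ l, Sm G k l y * glf g l y) x +
      pd k (fun y => nx k y * (1 / rad g y * dN (lf g) y - (1 / rad g y - 1) * H1 G y)) x := by
    intro k
    have h2 := ((HP.of_contDiffAt (h.contDiffAt_Vg hx k) k).sub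
      (HP.of_contDiffAt (hS k) k)).add
      (HP.of_contDiffAt ((contDiffAt_nx k hx0).mul hphi) k)
    refine (HP.congr h2 ?_).pd
    filter_upwards [(isOpen_out R).mem_nhds hx] with y hy
    exact h.Vg_g hy k
  simp only [h1, Finset.sum_add_distrib, Finset.sum_sub_distrib]
  rw [div_nx hx0 _ hphi, h.dN_phi hx]
  unfold DS
  ring

/-- derivative of `L` -/
lemma pd_Lg {x : E n} (hx : R < len x) (i j : Fin n) :
    pd j (Lg g i) x = pd j (Lg G i) x + pd j (glf g i) x := by
  have h2 := (HP.of_contDiffAt (h.contDiffAt_Lg hx i) j).add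
    (HP.of_contDiffAt (h.contDiffAt_glf hx.le i) j)
  refine (HP.congr h2 ?_).pd
  filter_upwards [(isOpen_out R).mem_nhds hx] with y hy
  exact h.Lg_g hy i

lemma dN_H1 {x : E n} (hx : R < len x) :
    dN (H1 G) x = -((n : ℝ) - 1) / len x ^ 2 +
      ∑ i, ∑ j, nx i x * nx j x * pd j (Lg G i) x := by
  have hx0 := h.ne_zero hx.le
  have h1 : ContDiffAt ℝ ∞ (fun y : E n => ((n : ℝ) - 1) / len y) x :=
    contDiffAt_const.div (contDiffAt_len hx0) (len_ne hx0)
  have h2 : ContDiffAt ℝ ∞ (fun y => ∑ i, nx i y * Lg G i y) x :=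
    ContDiffAt.sum fun i _ => (contDiffAt_nx i hx0).mul (h.contDiffAt_Lg hx i)
  rw [← dN_nxsum hx0 (Lg G) (fun i => h.contDiffAt_Lg hx i), ← dN_inv_len hx0]
  unfold dN
  rw [← Finset.sum_add_distrib]
  refine Finset.sum_congr rfl fun k _ => ?_
  rw [← mul_add]
  congr 1
  exact ((HP.of_contDiffAt h1 k).add (HP.of_contDiffAt h2 k)).pd

lemma dN_dN_lf {x : E n} (hx : R < len x) :
    dN (dN (lf g)) x = ∑ i, ∑ j, nx i x * nx j x * pd j (glf g i) x :=
  dN_nxsum (h.ne_zero hx.le) (glf g) (fun i => h.contDiffAt_glf hx.le i)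

/-- second order terms of `L` -/
lemma up_pd_Lg {x : E n} (hx : R < len x) :
    ∑ i, ∑ j, up g i j x * pd j (Lg g i) x = (∑ i, ∑ j, up G i j x * pd j (Lg G i) x) +
      (∑ i, ∑ j, Sm G i j x * pd j (glf g i) x) + dN (dN (lf g)) x +
      (1 / rad g x - 1) * (dN (H1 G) x + ((n : ℝ) - 1) / len x ^ 2 + dN (dN (lf g)) x) := by
  have e : ∀ i j, up g i j x * pd j (Lg g i) x = up G i j x * pd j (Lg G i) x +
      Sm G i j x * pd j (glf g i) x + nx i x * nx j x * pd j (glf g i) x +
      (1 / rad g x - 1) * (nx i x * nx j x * pd j (Lg G i) x) +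
      (1 / rad g x - 1) * (nx i x * nx j x * pd j (glf g i) x) := by
    intro i j
    rw [h.up_g' hx.le, h.pd_Lg hx]
    unfold Sm; ring
  simp only [e, Finset.sum_add_distrib]
  simp only [← Finset.mul_sum (a := 1 / rad g x - 1)]
  rw [← h.dN_dN_lf hx, h.dN_H1 hx]
  ring

/-- the divergence of `S ∇f` -/
lemma DS_glf {x : E n} (hx : R < len x) :
    DS G (glf g) x = (∑ k, glf g k x * ∑ j, pd j (up G k j) x) -
      ((n : ℝ) - 1) / len x * dN (lf g) x + ∑ i, ∑ j, Sm G i j x * pd j (glf g i) x := by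
  have h1 : ∀ k, pd k (fun y => ∑ l, Sm G k l y * glf g l y) x =
      ∑ l, ((pd k (up G k l) x - (h.jet hx).M k k l) * glf g l x +
        Sm G k l x * pd k (glf g l) x) := by
    intro k
    refine (HP.sum Finset.univ fun l _ => HP.mul ?_ (HP.of_contDiffAt
      (h.contDiffAt_glf hx.le l) k)).pd
    exact (HP.of_contDiffAt (h.contDiffAt_up hx k l) k).sub (h.HP_NN hx k k l)
  unfold DS
  simp only [h1, Finset.sum_add_distrib]
  have h2 : ∑ k, ∑ l, Sm G k l x * pd k (glf g l) x =
      ∑ i, ∑ j, Sm G i j x * pd j (glf g i) x := by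
    rw [Finset.sum_comm]
    exact Finset.sum_congr rfl fun i _ => Finset.sum_congr rfl fun j _ => by
      rw [h.Sm_symm hx.le]
  rw [h2]
  congr 1
  rw [Finset.sum_comm]
  have h3 : ∀ l, ∑ k, (pd k (up G k l) x - (h.jet hx).M k k l) * glf g l x =
      glf g l x * (∑ j, pd j (up G l j) x) - ((n : ℝ) - 1) / len x * (nx l x * glf g l x) := by
    intro l
    have e : ∀ k, (pd k (up G k l) x - (h.jet hx).M k k l) * glf g l x =
        glf g l x * pd k (up G l k) x - glf g l x * (h.jet hx).M k l k := by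
      intro k
      rw [h.pdU_symm hx k k l, (h.jet hx).M_symm k k l]; ring
    simp only [e, Finset.sum_sub_distrib, ← Finset.mul_sum, Jet.M_div]
    show glf g l x * (∑ j, pd j (up G l j) x) - glf g l x * (((n : ℝ) - 1) / len x * nx l x) = _
    ring
  simp only [h3, Finset.sum_sub_distrib, ← Finset.mul_sum]
  rfl

/-- `L · V` -/
lemma LV_g {x : E n} (hx : R < len x) :
    ∑ l, Lg g l x * Vg g l x = (∑ l, Lg G l x * Vg G l x) - 2 * S2 G (Lg G) (glf g) x -
      S2 G (glf g) (glf g) x - (H1 G x - ((n : ℝ) - 1) / len x) * dN (lf g) x -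
      (∑ k, glf g k x * ∑ j, pd j (up G k j) x) +
      (H1 G x - ((n : ℝ) - 1) / len x + dN (lf g) x) *
        (1 / rad g x * dN (lf g) x - (1 / rad g x - 1) * H1 G x) := by
  have hL : ∑ i, nx i x * Lg G i x = H1 G x - ((n : ℝ) - 1) / len x := by unfold H1; ring
  have hf : ∑ i, nx i x * glf g i x = dN (lf g) x := rfl
  have e : ∀ l, Lg g l x * Vg g l x = Lg G l x * Vg G l x + glf g l x * Vg G l x -
      Lg G l x * (∑ m, Sm G l m x * glf g m x) - glf g l x * (∑ m, Sm G l m x * glf g m x) +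
      (1 / rad g x * dN (lf g) x - (1 / rad g x - 1) * H1 G x) * (nx l x * Lg G l x) +
      (1 / rad g x * dN (lf g) x - (1 / rad g x - 1) * H1 G x) * (nx l x * glf g l x) := by
    intro l
    rw [h.Vg_g hx, h.Lg_g hx]; ring
  have h1 : ∑ l, Lg G l x * (∑ m, Sm G l m x * glf g m x) = S2 G (Lg G) (glf g) x := by
    unfold S2
    refine Finset.sum_congr rfl fun l _ => ?_
    rw [Finset.mul_sum]
    exact Finset.sum_congr rfl fun m _ => by ring
  have h2 : ∑ l, glf g l x * (∑ m, Sm G l m x * glf g m x) = S2 G (glf g) (glf g) x := by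
    unfold S2
    refine Finset.sum_congr rfl fun l _ => ?_
    rw [Finset.mul_sum]
    exact Finset.sum_congr rfl fun m _ => by ring
  have h3 : ∑ l, glf g l x * Vg G l x = -S2 G (Lg G) (glf g) x -
      dN (lf g) x * (H1 G x - ((n : ℝ) - 1) / len x) -
      (∑ k, glf g k x * ∑ j, pd j (up G k j) x) := by
    have e1 : ∀ l, glf g l x * Vg G l x =
        -(∑ m, Sm G l m x * glf g l x * Lg G m x) - (nx l x * glf g l x) * (∑ i, nx i x * Lg G i x) -
        glf g l x * ∑ j, pd j (up G l j) x := by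
      intro l
      have e2 : ∑ j, up G l j x * Lg G j x = (∑ m, Sm G l m x * Lg G m x) +
          nx l x * (∑ i, nx i x * Lg G i x) := by
        rw [Finset.mul_sum, ← Finset.sum_add_distrib]
        refine Finset.sum_congr rfl fun m _ => ?_
        unfold Sm; ring
      have e3 : ∑ m, Sm G l m x * glf g l x * Lg G m x =
          glf g l x * ∑ m, Sm G l m x * Lg G m x := by
        rw [Finset.mul_sum]
        exact Finset.sum_congr rfl fun m _ => by ring
      unfold Vg
      rw [e2, e3]; ring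
    simp only [e1, Finset.sum_sub_distrib, Finset.sum_neg_distrib, ← Finset.sum_mul]
    have e4 : ∑ l, ∑ m, Sm G l m x * glf g l x * Lg G m x = S2 G (Lg G) (glf g) x := by
      unfold S2
      rw [Finset.sum_comm]
      refine Finset.sum_congr rfl fun l _ => Finset.sum_congr rfl fun m _ => ?_
      rw [h.Sm_symm hx.le m l]; ring
    rw [e4, hL, hf]
  simp only [e, Finset.sum_add_distrib, Finset.sum_sub_distrib, ← Finset.mul_sum]
  rw [h1, h2, h3, hL, hf]
  ring

/-- **[A4]**: the scalar curvature of `g = G + (p - 1) dr²`. -/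
theorem scal_lapse {x : E n} (hx : R < len x) :
    scal g x = scal G x + (1 - 1 / rad g x) *
      (ctr G (IIf G) (IIf G) x + H1 G x ^ 2 + 2 * dN (H1 G) x) +
      2 / rad g x * dN (lf g) x * H1 G x - 2 * DS G (glf g) x -
      2 * S2 G (Lg G) (glf g) x - 2 * S2 G (glf g) (glf g) x := by
  have hx0 := h.ne_zero hx.le
  have hp := h.vp hx.le
  have hg := scal_div (isOpen_out R) h.gs (fun y hy => h.g_symm (le_of_lt hy))
    (fun y hy => h.g_det_ne (le_of_lt hy)) hx
  have hG := scal_div (isOpen_out R) h.Gs (fun y hy => h.symm y (le_of_lt hy))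
    (fun y hy => h.det_ne (le_of_lt hy)) hx
  -- quadratic terms
  have hq := (h.jet hx).quad_g _ _ hp (fun k => glf g k x)
  have q1 : ∑ k, ∑ l, up g k l x * ∑ i, ∑ j, pd k (up g i j) x * pd i (fun y => g y j l) x =
      Jet.TT ((h.jet hx).Ug (1 / rad g x))
        ((h.jet hx).Ag (1 / rad g x) fun k => -2 * (1 / rad g x) * glf g k x)
        ((h.jet hx).Bg (rad g x) fun k => 2 * rad g x * glf g k x) := by
    unfold Jet.TT
    refine Finset.sum_congr rfl fun k _ => Finset.sum_congr rfl fun l _ => ?_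
    rw [h.up_g' hx.le]
    congr 1
    refine Finset.sum_congr rfl fun i _ => Finset.sum_congr rfl fun j _ => ?_
    rw [(h.HP_up_g hx k i j).pd, (h.HP_g hx i j l).pd]
  have q2 : ∑ k, ∑ l, up g k l x * ∑ i, ∑ j, pd k (up g i j) x * pd l (fun y => g y i j) x =
      Jet.QQ ((h.jet hx).Ug (1 / rad g x))
        ((h.jet hx).Ag (1 / rad g x) fun k => -2 * (1 / rad g x) * glf g k x)
        ((h.jet hx).Bg (rad g x) fun k => 2 * rad g x * glf g k x) := by
    unfold Jet.QQ
    refine Finset.sum_congr rfl fun k _ => Finset.sum_congr rfl fun l _ => ?_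
    rw [h.up_g' hx.le]
    congr 1
    refine Finset.sum_congr rfl fun i _ => Finset.sum_congr rfl fun j _ => ?_
    rw [(h.HP_up_g hx k i j).pd, (h.HP_g hx l i j).pd]
  have q3 : ∑ k, ∑ l, up G k l x * ∑ i, ∑ j, pd k (up G i j) x * pd i (fun y => G y j l) x =
      Jet.TT (h.jet hx).U (h.jet hx).A (h.jet hx).B := rfl
  have q4 : ∑ k, ∑ l, up G k l x * ∑ i, ∑ j, pd k (up G i j) x * pd l (fun y => G y i j) x =
      Jet.QQ (h.jet hx).U (h.jet hx).A (h.jet hx).B := rfl
  have q5 : (h.jet hx).ct (h.jet hx).II (h.jet hx).II = ctr G (IIf G) (IIf G) x := rfl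
  have q6 : (h.jet hx).dn (fun k => glf g k x) = dN (lf g) x := by
    unfold Jet.dn dN
    refine Finset.sum_congr rfl fun i _ => ?_
    show glf g i x * nx i x = nx i x * glf g i x
    ring
  have q7 : ∑ k, ∑ l, (h.jet hx).S k l * glf g k x * glf g l x = S2 G (glf g) (glf g) x := rfl
  have q8 : (h.jet hx).r = len x := rfl
  rw [q5, q6, q7, q8] at hq
  rw [q1, q2, h.div_Vg hx, h.up_pd_Lg hx, h.LV_g hx] at hg
  rw [q3, q4] at hG
  have hDS := h.DS_glf hx
  rw [hG]
  rw [hg]
  linear_combination hq + hDS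

end Lapse

/-- **[A4]**: the scalar curvature of `g = G + (p - 1) dr²`. -/
theorem scal_lapse {G g : Field n} {R : ℝ} (h : Lapse G g R) {x : E n} (hx : R < len x) :
    scal g x = scal G x + (1 - 1 / rad g x) *
      (ctr G (IIf G) (IIf G) x + H1 G x ^ 2 + 2 * dN (H1 G) x) +
      2 / rad g x * dN (lf g) x * H1 G x - 2 * DS G (glf g) x -
      2 * S2 G (Lg G) (glf g) x - 2 * S2 G (glf g) (glf g) x := h.scal_lapse hx

end Vale.Agent.T4
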