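import Vale.Agent.P366.T4.Basic

/-!
T4, [A4]: the contraction of first derivatives for `g = G + (p - 1) N N` at one point (linear
algebra).
-/

open scoped BigOperators

noncomputable section
namespace Vale.Agent.T4

variable {n : ℕ}

/-- The first order data at a point of a metric `G` with unit lapse: `N` unit radial vector, `U` the
inverse of `G`, `A k i j = ∂ₖ Uⁱʲ`, `B k i j = ∂ₖ Gᵢⱼ`. -/
structure Jet (n : ℕ) where
  N : Fin n → ℝ
  r : ℝ
  G : Fin n → Fin n → ℝ
  U : Fin n → Fin n → ℝ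
  A : Fin n → Fin n → Fin n → ℝ
  B : Fin n → Fin n → Fin n → ℝ
  NN : ∑ i, N i * N i = 1
  Us : ∀ i j, U i j = U j i
  Gs : ∀ i j, G i j = G j i
  UN : ∀ i, ∑ j, U i j * N j = N i
  GN : ∀ i, ∑ j, G i j * N j = N i
  UG : ∀ i k, ∑ j, U i j * G j k = if i = k then 1 else 0
  As : ∀ k i j, A k i j = A k j i
  Bs : ∀ k i j, B k i j = B k j i
  AN : ∀ k i, ∑ j, A k i j * N j = ((if i = k then 1 else 0) - U i k) / r
  BN : ∀ k i, ∑ j, B k i j * N j = ((if i = k then 1 else 0) - G i k) / r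
  AB : ∀ k i j, A k i j = -∑ a, ∑ b, U i a * B k a b * U b j

namespace Jet

variable (J : Jet n)

/-- Kronecker delta minus `N N` -/
def P (i j : Fin n) : ℝ := (if i = j then 1 else 0) - J.N i * J.N j
def S (i j : Fin n) : ℝ := J.U i j - J.N i * J.N j
/-- `∂ₖ (Nᵢ Nⱼ)` -/
def M (k i j : Fin n) : ℝ := (J.P i k * J.N j + J.P j k * J.N i) / J.r
def Ug (v : ℝ) (i j : Fin n) : ℝ := J.U i j + (v - 1) * (J.N i * J.N j)
def Ag (v : ℝ) (dv : Fin n → ℝ) (k i j : Fin n) : ℝ :=
  J.A k i j + dv k * (J.N i * J.N j) + (v - 1) * J.M k i j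
def Bg (p : ℝ) (dp : Fin n → ℝ) (k i j : Fin n) : ℝ :=
  J.B k i j + dp k * (J.N i * J.N j) + (p - 1) * J.M k i j
/-- radial component -/
def dn (w : Fin n → ℝ) : ℝ := ∑ i, w i * J.N i
/-- radial derivative of `G` -/
def B0 (i j : Fin n) : ℝ := ∑ k, J.N k * J.B k i j
def A0 (i j : Fin n) : ℝ := ∑ k, J.N k * J.A k i j
def t1 : ℝ := ∑ i, ∑ j, J.S i j * J.B0 i j
def t2 : ℝ := -∑ i, ∑ j, J.A0 i j * J.B0 i j
def sS : ℝ := ∑ i, J.S i i
def sSS : ℝ := ∑ i, ∑ j, J.S i j * J.S i j

lemma P_symm (i j : Fin n) : J.P i j = J.P j i := by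
  unfold P
  rw [mul_comm]
  simp only [eq_comm (a := i) (b := j)]

lemma S_symm (i j : Fin n) : J.S i j = J.S j i := by
  unfold S
  rw [J.Us, mul_comm]

lemma PN (i : Fin n) : ∑ j, J.P i j * J.N j = 0 := by
  unfold P
  simp only [sub_mul, Finset.sum_sub_distrib, ite_mul, one_mul, zero_mul, Finset.sum_ite_eq,
    Finset.mem_univ, if_true, mul_assoc, ← Finset.mul_sum, J.NN, mul_one, sub_self]

lemma PN' (j : Fin n) : ∑ i, J.P i j * J.N i = 0 := by
  rw [← J.PN j]
  exact Finset.sum_congr rfl fun i _ => by rw [J.P_symm]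

lemma SN (i : Fin n) : ∑ j, J.S i j * J.N j = 0 := by
  unfold S
  simp only [sub_mul, Finset.sum_sub_distrib, J.UN, mul_assoc, ← Finset.mul_sum, J.NN, mul_one,
    sub_self]

lemma SN' (j : Fin n) : ∑ i, J.S i j * J.N i = 0 := by
  rw [← J.SN j]
  exact Finset.sum_congr rfl fun i _ => by rw [J.S_symm]

lemma UP (i k : Fin n) : ∑ j, J.U i j * J.P j k = J.S i k := by
  unfold P S
  have e : ∀ j, J.U i j * ((if j = k then 1 else 0) - J.N j * J.N k) =
      (if j = k then J.U i j else 0) - (J.U i j * J.N j) * J.N k := by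
    intro j
    split_ifs <;> ring
  simp only [e, Finset.sum_sub_distrib, ← Finset.sum_mul, J.UN]
  simp

lemma PU (i k : Fin n) : ∑ j, J.P i j * J.U j k = J.S i k := by
  rw [J.S_symm, ← J.UP]
  exact Finset.sum_congr rfl fun j _ => by rw [J.P_symm, J.Us, mul_comm]

lemma SG (i k : Fin n) : ∑ j, J.S i j * J.G j k = J.P i k := by
  unfold S P
  have e : ∀ j, (J.U i j - J.N i * J.N j) * J.G j k =
      J.U i j * J.G j k - J.N i * (J.G k j * J.N j) := by
    intro j
    rw [J.Gs k j]; ring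
  simp only [e, Finset.sum_sub_distrib, ← Finset.mul_sum, J.UG, J.GN]

/-- `δ - U` -/
lemma MN (k i : Fin n) : ∑ j, J.M k i j * J.N j = J.P i k / J.r := by
  have e : ∀ j, J.M k i j * J.N j = J.P i k / J.r * (J.N j * J.N j) +
      J.N i / J.r * (J.P j k * J.N j) := by
    intro j; unfold M; ring
  simp only [e, Finset.sum_add_distrib, ← Finset.mul_sum, J.NN, J.PN']
  ring

lemma NM (i j : Fin n) : ∑ k, J.N k * J.M k i j = 0 := by
  have e : ∀ k, J.N k * J.M k i j = J.N j / J.r * (J.P i k * J.N k) +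
      J.N i / J.r * (J.P j k * J.N k) := by
    intro k; unfold M; ring
  simp only [e, Finset.sum_add_distrib, ← Finset.mul_sum, J.PN]
  ring

lemma UM (k i j : Fin n) : ∑ l, J.U k l * J.M i j l =
    (J.P j i * J.N k + J.S k i * J.N j) / J.r := by
  have e : ∀ l, J.U k l * J.M i j l = J.P j i / J.r * (J.U k l * J.N l) +
      J.N j / J.r * (J.U k l * J.P l i) := by
    intro l; unfold M; ring
  simp only [e, Finset.sum_add_distrib, ← Finset.mul_sum, J.UN, J.UP]
  ring

lemma AgN (v : ℝ) (dv : Fin n → ℝ) (k i : Fin n) :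
    ∑ j, J.Ag v dv k i j * J.N j =
      ((if i = k then 1 else 0) - J.U i k) / J.r + dv k * J.N i + (v - 1) * J.P i k / J.r := by
  have e : ∀ j, J.Ag v dv k i j * J.N j = J.A k i j * J.N j + dv k * J.N i * (J.N j * J.N j) +
      (v - 1) * (J.M k i j * J.N j) := by
    intro j; unfold Ag; ring
  simp only [e, Finset.sum_add_distrib, ← Finset.mul_sum, J.NN, J.AN, J.MN]
  ring

lemma NAg (v : ℝ) (dv : Fin n → ℝ) (i j : Fin n) :
    ∑ k, J.N k * J.Ag v dv k i j = J.A0 i j + J.dn dv * (J.N i * J.N j) := by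
  have e : ∀ k, J.N k * J.Ag v dv k i j = J.N k * J.A k i j +
      (J.N i * J.N j) * (dv k * J.N k) + (v - 1) * (J.N k * J.M k i j) := by
    intro k; unfold Ag; ring
  simp only [e, Finset.sum_add_distrib, ← Finset.mul_sum, J.NM]
  unfold A0 dn
  ring

lemma UgBg (v p : ℝ) (hvp : v * p = 1) (dp : Fin n → ℝ) (k i j : Fin n) :
    ∑ l, J.Ug v k l * J.Bg p dp i j l = (∑ l, J.U k l * J.B i j l) +
      v * dp i * (J.N j * J.N k) + (1 - v) / J.r * (J.P i j * J.N k) +
      (p - 1) / J.r * (J.S k i * J.N j) +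
      (v - 1) / J.r * (((if j = i then 1 else 0) - J.G j i) * J.N k) := by
  have e : ∀ l, J.Ug v k l * J.Bg p dp i j l = J.U k l * J.B i j l +
      (v - 1) * J.N k * (J.B i j l * J.N l) + dp i * J.N j * (J.U k l * J.N l) +
      (v - 1) * dp i * J.N j * J.N k * (J.N l * J.N l) + (p - 1) * (J.U k l * J.M i j l) +
      (p - 1) * (v - 1) * J.N k * (J.M i j l * J.N l) := by
    intro l; unfold Ug Bg; ring
  simp only [e, Finset.sum_add_distrib, ← Finset.mul_sum, J.NN, J.UN, J.BN, J.UM, J.MN]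
  rw [J.P_symm i j]
  have h1 : (1 : ℝ) - v = v * p - v := by rw [hvp]
  rw [h1]
  have h2 : (v * p - v) / J.r * (J.P j i * J.N k) =
      (p - 1) * ((J.P j i * J.N k) / J.r) + (p - 1) * (v - 1) * J.N k * (J.P j i / J.r) := by ring
  rw [h2]
  ring

/-- `Uᵏˡ ∂ₖUⁱʲ ∂ᵢ Gⱼₗ` -/
def TT (U : Fin n → Fin n → ℝ) (A B : Fin n → Fin n → Fin n → ℝ) : ℝ :=
  ∑ k, ∑ l, U k l * ∑ i, ∑ j, A k i j * B i j l

/-- `Uᵏˡ ∂ₖUⁱʲ ∂ₗ Gᵢⱼ` -/
def QQ (U : Fin n → Fin n → ℝ) (A B : Fin n → Fin n → Fin n → ℝ) : ℝ :=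
  ∑ k, ∑ l, U k l * ∑ i, ∑ j, A k i j * B l i j

lemma TT_eq (U : Fin n → Fin n → ℝ) (A B : Fin n → Fin n → Fin n → ℝ) :
    TT U A B = ∑ k, ∑ i, ∑ j, A k i j * ∑ l, U k l * B i j l := by
  unfold TT
  refine Finset.sum_congr rfl fun k _ => ?_
  simp only [Finset.mul_sum]
  rw [Finset.sum_comm]
  refine Finset.sum_congr rfl fun i _ => ?_
  rw [Finset.sum_comm]
  refine Finset.sum_congr rfl fun j _ => ?_
  exact Finset.sum_congr rfl fun l _ => by ring

lemma swapN (X : Fin n → Fin n → Fin n → ℝ) (Y : Fin n → Fin n → ℝ) :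
    ∑ k, ∑ i, ∑ j, X k i j * (Y i j * J.N k) = ∑ i, ∑ j, (∑ k, J.N k * X k i j) * Y i j := by
  rw [Finset.sum_comm]
  refine Finset.sum_congr rfl fun i _ => ?_
  rw [Finset.sum_comm]
  refine Finset.sum_congr rfl fun j _ => ?_
  rw [Finset.sum_mul]
  exact Finset.sum_congr rfl fun k _ => by ring

lemma A0_symm (i j : Fin n) : J.A0 i j = J.A0 j i := by
  unfold A0
  exact Finset.sum_congr rfl fun k _ => by rw [J.As k i j]

lemma B0_symm (i j : Fin n) : J.B0 i j = J.B0 j i := by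
  unfold B0
  exact Finset.sum_congr rfl fun k _ => by rw [J.Bs k i j]

lemma A0N (i : Fin n) : ∑ j, J.A0 i j * J.N j = 0 := by
  unfold A0
  have e : ∑ j, (∑ k, J.N k * J.A k i j) * J.N j =
      ∑ k, J.N k * ∑ j, J.A k i j * J.N j := by
    simp only [Finset.sum_mul, Finset.mul_sum]
    rw [Finset.sum_comm]
    exact Finset.sum_congr rfl fun k _ => Finset.sum_congr rfl fun j _ => by ring
  rw [e]
  have e2 : ∀ k, J.N k * (((if i = k then 1 else 0) - J.U i k) / J.r) =
      ((if i = k then J.N k else 0) - J.U i k * J.N k) * (1 / J.r) := by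
    intro k; split_ifs <;> ring
  simp only [J.AN, e2, ← Finset.sum_mul, Finset.sum_sub_distrib, J.UN]
  simp

lemma B0N (i : Fin n) : ∑ j, J.B0 i j * J.N j = 0 := by
  unfold B0
  have e : ∑ j, (∑ k, J.N k * J.B k i j) * J.N j =
      ∑ k, J.N k * ∑ j, J.B k i j * J.N j := by
    simp only [Finset.sum_mul, Finset.mul_sum]
    rw [Finset.sum_comm]
    exact Finset.sum_congr rfl fun k _ => Finset.sum_congr rfl fun j _ => by ring
  rw [e]
  have e2 : ∀ k, J.N k * (((if i = k then 1 else 0) - J.G i k) / J.r) =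
      ((if i = k then J.N k else 0) - J.G i k * J.N k) * (1 / J.r) := by
    intro k; split_ifs <;> ring
  simp only [J.BN, e2, ← Finset.sum_mul, Finset.sum_sub_distrib, J.GN]
  simp

/-- `A₀ = - U B₀ U` -/
lemma A0_eq (i j : Fin n) : J.A0 i j = -∑ a, ∑ b, J.U i a * J.B0 a b * J.U b j := by
  unfold A0 B0
  simp only [J.AB, mul_neg, Finset.sum_neg_distrib]
  congr 1
  simp only [Finset.mul_sum, Finset.sum_mul]
  rw [Finset.sum_comm]
  refine Finset.sum_congr rfl fun a _ => ?_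
  rw [Finset.sum_comm]
  refine Finset.sum_congr rfl fun b _ => ?_
  exact Finset.sum_congr rfl fun k _ => by ring

lemma delta_sum (f : Fin n → Fin n → ℝ) :
    ∑ i, ∑ j, f i j * (if j = i then 1 else 0) = ∑ i, f i i := by
  refine Finset.sum_congr rfl fun i _ => ?_
  simp

/-- `tr (G A₀) = - tr (U B₀)` -/
lemma GA0 : ∑ i, ∑ j, J.A0 i j * J.G j i = -J.t1 := by
  have h1 : ∑ i, ∑ j, J.A0 i j * J.G j i = -∑ i, ∑ a, J.U i a * J.B0 a i := by
    rw [← Finset.sum_neg_distrib]
    refine Finset.sum_congr rfl fun i _ => ?_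
    have e : ∀ j, J.A0 i j * J.G j i = -∑ a, ∑ b, J.U i a * J.B0 a b * (J.U b j * J.G j i) := by
      intro j
      rw [A0_eq, neg_mul, Finset.sum_mul]
      congr 1
      refine Finset.sum_congr rfl fun a _ => ?_
      rw [Finset.sum_mul]
      exact Finset.sum_congr rfl fun b _ => by ring
    simp only [e, Finset.sum_neg_distrib]
    congr 1
    rw [Finset.sum_comm]
    refine Finset.sum_congr rfl fun a _ => ?_
    rw [Finset.sum_comm]
    simp only [← Finset.mul_sum, J.UG]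
    simp
  rw [h1]
  congr 1
  unfold t1
  refine Finset.sum_congr rfl fun i _ => ?_
  have e : ∀ j, J.S i j * J.B0 i j = J.U i j * J.B0 j i - J.N i * (J.B0 i j * J.N j) := by
    intro j
    unfold S
    rw [J.B0_symm j i]
    ring
  simp only [e, Finset.sum_sub_distrib, ← Finset.mul_sum, J.B0N, mul_zero, sub_zero]

lemma sSU : ∑ k, ∑ i, J.S k i * J.U i k = J.sSS := by
  unfold sSS
  refine Finset.sum_congr rfl fun k _ => ?_
  have e : ∀ i, J.S k i * J.U i k = J.S k i * J.S k i + (J.S k i * J.N i) * J.N k := by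
    intro i
    rw [J.Us i k]
    unfold S
    ring
  simp only [e, Finset.sum_add_distrib, ← Finset.sum_mul, J.SN]
  simp

/-- trace of the projection -/
lemma trP : ∑ i, J.P i i = (n : ℝ) - 1 := by
  unfold P
  simp only [if_true, Finset.sum_sub_distrib, J.NN]
  simp

lemma term2 (v : ℝ) (dv dp : Fin n → ℝ) :
    ∑ k, ∑ i, ∑ j, J.Ag v dv k i j * (dp i * (J.N j * J.N k)) = J.dn dv * J.dn dp := by
  have e : ∀ k i j, J.Ag v dv k i j * (dp i * (J.N j * J.N k)) =
      J.Ag v dv k i j * ((dp i * J.N j) * J.N k) := fun k i j => by ring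
  simp only [e]
  rw [J.swapN (J.Ag v dv) (fun i j => dp i * J.N j)]
  simp only [J.NAg]
  have e2 : ∀ i, ∑ j, (J.A0 i j + J.dn dv * (J.N i * J.N j)) * (dp i * J.N j) =
      J.dn dv * (dp i * J.N i) := by
    intro i
    have : ∀ j, (J.A0 i j + J.dn dv * (J.N i * J.N j)) * (dp i * J.N j) =
        dp i * (J.A0 i j * J.N j) + J.dn dv * (dp i * J.N i) * (J.N j * J.N j) := fun j => by ring
    simp only [this, Finset.sum_add_distrib, ← Finset.mul_sum, J.A0N, J.NN]
    ring
  simp only [e2, ← Finset.mul_sum]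
  rfl

lemma term3 (v : ℝ) (dv : Fin n → ℝ) :
    ∑ k, ∑ i, ∑ j, J.Ag v dv k i j * (J.P i j * J.N k) = ∑ i, J.A0 i i := by
  rw [J.swapN (J.Ag v dv) J.P]
  simp only [J.NAg]
  refine Finset.sum_congr rfl fun i _ => ?_
  have : ∀ j, (J.A0 i j + J.dn dv * (J.N i * J.N j)) * J.P i j =
      J.A0 i j * (if i = j then 1 else 0) - J.N i * (J.A0 i j * J.N j) +
        J.dn dv * J.N i * (J.P i j * J.N j) := by
    intro j; unfold P; ring
  simp only [this, Finset.sum_add_distrib, Finset.sum_sub_distrib, ← Finset.mul_sum, J.A0N, J.PN]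
  simp

lemma term5 (v : ℝ) (dv : Fin n → ℝ) :
    ∑ k, ∑ i, ∑ j, J.Ag v dv k i j * (((if j = i then 1 else 0) - J.G j i) * J.N k) =
      (∑ i, J.A0 i i) + J.t1 := by
  rw [J.swapN (J.Ag v dv) (fun i j => (if j = i then 1 else 0) - J.G j i)]
  simp only [J.NAg]
  have e2 : ∀ i, ∑ j, (J.A0 i j + J.dn dv * (J.N i * J.N j)) *
      ((if j = i then 1 else 0) - J.G j i) = J.A0 i i - ∑ j, J.A0 i j * J.G j i := by
    intro i
    have : ∀ j, (J.A0 i j + J.dn dv * (J.N i * J.N j)) * ((if j = i then 1 else 0) - J.G j i) =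
        (if j = i then J.A0 i j else 0) - J.A0 i j * J.G j i +
        J.dn dv * J.N i * ((if j = i then J.N j else 0) - J.G i j * J.N j) := by
      intro j
      rw [J.Gs j i]
      split_ifs <;> ring
    simp only [this, Finset.sum_add_distrib, Finset.sum_sub_distrib, ← Finset.mul_sum, J.GN]
    simp
  simp only [e2, Finset.sum_sub_distrib, J.GA0]
  ring

lemma term4 (v : ℝ) (dv : Fin n → ℝ) :
    ∑ k, ∑ i, ∑ j, J.Ag v dv k i j * (J.S k i * J.N j) = (v * J.sS - J.sSS) / J.r := by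
  have e : ∀ k i, ∑ j, J.Ag v dv k i j * (J.S k i * J.N j) =
      (1 / J.r) * ((if i = k then J.S k i else 0) - J.S k i * J.U i k) +
      dv k * (J.S k i * J.N i) + (v - 1) / J.r * ((if i = k then J.S k i else 0) -
        (J.S k i * J.N i) * J.N k) := by
    intro k i
    have : ∀ j, J.Ag v dv k i j * (J.S k i * J.N j) = J.S k i * (J.Ag v dv k i j * J.N j) :=
      fun j => by ring
    simp only [this, ← Finset.mul_sum, J.AgN]
    unfold P
    split_ifs <;> ring
  simp only [e, Finset.sum_add_distrib, Finset.sum_sub_distrib, ← Finset.mul_sum,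
    ← Finset.sum_mul, J.SN, J.sSU]
  unfold sS
  simp
  ring

lemma term1 (v : ℝ) (dv : Fin n → ℝ) :
    ∑ k, ∑ i, ∑ j, J.Ag v dv k i j * ∑ l, J.U k l * J.B i j l =
      TT J.U J.A J.B + (v - 1) / J.r * ((J.sS - ((n : ℝ) - 1)) / J.r + J.t1) := by
  have hBN : ∀ i l, ∑ j, J.N j * J.B i j l = ((if l = i then 1 else 0) - J.G l i) / J.r := by
    intro i l
    rw [← J.BN i l]
    exact Finset.sum_congr rfl fun j _ => by rw [J.Bs i j l]; ring
  have e : ∀ k i j, J.Ag v dv k i j * ∑ l, J.U k l * J.B i j l =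
      J.A k i j * (∑ l, J.U k l * J.B i j l) +
      dv k * (J.N i * (J.N j * ∑ l, J.U k l * J.B i j l)) +
      (v - 1) / J.r * (J.P i k * (J.N j * ∑ l, J.U k l * J.B i j l)) +
      (v - 1) / J.r * (J.P j k * (J.N i * ∑ l, J.U k l * J.B i j l)) := by
    intro k i j
    unfold Ag M
    ring
  -- contraction with `N j`
  have e1 : ∀ k i, ∑ j, J.N j * ∑ l, J.U k l * J.B i j l =
      (1 / J.r) * (J.U k i - (if k = i then 1 else 0)) := by
    intro k i
    simp only [Finset.mul_sum]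
    rw [Finset.sum_comm]
    have : ∀ l, ∑ j, J.N j * (J.U k l * J.B i j l) =
        (1 / J.r) * ((if l = i then J.U k l else 0) - J.U k l * J.G l i) := by
      intro l
      have h2 : ∀ j, J.N j * (J.U k l * J.B i j l) = J.U k l * (J.N j * J.B i j l) :=
        fun j => by ring
      simp only [h2, ← Finset.mul_sum, hBN]
      split_ifs <;> ring
    simp only [this, ← Finset.mul_sum, Finset.sum_sub_distrib, J.UG]
    simp
  -- second term
  have a2 : ∑ k, ∑ i, ∑ j, dv k * (J.N i * (J.N j * ∑ l, J.U k l * J.B i j l)) = 0 := by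
    refine Finset.sum_eq_zero fun k _ => ?_
    simp only [← Finset.mul_sum, e1]
    have : ∀ i, J.N i * (1 / J.r * (J.U k i - if k = i then 1 else 0)) =
        (1 / J.r) * (J.U k i * J.N i - (if k = i then J.N i else 0)) := by
      intro i; split_ifs <;> ring
    simp only [this, ← Finset.mul_sum, Finset.sum_sub_distrib, J.UN]
    simp
  -- third term
  have a3 : ∑ k, ∑ i, ∑ j, (J.P i k * (J.N j * ∑ l, J.U k l * J.B i j l)) =
      (J.sS - ((n : ℝ) - 1)) / J.r := by
    simp only [← Finset.mul_sum, e1]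
    have : ∀ k i, J.P i k * (1 / J.r * (J.U k i - if k = i then 1 else 0)) =
        (1 / J.r) * (J.P k i * J.U i k - (if k = i then J.P i i else 0)) := by
      intro k i
      rw [J.Us i k, J.P_symm k i]
      split_ifs with h
      · subst h; ring
      · ring
    simp only [this, ← Finset.mul_sum, Finset.sum_sub_distrib, J.PU]
    have h3 := J.trP
    simp only [Finset.sum_ite_eq, Finset.mem_univ, if_true, h3]
    unfold sS
    ring
  -- fourth term
  have a4 : ∑ k, ∑ i, ∑ j, (J.P j k * (J.N i * ∑ l, J.U k l * J.B i j l)) = J.t1 := by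
    have h1 : ∀ k, ∑ i, ∑ j, (J.P j k * (J.N i * ∑ l, J.U k l * J.B i j l)) =
        ∑ j, ∑ l, J.P j k * J.U k l * J.B0 j l := by
      intro k
      rw [Finset.sum_comm]
      refine Finset.sum_congr rfl fun j _ => ?_
      unfold B0
      simp only [Finset.mul_sum]
      rw [Finset.sum_comm]
      exact Finset.sum_congr rfl fun l _ => Finset.sum_congr rfl fun i _ => by ring
    simp only [h1]
    rw [Finset.sum_comm]
    unfold t1
    refine Finset.sum_congr rfl fun j _ => ?_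
    rw [Finset.sum_comm]
    refine Finset.sum_congr rfl fun l _ => ?_
    rw [← J.PU, Finset.sum_mul]
  simp only [e, Finset.sum_add_distrib]
  rw [a2]
  simp only [← Finset.mul_sum] at a3 a4 ⊢
  rw [a3, a4, TT_eq]
  ring

/-- **the first contraction** -/
theorem TT_g (v p : ℝ) (hvp : v * p = 1) (dv dp : Fin n → ℝ) :
    TT (J.Ug v) (J.Ag v dv) (J.Bg p dp) = TT J.U J.A J.B -
      (v - 1) * ((n : ℝ) - 1) / J.r ^ 2 + 2 * (v - 1) / J.r * J.t1 + v * (J.dn dv * J.dn dp) -
      (p - 1) * J.sSS / J.r ^ 2 := by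
  have hr : (v - 1) * J.sS + (p - 1) * (v * J.sS) = 0 := by
    have : (v - 1) * J.sS + (p - 1) * (v * J.sS) = (v * p - 1) * J.sS := by ring
    rw [this, hvp]; ring
  rw [TT_eq]
  simp only [J.UgBg v p hvp dp, mul_add, Finset.sum_add_distrib]
  have e2 : ∀ k i j, J.Ag v dv k i j * (v * dp i * (J.N j * J.N k)) =
      v * (J.Ag v dv k i j * (dp i * (J.N j * J.N k))) := fun k i j => by ring
  have e3 : ∀ k i j, J.Ag v dv k i j * ((1 - v) / J.r * (J.P i j * J.N k)) =
      (1 - v) / J.r * (J.Ag v dv k i j * (J.P i j * J.N k)) := fun k i j => by ring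
  have e4 : ∀ k i j, J.Ag v dv k i j * ((p - 1) / J.r * (J.S k i * J.N j)) =
      (p - 1) / J.r * (J.Ag v dv k i j * (J.S k i * J.N j)) := fun k i j => by ring
  have e5 : ∀ k i j, J.Ag v dv k i j * ((v - 1) / J.r * (((if j = i then 1 else 0) - J.G j i) *
      J.N k)) = (v - 1) / J.r * (J.Ag v dv k i j * (((if j = i then 1 else 0) - J.G j i) *
      J.N k)) := fun k i j => by ring
  simp only [e2, e3, e4, e5]
  simp only [← Finset.mul_sum]
  have t1' := J.term1 v dv
  have t2' := J.term2 v dv dp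
  have t3' := J.term3 v dv
  have t4' := J.term4 v dv
  have t5' := J.term5 v dv
  rw [t1', t2', t3', t4', t5']
  have : (p - 1) / J.r * ((v * J.sS - J.sSS) / J.r) =
      ((p - 1) * (v * J.sS)) / J.r ^ 2 - (p - 1) * J.sSS / J.r ^ 2 := by ring
  rw [this]
  have h4 : (p - 1) * (v * J.sS) = -((v - 1) * J.sS) := by linarith
  rw [h4]
  ring

end Jet

end Vale.Agent.T4
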