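import Vale.Agent.P366.T4.A4a

/-!
T4, [A4]: the second contraction, and the squared second fundamental form.
-/

open scoped BigOperators

noncomputable section
namespace Vale.Agent.T4

variable {n : ℕ}

namespace Jet

variable (J : Jet n)

lemma MX (X : Fin n → Fin n → ℝ) (hX : ∀ i j, X i j = X j i) (l : Fin n) :
    ∑ i, ∑ j, X i j * J.M l i j = 2 / J.r * ∑ i, J.P i l * ∑ j, X i j * J.N j := by
  have h1 : ∑ i, ∑ j, X i j * (J.P j l * J.N i) = ∑ i, J.P i l * ∑ j, X i j * J.N j := by
    rw [Finset.sum_comm]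
    refine Finset.sum_congr rfl fun i _ => ?_
    rw [Finset.mul_sum]
    exact Finset.sum_congr rfl fun j _ => by rw [hX j i]; ring
  have h2 : ∑ i, ∑ j, X i j * (J.P i l * J.N j) = ∑ i, J.P i l * ∑ j, X i j * J.N j := by
    refine Finset.sum_congr rfl fun i _ => ?_
    rw [Finset.mul_sum]
    exact Finset.sum_congr rfl fun j _ => by ring
  have e : ∀ i j, X i j * J.M l i j = 1 / J.r * (X i j * (J.P i l * J.N j)) +
      1 / J.r * (X i j * (J.P j l * J.N i)) := by
    intro i j; unfold M; ring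
  have h3 : ∑ i, ∑ j, X i j * J.M l i j = 1 / J.r * (∑ i, ∑ j, X i j * (J.P i l * J.N j)) +
      1 / J.r * (∑ i, ∑ j, X i j * (J.P j l * J.N i)) := by
    simp only [e, Finset.sum_add_distrib]
    simp only [← Finset.mul_sum (a := 1 / J.r)]
  rw [h3, h1, h2]
  ring

lemma PP (k l : Fin n) : ∑ i, J.P i k * J.P i l = J.P k l := by
  have e : ∀ i, J.P i k * J.P i l = (if k = i then J.P i l else 0) -
      J.N k * (J.P i l * J.N i) := by
    intro i
    by_cases h : i = k
    · subst h; simp only [P, if_true]; ring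
    · have h' : ¬ k = i := fun hh => h hh.symm
      simp only [P, h, h', if_false]; ring
  simp only [e, Finset.sum_sub_distrib, ← Finset.mul_sum, J.PN']
  simp

lemma PD (H : Fin n → Fin n → ℝ) (k l : Fin n)
    (hN : ∑ i, J.N i * H i k = J.N k) :
    ∑ i, J.P i l * ((if i = k then 1 else 0) - H i k) = (if k = l then 1 else 0) - H l k := by
  have e : ∀ i, J.P i l * ((if i = k then 1 else 0) - H i k) =
      (if l = i then (if i = k then 1 else 0) - H i k else 0) -
      J.N l * ((if k = i then J.N i else 0) - J.N i * H i k) := by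
    intro i
    unfold P
    by_cases h : i = l
    · subst h
      by_cases h2 : i = k
      · subst h2; simp only [if_true]; ring
      · have h2' : ¬ k = i := fun hh => h2 hh.symm
        simp only [h2, h2', if_true, if_false]; ring
    · have h' : ¬ l = i := fun hh => h hh.symm
      by_cases h2 : i = k
      · subst h2; simp only [h, h', if_true, if_false]; ring
      · have h2' : ¬ k = i := fun hh => h2 hh.symm
        simp only [h, h', h2, h2', if_false]; ring
  simp only [e, Finset.sum_sub_distrib, ← Finset.mul_sum, hN]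
  simp [eq_comm]

lemma NU (k : Fin n) : ∑ i, J.N i * J.U i k = J.N k := by
  rw [← J.UN k]
  exact Finset.sum_congr rfl fun i _ => by rw [J.Us i k]; ring

lemma NG (k : Fin n) : ∑ i, J.N i * J.G i k = J.N k := by
  rw [← J.GN k]
  exact Finset.sum_congr rfl fun i _ => by rw [J.Gs i k]; ring

lemma M_symm (k i j : Fin n) : J.M k i j = J.M k j i := by
  unfold M; ring

lemma Ag_symm (v : ℝ) (dv : Fin n → ℝ) (k i j : Fin n) : J.Ag v dv k i j = J.Ag v dv k j i := by
  unfold Ag
  rw [J.As k i j, J.M_symm k i j]; ring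

/-- `∑ᵢⱼ Ag Bg` -/
lemma EE (v p : ℝ) (dv dp : Fin n → ℝ) (k l : Fin n) :
    ∑ i, ∑ j, J.Ag v dv k i j * J.Bg p dp l i j = (∑ i, ∑ j, J.A k i j * J.B l i j) +
      dv k * dp l + 2 / J.r ^ 2 * ((v - 1) * ((if l = k then 1 else 0) - J.G k l) +
        (p - 1) * ((if k = l then 1 else 0) - J.U l k) + (p - 1) * (v - 1) * J.P k l) := by
  have e : ∀ i j, J.Ag v dv k i j * J.Bg p dp l i j = J.A k i j * J.B l i j +
      dv k * (J.N i * (J.B l i j * J.N j)) + (v - 1) * (J.B l i j * J.M k i j) +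
      dp l * (J.N i * (J.Ag v dv k i j * J.N j)) + (p - 1) * (J.Ag v dv k i j * J.M l i j) := by
    intro i j
    unfold Bg
    nth_rewrite 1 [Ag]
    unfold Ag
    ring
  have a1 : ∑ i, ∑ j, dv k * (J.N i * (J.B l i j * J.N j)) = 0 := by
    simp only [← Finset.mul_sum, J.BN]
    have : ∀ i, J.N i * (((if i = l then 1 else 0) - J.G i l) / J.r) =
        (1 / J.r) * ((if l = i then J.N i else 0) - J.N i * J.G i l) := by
      intro i
      by_cases h : i = l
      · subst h; simp only [if_true]; ring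
      · have h' : ¬ l = i := fun hh => h hh.symm
        simp only [h, h', if_false]; ring
    simp only [this, ← Finset.mul_sum, Finset.sum_sub_distrib, J.NG]
    simp
  have a2 : ∑ i, ∑ j, J.B l i j * J.M k i j =
      2 / J.r ^ 2 * ((if l = k then 1 else 0) - J.G k l) := by
    rw [J.MX (J.B l) (J.Bs l) k]
    simp only [J.BN]
    have : ∀ i, J.P i k * (((if i = l then 1 else 0) - J.G i l) / J.r) =
        1 / J.r * (J.P i k * ((if i = l then 1 else 0) - J.G i l)) := fun i => by ring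
    simp only [this, ← Finset.mul_sum]
    rw [J.PD J.G l k (J.NG l)]
    ring
  have a3 : ∑ i, ∑ j, dp l * (J.N i * (J.Ag v dv k i j * J.N j)) = dv k * dp l := by
    simp only [← Finset.mul_sum, J.AgN]
    have : ∀ i, J.N i * (((if i = k then 1 else 0) - J.U i k) / J.r + dv k * J.N i +
        (v - 1) * J.P i k / J.r) =
        (1 / J.r) * ((if k = i then J.N i else 0) - J.N i * J.U i k) +
        dv k * (J.N i * J.N i) + (v - 1) / J.r * (J.P i k * J.N i) := by
      intro i
      by_cases h : i = k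
      · subst h; simp only [if_true]; ring
      · have h' : ¬ k = i := fun hh => h hh.symm
        simp only [h, h', if_false]; ring
    simp only [this, ← Finset.mul_sum, Finset.sum_sub_distrib, Finset.sum_add_distrib, J.NU,
      J.NN, J.PN']
    simp
    ring
  have a4 : ∑ i, ∑ j, J.Ag v dv k i j * J.M l i j =
      2 / J.r ^ 2 * (((if k = l then 1 else 0) - J.U l k) + (v - 1) * J.P k l) := by
    rw [J.MX (J.Ag v dv k) (J.Ag_symm v dv k) l]
    simp only [J.AgN]
    have : ∀ i, J.P i l * (((if i = k then 1 else 0) - J.U i k) / J.r + dv k * J.N i +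
        (v - 1) * J.P i k / J.r) =
        1 / J.r * (J.P i l * ((if i = k then 1 else 0) - J.U i k)) +
        dv k * (J.P i l * J.N i) + (v - 1) / J.r * (J.P i k * J.P i l) := fun i => by ring
    simp only [this, ← Finset.mul_sum, Finset.sum_add_distrib, J.PN', J.PP]
    rw [J.PD J.U k l (J.NU k)]
    ring
  simp only [e, Finset.sum_add_distrib]
  rw [a1, a3]
  simp only [← Finset.mul_sum (a := v - 1), ← Finset.mul_sum (a := p - 1), a2, a4]
  ring

lemma sSG : ∑ k, ∑ l, J.S k l * J.G k l = (n : ℝ) - 1 := by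
  rw [← J.trP]
  refine Finset.sum_congr rfl fun k _ => ?_
  rw [← J.SG k k]
  exact Finset.sum_congr rfl fun l _ => by rw [J.Gs k l]

lemma UP' : ∑ k, ∑ l, J.S k l * J.P k l = J.sS := by
  unfold sS
  refine Finset.sum_congr rfl fun k _ => ?_
  have e : ∀ l, J.S k l * J.P k l = (if k = l then J.S k l else 0) -
      (J.S k l * J.N l) * J.N k := by
    intro l; unfold P; split_ifs <;> ring
  simp only [e, Finset.sum_sub_distrib, ← Finset.sum_mul, J.SN]
  simp

lemma delta2 (X : Fin n → Fin n → ℝ) : ∑ k, ∑ l, X k l * (if l = k then 1 else 0) =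
    ∑ k, X k k := by
  refine Finset.sum_congr rfl fun k _ => ?_
  simp

lemma delta3 (X : Fin n → Fin n → ℝ) : ∑ k, ∑ l, X k l * (if k = l then 1 else 0) =
    ∑ k, X k k := by
  refine Finset.sum_congr rfl fun k _ => ?_
  simp

/-- `∑ N N X` splits off -/
lemma Ug_sum (v : ℝ) (X : Fin n → Fin n → ℝ) : ∑ k, ∑ l, J.Ug v k l * X k l =
    (∑ k, ∑ l, J.S k l * X k l) + v * ∑ k, J.N k * ∑ l, X k l * J.N l := by
  have e : ∀ k l, J.Ug v k l * X k l = J.S k l * X k l + v * (J.N k * (X k l * J.N l)) := by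
    intro k l; unfold Ug S; ring
  simp only [e, Finset.sum_add_distrib]
  simp only [← Finset.mul_sum]

/-- **the second contraction** -/
theorem QQ_g (v p : ℝ) (hvp : v * p = 1) (dv dp : Fin n → ℝ) :
    QQ (J.Ug v) (J.Ag v dv) (J.Bg p dp) = QQ J.U J.A J.B - (v - 1) * J.t2 +
      (∑ k, ∑ l, J.S k l * dv k * dp l) + v * (J.dn dv * J.dn dp) -
      2 / J.r ^ 2 * ((v - 1) * ((n : ℝ) - 1) + (p - 1) * J.sSS) := by
  unfold QQ
  simp only [J.EE]
  have e : ∀ k l, J.Ug v k l * ((∑ i, ∑ j, J.A k i j * J.B l i j) +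
      dv k * dp l + 2 / J.r ^ 2 * ((v - 1) * ((if l = k then 1 else 0) - J.G k l) +
        (p - 1) * ((if k = l then 1 else 0) - J.U l k) + (p - 1) * (v - 1) * J.P k l)) =
      J.U k l * (∑ i, ∑ j, J.A k i j * J.B l i j) +
      (v - 1) * (J.N k * (J.N l * (∑ i, ∑ j, J.A k i j * J.B l i j))) +
      J.Ug v k l * (dv k * dp l) +
      2 / J.r ^ 2 * (v - 1) * (J.Ug v k l * ((if l = k then 1 else 0) - J.G k l)) +
      2 / J.r ^ 2 * (p - 1) * (J.Ug v k l * ((if k = l then 1 else 0) - J.U l k)) +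
      2 / J.r ^ 2 * ((p - 1) * (v - 1)) * (J.Ug v k l * J.P k l) := by
    intro k l; nth_rewrite 1 [Ug]; unfold Ug; ring
  have b1 : ∑ k, ∑ l, J.N k * (J.N l * (∑ i, ∑ j, J.A k i j * J.B l i j)) = -J.t2 := by
    unfold t2 A0 B0
    rw [neg_neg]
    have h1 : ∀ i j, (∑ k, J.N k * J.A k i j) * (∑ l, J.N l * J.B l i j) =
        ∑ k, ∑ l, J.N k * (J.N l * (J.A k i j * J.B l i j)) := by
      intro i j
      rw [Finset.sum_mul]
      refine Finset.sum_congr rfl fun k _ => ?_
      rw [Finset.mul_sum]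
      exact Finset.sum_congr rfl fun l _ => by ring
    simp only [h1]
    calc ∑ k, ∑ l, J.N k * (J.N l * (∑ i, ∑ j, J.A k i j * J.B l i j))
        = ∑ k, ∑ l, ∑ i, ∑ j, J.N k * (J.N l * (J.A k i j * J.B l i j)) := by
          simp only [Finset.mul_sum]
      _ = ∑ k, ∑ i, ∑ l, ∑ j, J.N k * (J.N l * (J.A k i j * J.B l i j)) :=
          Finset.sum_congr rfl fun k _ => Finset.sum_comm
      _ = ∑ i, ∑ k, ∑ l, ∑ j, J.N k * (J.N l * (J.A k i j * J.B l i j)) := Finset.sum_comm
      _ = ∑ i, ∑ k, ∑ j, ∑ l, J.N k * (J.N l * (J.A k i j * J.B l i j)) :=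
          Finset.sum_congr rfl fun i _ => Finset.sum_congr rfl fun k _ => Finset.sum_comm
      _ = _ := Finset.sum_congr rfl fun i _ => Finset.sum_comm
  have b2 : ∑ k, ∑ l, J.Ug v k l * (dv k * dp l) =
      (∑ k, ∑ l, J.S k l * dv k * dp l) + v * (J.dn dv * J.dn dp) := by
    rw [J.Ug_sum]
    congr 1
    · exact Finset.sum_congr rfl fun k _ => Finset.sum_congr rfl fun l _ => by ring
    · congr 1
      unfold dn
      rw [Finset.sum_mul]
      refine Finset.sum_congr rfl fun k _ => ?_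
      rw [Finset.mul_sum, Finset.mul_sum]
      exact Finset.sum_congr rfl fun l _ => by ring
  have b3 : ∑ k, ∑ l, J.Ug v k l * ((if l = k then 1 else 0) - J.G k l) =
      J.sS - ((n : ℝ) - 1) := by
    rw [J.Ug_sum]
    have h1 : ∀ k, ∑ l, ((if l = k then 1 else 0) - J.G k l) * J.N l = 0 := by
      intro k
      simp only [sub_mul, Finset.sum_sub_distrib, J.GN]
      simp
    simp only [h1, mul_sub, Finset.sum_sub_distrib, J.sSG]
    rw [delta2]
    simp
    rfl
  have b4 : ∑ k, ∑ l, J.Ug v k l * ((if k = l then 1 else 0) - J.U l k) =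
      J.sS - J.sSS := by
    rw [J.Ug_sum]
    have h1 : ∀ k, ∑ l, ((if k = l then 1 else 0) - J.U l k) * J.N l = 0 := by
      intro k
      have : ∀ l, ((if k = l then 1 else 0) - J.U l k) * J.N l =
          (if k = l then J.N l else 0) - J.U k l * J.N l := by
        intro l; rw [J.Us l k]; split_ifs <;> ring
      simp only [this, Finset.sum_sub_distrib, J.UN]
      simp
    simp only [h1, mul_sub, Finset.sum_sub_distrib, J.sSU]
    rw [delta3]
    simp
    rfl
  have b5 : ∑ k, ∑ l, J.Ug v k l * J.P k l = J.sS := by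
    rw [J.Ug_sum, J.UP']
    simp only [J.PN]
    simp
  simp only [e, Finset.sum_add_distrib]
  rw [b2]
  simp only [← Finset.mul_sum (a := v - 1), ← Finset.mul_sum (a := 2 / J.r ^ 2 * (v - 1)),
    ← Finset.mul_sum (a := 2 / J.r ^ 2 * (p - 1)),
    ← Finset.mul_sum (a := 2 / J.r ^ 2 * ((p - 1) * (v - 1))), b1, b3, b4, b5]
  have h5 : (v - 1) * J.sS + (p - 1) * J.sS + (p - 1) * (v - 1) * J.sS = 0 := by
    have : (v - 1) * J.sS + (p - 1) * J.sS + (p - 1) * (v - 1) * J.sS = (v * p - 1) * J.sS := by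
      ring
    rw [this, hvp]; ring
  linear_combination (2 / J.r ^ 2) * h5

/-- second fundamental form of the spheres -/
def II (i j : Fin n) : ℝ := J.B0 i j / 2 + (J.G i j - J.N i * J.N j) / J.r

/-- contraction of two tangential tensors -/
def ct (X Y : Fin n → Fin n → ℝ) : ℝ :=
  ∑ i, ∑ j, ∑ k, ∑ l, J.S i k * J.S j l * X i j * Y k l

lemma ct_eq (X Y : Fin n → Fin n → ℝ) :
    J.ct X Y = ∑ i, ∑ j, X i j * ∑ k, J.S i k * ∑ l, J.S j l * Y k l := by
  unfold ct
  refine Finset.sum_congr rfl fun i _ => Finset.sum_congr rfl fun j _ => ?_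
  simp only [Finset.mul_sum]
  exact Finset.sum_congr rfl fun k _ => Finset.sum_congr rfl fun l _ => by ring

lemma SP (i j : Fin n) : ∑ k, J.S i k * J.P j k = J.S i j := by
  have e : ∀ k, J.S i k * J.P j k = (if j = k then J.S i k else 0) -
      (J.S i k * J.N k) * J.N j := by
    intro l; unfold P; split_ifs <;> ring
  simp only [e, Finset.sum_sub_distrib, ← Finset.sum_mul, J.SN]
  simp

lemma SY (j k : Fin n) : ∑ l, J.S j l * (J.G k l - J.N k * J.N l) = J.P j k := by
  have e : ∀ l, J.S j l * (J.G k l - J.N k * J.N l) = J.S j l * J.G l k -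
      (J.S j l * J.N l) * J.N k := by
    intro l; rw [J.Gs k l]; ring
  simp only [e, Finset.sum_sub_distrib, ← Finset.sum_mul, J.SN, J.SG]
  simp

/-- **the squared second fundamental form** -/
theorem ct_II : J.ct J.II J.II = J.t2 / 4 + J.t1 / J.r + ((n : ℝ) - 1) / J.r ^ 2 := by
  -- contraction with one factor
  have h1 : ∀ j k, ∑ l, J.S j l * J.II k l = (∑ l, J.S j l * J.B0 k l) / 2 + J.P j k / J.r := by
    intro j k
    have e : ∀ l, J.S j l * J.II k l = (J.S j l * J.B0 k l) / 2 +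
        (J.S j l * (J.G k l - J.N k * J.N l)) / J.r := by
      intro l; unfold II; ring
    simp only [e, Finset.sum_add_distrib, ← Finset.sum_div, J.SY]
  have h2 : ∀ i j, ∑ k, J.S i k * ∑ l, J.S j l * J.II k l =
      (∑ k, J.S i k * ∑ l, J.S j l * J.B0 k l) / 2 + J.S i j / J.r := by
    intro i j
    simp only [h1]
    have e : ∀ k, J.S i k * ((∑ l, J.S j l * J.B0 k l) / 2 + J.P j k / J.r) =
        (J.S i k * ∑ l, J.S j l * J.B0 k l) / 2 + (J.S i k * J.P j k) / J.r := fun k => by ring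
    simp only [e, Finset.sum_add_distrib, ← Finset.sum_div, J.SP]
  -- the raised radial derivative
  have hZ : ∀ i j, ∑ k, J.S i k * ∑ l, J.S j l * J.B0 k l = -J.A0 i j := by
    intro i j
    rw [J.A0_eq, neg_neg]
    have e1 : ∀ k, ∑ l, J.S j l * J.B0 k l = ∑ l, J.B0 k l * J.U l j := by
      intro k
      have : ∀ l, J.S j l * J.B0 k l = J.B0 k l * J.U l j - (J.B0 k l * J.N l) * J.N j := by
        intro l; rw [J.Us l j]; unfold S; ring
      simp only [this, Finset.sum_sub_distrib, ← Finset.sum_mul, J.B0N]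
      simp
    simp only [e1]
    have e2 : ∀ k, J.S i k * ∑ l, J.B0 k l * J.U l j =
        J.U i k * (∑ l, J.B0 k l * J.U l j) - J.N i * (∑ l, (J.B0 l k * J.N k) * J.U l j) := by
      intro k
      have : ∀ l, (J.B0 l k * J.N k) * J.U l j = J.N k * (J.B0 k l * J.U l j) := by
        intro l; rw [J.B0_symm l k]; ring
      simp only [this, ← Finset.mul_sum]
      unfold S; ring
    simp only [e2, Finset.sum_sub_distrib, ← Finset.mul_sum]
    have e3 : ∑ k, ∑ l, J.B0 l k * J.N k * J.U l j = 0 := by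
      rw [Finset.sum_comm]
      simp only [← Finset.sum_mul, J.B0N]
      simp
    rw [e3]
    simp only [mul_zero, sub_zero]
    refine Finset.sum_congr rfl fun k _ => ?_
    rw [Finset.mul_sum]
    exact Finset.sum_congr rfl fun l _ => by ring
  rw [ct_eq]
  simp only [h2, hZ]
  have e4 : ∀ i j, J.II i j * (-J.A0 i j / 2 + J.S i j / J.r) =
      -(J.A0 i j * J.B0 i j) / 4 + (J.S i j * J.B0 i j) / (2 * J.r) -
      (J.A0 i j * J.G j i) / (2 * J.r) + (J.A0 i j * J.N j) * (J.N i / (2 * J.r)) +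
      (J.S i j * J.G i j) / J.r ^ 2 - (J.S i j * J.N j) * (J.N i / J.r ^ 2) := by
    intro i j; rw [J.Gs j i]; unfold II; ring
  simp only [e4, Finset.sum_add_distrib, Finset.sum_sub_distrib, ← Finset.sum_div,
    ← Finset.sum_mul, J.A0N, J.SN, Finset.sum_neg_distrib, J.GA0, J.sSG]
  have e5 : ∑ i, ∑ j, J.S i j * J.B0 i j = J.t1 := rfl
  have e6 : -∑ i, ∑ j, J.A0 i j * J.B0 i j = J.t2 := rfl
  rw [e5, e6]
  simp only [zero_mul, Finset.sum_const_zero]
  ring

/-- **difference of the quadratic terms** -/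
theorem quad_g (v p : ℝ) (hvp : v * p = 1) (f : Fin n → ℝ) :
    -(1 / 2) * (TT (J.Ug v) (J.Ag v fun k => -2 * v * f k) (J.Bg p fun k => 2 * p * f k) -
      (1 / 2) * QQ (J.Ug v) (J.Ag v fun k => -2 * v * f k) (J.Bg p fun k => 2 * p * f k)) =
    -(1 / 2) * (TT J.U J.A J.B - (1 / 2) * QQ J.U J.A J.B) +
      (1 - v) * (J.ct J.II J.II - ((n : ℝ) - 1) / J.r ^ 2) + v * J.dn f ^ 2 -
      ∑ k, ∑ l, J.S k l * f k * f l := by
  rw [J.TT_g v p hvp, J.QQ_g v p hvp, J.ct_II]
  have h1 : J.dn (fun k => -2 * v * f k) = -2 * v * J.dn f := by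
    unfold dn; rw [Finset.mul_sum]
    exact Finset.sum_congr rfl fun i _ => by ring
  have h2 : J.dn (fun k => 2 * p * f k) = 2 * p * J.dn f := by
    unfold dn; rw [Finset.mul_sum]
    exact Finset.sum_congr rfl fun i _ => by ring
  have h3 : ∑ k, ∑ l, J.S k l * (-2 * v * f k) * (2 * p * f l) =
      -4 * ∑ k, ∑ l, J.S k l * f k * f l := by
    simp only [Finset.mul_sum]
    refine Finset.sum_congr rfl fun k _ => Finset.sum_congr rfl fun l _ => ?_
    have : J.S k l * (-2 * v * f k) * (2 * p * f l) = -4 * (v * p) * (J.S k l * f k * f l) := by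
      ring
    rw [this, hvp]; ring
  rw [h1, h2, h3]
  linear_combination (v * J.dn f ^ 2) * hvp

end Jet

end Vale.Agent.T4
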