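import Vale.Agent.P366.T4.A4b

/-!
T4, [A4]: derivatives for `g = G + (p - 1) dr²`.
-/

open MeasureTheory Metric Filter Topology Set
open scoped ContDiff ENNReal Matrix

noncomputable section
namespace Vale.Agent.T4
open Vale.Agent.P366.Stmt Vale.Agent.P366.T2

variable {n : ℕ}

lemma contDiffAt_pd {f : E n → ℝ} {x : E n} (hf : ContDiffAt ℝ ∞ f x) (k : Fin n) :
    ContDiffAt ℝ ∞ (pd k f) x := by
  have h2 : ContDiffAt ℝ ∞ (fun y => fderiv ℝ f y (EuclideanSpace.single k 1)) x :=
    (hf.fderiv_right (m := ∞) (by simp)).clm_apply contDiffAt_const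
  refine h2.congr_of_eventuallyEq ?_
  have h3 : ∀ᶠ y in 𝓝 x, ContDiffAt ℝ 1 f y :=
    (hf.of_le (by simp)).eventually (by simp)
  filter_upwards [h3] with y hy
  show lineDeriv ℝ f y (EuclideanSpace.single k (1 : ℝ)) = _
  exact (hy.differentiableAt (by simp)).lineDeriv_eq_fderiv

lemma HP.of_contDiffAt {f : E n → ℝ} {x : E n} (hf : ContDiffAt ℝ ∞ f x) (k : Fin n) :
    HP k f (pd k f x) x := HP.of_diff (hf.differentiableAt (by simp))

namespace Lapse

variable {G g : Field n} {R : ℝ} (h : Lapse G g R)
include h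

lemma AN_aux {x : E n} (hx : R < len x) (k i : Fin n) :
    ∑ j, pd k (up G i j) x * nx j x = ((if i = k then 1 else 0) - up G i k x) / len x := by
  have hx0 := h.ne_zero hx.le
  have h1 : HP k (fun y => ∑ j, up G i j y * nx j y)
      (∑ j, (pd k (up G i j) x * nx j x + up G i j x *
        (((if j = k then 1 else 0) - nx j x * nx k x) / len x))) x :=
    HP.sum Finset.univ fun j _ => (HP.of_contDiffAt (h.contDiffAt_up hx i j) k).mul (HP_nx hx0 k j)
  have h2 : (fun y => ∑ j, up G i j y * nx j y) =ᶠ[𝓝 x] nx i := by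
    filter_upwards [(isOpen_out R).mem_nhds hx] with y hy
    exact h.up_nx (le_of_lt hy) i
  have h3 := (HP.congr (HP_nx hx0 k i) h2).pd
  rw [h1.pd] at h3
  have e : ∀ j, pd k (up G i j) x * nx j x + up G i j x *
      (((if j = k then 1 else 0) - nx j x * nx k x) / len x) =
      pd k (up G i j) x * nx j x + (1 / len x) * (if j = k then up G i j x else 0) -
        (nx k x / len x) * (up G i j x * nx j x) := by
    intro j; split_ifs <;> ring
  simp only [e, Finset.sum_add_distrib, Finset.sum_sub_distrib, ← Finset.mul_sum,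
    h.up_nx hx.le] at h3
  simp only [Finset.sum_ite_eq', Finset.mem_univ, if_true] at h3
  linear_combination h3

lemma BN_aux {x : E n} (hx : R < len x) (k i : Fin n) :
    ∑ j, pd k (fun y => G y i j) x * nx j x = ((if i = k then 1 else 0) - G x i k) / len x := by
  have hx0 := h.ne_zero hx.le
  have h1 : HP k (fun y => ∑ j, G y i j * nx j y)
      (∑ j, (pd k (fun y => G y i j) x * nx j x + G x i j *
        (((if j = k then 1 else 0) - nx j x * nx k x) / len x))) x :=
    HP.sum Finset.univ fun j _ => (HP.of_contDiffAt (h.Gs i j).contDiffAt k).mul (HP_nx hx0 k j)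
  have h2 : (fun y => ∑ j, G y i j * nx j y) =ᶠ[𝓝 x] nx i := by
    filter_upwards [(isOpen_out R).mem_nhds hx] with y hy
    exact h.G_nx (le_of_lt hy) i
  have h3 := (HP.congr (HP_nx hx0 k i) h2).pd
  rw [h1.pd] at h3
  have e : ∀ j, pd k (fun y => G y i j) x * nx j x + G x i j *
      (((if j = k then 1 else 0) - nx j x * nx k x) / len x) =
      pd k (fun y => G y i j) x * nx j x + (1 / len x) * (if j = k then G x i j else 0) -
        (nx k x / len x) * (G x i j * nx j x) := by
    intro j; split_ifs <;> ring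
  simp only [e, Finset.sum_add_distrib, Finset.sum_sub_distrib, ← Finset.mul_sum,
    h.G_nx hx.le] at h3
  simp only [Finset.sum_ite_eq', Finset.mem_univ, if_true] at h3
  linear_combination h3

lemma symmG_near {x : E n} (hx : R < len x) (i j : Fin n) :
    (fun y => G y i j) =ᶠ[𝓝 x] fun y => G y j i := by
  filter_upwards [(isOpen_out R).mem_nhds hx] with y hy
  exact h.symm y (le_of_lt hy) i j

lemma symmU_near {x : E n} (hx : R < len x) (i j : Fin n) :
    (up G i j) =ᶠ[𝓝 x] up G j i := by
  filter_upwards [(isOpen_out R).mem_nhds hx] with y hy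
  exact h.up_symm (le_of_lt hy) i j

lemma pdG_symm {x : E n} (hx : R < len x) (k i j : Fin n) :
    pd k (fun y => G y i j) x = pd k (fun y => G y j i) x :=
  (HP.congr (HP.of_contDiffAt (h.Gs j i).contDiffAt k) (h.symmG_near hx i j)).pd

lemma pdU_symm {x : E n} (hx : R < len x) (k i j : Fin n) :
    pd k (up G i j) x = pd k (up G j i) x :=
  (HP.congr (HP.of_contDiffAt (h.contDiffAt_up hx j i) k) (h.symmU_near hx i j)).pd

/-- derivative of the inverse -/
lemma AB_aux {x : E n} (hx : R < len x) (k i j : Fin n) :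
    pd k (up G i j) x = -∑ a, ∑ b, up G i a x * pd k (fun y => G y a b) x * up G b j x := by
  -- derivative of `G U = 1`
  have h1 : ∀ a, ∑ b, (pd k (fun y => G y a b) x * up G b j x +
      G x a b * pd k (up G b j) x) = 0 := by
    intro a
    have h2 : HP k (fun y => ∑ b, G y a b * up G b j y)
        (∑ b, (pd k (fun y => G y a b) x * up G b j x + G x a b * pd k (up G b j) x)) x :=
      HP.sum Finset.univ fun b _ => (HP.of_contDiffAt (h.Gs a b).contDiffAt k).mul
        (HP.of_contDiffAt (h.contDiffAt_up hx b j) k)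
    have h3 : (fun y => ∑ b, G y a b * up G b j y) =ᶠ[𝓝 x] fun _ => if a = j then 1 else 0 := by
      filter_upwards [(isOpen_out R).mem_nhds hx] with y hy
      exact h.G_up (le_of_lt hy) a j
    rw [← h2.pd, (HP.congr (HP.const k _ x) h3).pd]
  have h4 : ∑ a, up G i a x * ∑ b, (pd k (fun y => G y a b) x * up G b j x +
      G x a b * pd k (up G b j) x) = 0 := by
    simp only [h1, mul_zero, Finset.sum_const_zero]
  have h5 : ∑ a, up G i a x * ∑ b, (pd k (fun y => G y a b) x * up G b j x +
      G x a b * pd k (up G b j) x) =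
      (∑ a, ∑ b, up G i a x * pd k (fun y => G y a b) x * up G b j x) +
      ∑ b, (∑ a, up G i a x * G x a b) * pd k (up G b j) x := by
    simp only [mul_add, Finset.sum_add_distrib, Finset.mul_sum, Finset.sum_mul]
    congr 1
    · exact Finset.sum_congr rfl fun c _ => Finset.sum_congr rfl fun d _ => by ring
    · rw [Finset.sum_comm]
      exact Finset.sum_congr rfl fun c _ => Finset.sum_congr rfl fun d _ => by ring
  rw [h5] at h4
  simp only [h.up_G hx.le, ite_mul, one_mul, zero_mul, Finset.sum_ite_eq, Finset.mem_univ,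
    if_true] at h4
  linarith

/-- the first order data at a point -/
def jet {x : E n} (hx : R < len x) : Jet n where
  N := fun i => nx i x
  r := len x
  G := fun i j => G x i j
  U := fun i j => up G i j x
  A := fun k i j => pd k (up G i j) x
  B := fun k i j => pd k (fun y => G y i j) x
  NN := sum_nx_mul (h.ne_zero hx.le)
  Us := fun i j => h.up_symm hx.le i j
  Gs := fun i j => h.symm x hx.le i j
  UN := fun i => h.up_nx hx.le i
  GN := fun i => h.G_nx hx.le i
  UG := fun i k => h.up_G hx.le i k
  As := fun k i j => h.pdU_symm hx k i j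
  Bs := fun k i j => h.pdG_symm hx k i j
  AN := fun k i => h.AN_aux hx k i
  BN := fun k i => h.BN_aux hx k i
  AB := fun k i j => h.AB_aux hx k i j

lemma HP_NN {x : E n} (hx : R < len x) (k i j : Fin n) :
    HP k (fun y => nx i y * nx j y) ((h.jet hx).M k i j) x := by
  have hx0 := h.ne_zero hx.le
  have h1 := (HP_nx hx0 k i).mul (HP_nx hx0 k j)
  have e : ((if i = k then (1 : ℝ) else 0) - nx i x * nx k x) / len x * nx j x +
      nx i x * (((if j = k then 1 else 0) - nx j x * nx k x) / len x) = (h.jet hx).M k i j := by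
    show _ = (((if i = k then (1 : ℝ) else 0) - nx i x * nx k x) * nx j x +
      ((if j = k then (1 : ℝ) else 0) - nx j x * nx k x) * nx i x) / len x
    ring
  rw [← e]
  exact h1

lemma HP_lf {x : E n} (hx : R < len x) (k : Fin n) : HP k (lf g) (glf g k x) x :=
  HP.of_contDiffAt (contDiffAt_lf h.gs (h.ne_zero hx.le) (h.ppos x hx.le)) k

lemma HP_rad {x : E n} (hx : R < len x) (k : Fin n) :
    HP k (rad g) (2 * rad g x * glf g k x) x := by
  have hx0 := h.ne_zero hx.le
  have hp := h.ppos x hx.le
  have h1 : HP k (rad g) (pd k (rad g) x) x := HP.of_contDiffAt (contDiffAt_rad h.gs hx0) k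
  have h2 : HP k (lf g) (pd k (rad g) x / rad g x / 2) x := by
    have h3 : HasDerivAt (fun t : ℝ => rad g (x + t • EuclideanSpace.single k (1 : ℝ)))
        (pd k (rad g) x) 0 := h1
    have h4 := HasDerivAt.log h3 (by simpa using hp.ne')
    have h5 := h4.div_const 2
    simp only [zero_smul, add_zero] at h5
    exact h5
  have h3 : glf g k x = pd k (rad g) x / rad g x / 2 := h2.pd
  have h4 : 2 * rad g x * glf g k x = pd k (rad g) x := by
    rw [h3]; field_simp
  rw [h4]; exact h1

lemma HP_v {x : E n} (hx : R < len x) (k : Fin n) :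
    HP k (fun y => 1 / rad g y) (-2 * (1 / rad g x) * glf g k x) x := by
  have hp := h.ppos x hx.le
  have h1 : HasDerivAt (fun t : ℝ => rad g (x + t • EuclideanSpace.single k (1 : ℝ)))
        (2 * rad g x * glf g k x) 0 := h.HP_rad hx k
  have h2 := h1.fun_inv (by simpa using hp.ne')
  simp only [zero_smul, add_zero] at h2
  have e : -(2 * rad g x * glf g k x) / rad g x ^ 2 = -2 * (1 / rad g x) * glf g k x := by
    field_simp
  rw [e] at h2
  have h3 : (fun y => 1 / rad g y) = fun y : E n => (rad g y)⁻¹ := by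
    funext y; rw [one_div]
  rw [h3]
  exact h2

lemma up_g' {x : E n} (hx : R ≤ len x) (i j : Fin n) :
    up g i j x = up G i j x + (1 / rad g x - 1) * (nx i x * nx j x) := by
  rw [h.up_g hx]
  unfold Sm; ring

lemma HP_up_g {x : E n} (hx : R < len x) (k i j : Fin n) :
    HP k (up g i j) ((h.jet hx).Ag (1 / rad g x) (fun k => -2 * (1 / rad g x) * glf g k x) k i j)
      x := by
  have h1 := (HP.of_contDiffAt (h.contDiffAt_up hx i j) k).add
    (((h.HP_v hx k).sub (HP.const k 1 x)).mul (h.HP_NN hx k i j))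
  have h2 : up g i j =ᶠ[𝓝 x] fun y => up G i j y + (1 / rad g y - 1) * (nx i y * nx j y) := by
    filter_upwards [(isOpen_out R).mem_nhds hx] with y hy
    exact h.up_g' (le_of_lt hy) i j
  have h3 := HP.congr h1 h2
  have e : pd k (up G i j) x + ((-2 * (1 / rad g x) * glf g k x - 0) * (nx i x * nx j x) +
      (1 / rad g x - 1) * (h.jet hx).M k i j) =
      (h.jet hx).Ag (1 / rad g x) (fun k => -2 * (1 / rad g x) * glf g k x) k i j := by
    show _ = pd k (up G i j) x + (-2 * (1 / rad g x) * glf g k x) * (nx i x * nx j x) +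
      (1 / rad g x - 1) * (h.jet hx).M k i j
    ring
  rw [← e]
  exact h3

lemma HP_g {x : E n} (hx : R < len x) (k i j : Fin n) :
    HP k (fun y => g y i j) ((h.jet hx).Bg (rad g x) (fun k => 2 * rad g x * glf g k x) k i j)
      x := by
  have h1 := (HP.of_contDiffAt (h.Gs i j).contDiffAt k).add
    (((h.HP_rad hx k).sub (HP.const k 1 x)).mul (h.HP_NN hx k i j))
  have h2 : (fun y => g y i j) =ᶠ[𝓝 x]
      fun y => G y i j + (rad g y - 1) * (nx i y * nx j y) := by
    filter_upwards [(isOpen_out R).mem_nhds hx] with y hy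
    rw [h.eq y (le_of_lt hy) i j]; ring
  have h3 := HP.congr h1 h2
  have e : pd k (fun y => G y i j) x + ((2 * rad g x * glf g k x - 0) * (nx i x * nx j x) +
      (rad g x - 1) * (h.jet hx).M k i j) =
      (h.jet hx).Bg (rad g x) (fun k => 2 * rad g x * glf g k x) k i j := by
    show _ = pd k (fun y => G y i j) x + (2 * rad g x * glf g k x) * (nx i x * nx j x) +
      (rad g x - 1) * (h.jet hx).M k i j
    ring
  rw [← e]
  exact h3

end Lapse

end Vale.Agent.T4
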