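import Vale.Agent.P366.T4.Basic
import Vale.Agent.P366.T2.Final
import Vale.Agent.P366.T2.Touch
import Vale.Agent.P366.T2.B68n
import Vale.Agent.P366.T2.E68

/-! T4: the quaternionic background. -/

open MeasureTheory Metric Filter Topology Set Asymptotics
open scoped ContDiff ENNReal Matrix

noncomputable section
namespace Vale.Agent.T4
open Vale.Agent.P366.Stmt Vale.Agent.P366.T2

variable {n : ℕ}

/-- decay of order `q` of `G - δ` and its first derivatives -/
def AF1 (q : ℝ) (G : Field n) : Prop :=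
  (∀ i j, BigO q (fun x => G x i j - if i = j then 1 else 0)) ∧
    ∀ i j k, BigO (q + 1) (pd k fun x => G x i j)

/-- the weight of the background is asymptotically that of the round spheres -/
def Bg.LamOK (B : Bg n) (G : Field n) : Prop := ∀ q : ℝ, 0 < q → AF1 q G →
  E68.O2 q (fun r => 2 * B.lam r * B.rho r / ((n : ℝ) - 1) - 1)

/-- a tangential contraction as the trace of a product -/
lemma ctr_eq {G A C : Field n} {x : E n} (hS : ∀ i j, Sm G i j x = Sm G j i x)
    (hC : ∀ i j, C x i j = C x j i) : ctr G A C x =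
      ∑ k, ∑ j, (∑ i, Sm G k i x * A x i j) * (∑ l, Sm G j l x * C x l k) := by
  unfold ctr
  have e1 : ∀ k j, (∑ i, Sm G k i x * A x i j) * (∑ l, Sm G j l x * C x l k) =
      ∑ i, ∑ l, Sm G i k x * Sm G j l x * A x i j * C x k l := by
    intro k j
    rw [Finset.sum_mul_sum]
    refine Finset.sum_congr rfl fun i _ => Finset.sum_congr rfl fun l _ => ?_
    rw [hS k i, hC l k]; ring
  simp only [e1]
  calc ∑ i, ∑ j, ∑ k, ∑ l, Sm G i k x * Sm G j l x * A x i j * C x k l
      = ∑ i, ∑ k, ∑ j, ∑ l, Sm G i k x * Sm G j l x * A x i j * C x k l :=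
        Finset.sum_congr rfl fun i _ => Finset.sum_comm
    _ = ∑ k, ∑ i, ∑ j, ∑ l, Sm G i k x * Sm G j l x * A x i j * C x k l := Finset.sum_comm
    _ = ∑ k, ∑ j, ∑ i, ∑ l, Sm G i k x * Sm G j l x * A x i j * C x k l :=
        Finset.sum_congr rfl fun k _ => Finset.sum_comm

section Quaternionic

variable {D : Data n} {G K0 : Field n}

lemma c_one (hp : ∀ r, D.R ≤ r → D.p r = 1) {r : ℝ} (hr : D.R ≤ r) : D.c r = 1 := by
  unfold Data.c; rw [hp r hr, Real.sqrt_one]

/-- the background of `Sp(m)`-invariant data with unit lapse -/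
def bgQ (hn : 4 ≤ n) (D : Data n) (hp : ∀ r, D.R ≤ r → D.p r = 1) : Bg n where
  R := D.R
  H := D.H
  II2 := D.II2
  Rh := D.Rh
  ar := D.ar
  lam := D.lam
  L2 := D.L2
  IT := D.IT
  hR := D.hR
  ar_pos := fun r hr => D.ar_pos hr
  lam_pos := fun r hr => D.lam_pos hn hr
  H_diff := fun r hr => D.H_diff hr
  ar_deriv := fun r hr => (D.ar_hasDerivAt hr).congr_deriv (by rw [c_one hp hr, one_mul])
  lam_deriv := fun r hr => (D.lam_hasDerivAt hr).congr_deriv (by rw [c_one hp hr, one_mul])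
  hU := fun r hr y => D.hU_le hn hr y
  hL := fun r hr => D.hL_le hn hr
  hJ := fun r hr => D.hJ_le hn hr

lemma deriv_p (hp : ∀ r, D.R ≤ r → D.p r = 1) {r : ℝ} (hr : D.R < r) : deriv D.p r = 0 := by
  have : D.p =ᶠ[𝓝 r] fun _ => 1 := by
    filter_upwards [lt_mem_nhds hr] with t ht
    exact hp t ht.le
  rw [this.deriv_eq, deriv_const]

lemma nx_mul (x : E n) (i j : Fin n) : nx i x * nx j x = x i * x j / len x ^ 2 := by
  unfold nx; rw [div_mul_div_comm, sq]

lemma Sm_nt (h : Fits D G K0) (hp : ∀ r, D.R ≤ r → D.p r = 1) {x : E n} (hx : D.R ≤ len x)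
    (i j : Fin n) : Sm G i j x = B68.nt D.Q (1 / D.al (len x)) 0 (fun _ => 0) (fun _ => 0)
      (fun a b => D.iq (len x) a b) x i j := by
  unfold Sm
  rw [B68.up_nt h hx, nx_mul, hp _ hx]
  unfold B68.nt
  have := len_ne (ne_zero_of_len D.hR hx)
  field_simp
  ring

lemma IIf_nt (h : Fits D G K0) (hp : ∀ r, D.R ≤ r → D.p r = 1) {x : E n} (hx : D.R < len x)
    (i j : Fin n) : IIf G x i j = B68.nt D.Q
      (deriv D.al (len x) / 2 + D.al (len x) / len x) 0 (fun _ => 0) (fun _ => 0)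
      (fun a b => deriv (D.q a b) (len x) / 2 + D.q a b (len x) / len x) x i j := by
  have h1 : dN (fun y => G y i j) x = D.Q.ten (deriv D.al) (deriv D.p) (fun _ _ => 0)
      (fun a b => deriv (D.q a b)) x i j := Vale.Agent.C92.Dr_ten h hx.le i j
  unfold IIf
  rw [h1, B68.ten_nt, B68.g_nt h hx.le, nx_mul, hp _ hx.le, deriv_p hp hx]
  unfold B68.nt
  have := len_ne (ne_zero_of_len D.hR hx.le)
  simp only [Fin.sum_univ_three]
  field_simp
  ring

lemma A_apply {r : ℝ} (hr : D.R ≤ r) (a b : Fin 3) :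
    D.A r a b = ∑ c, D.iq r a c * (deriv (D.q c b) r / 2 + D.q c b r / r) := by
  have hr0 : 0 < r := lt_of_lt_of_le D.hR hr
  have hdq := fun a b => ((D.q_smooth a b).differentiable (by norm_num) r).hasDerivAt
  have hsq : HasDerivAt (fun t : ℝ => t ^ 2) (2 * r) r := by
    simpa using hasDerivAt_pow 2 r
  have h3 : ∀ a b, deriv (fun t => t ^ 2 * D.q a b t) r =
      2 * r * D.q a b r + r ^ 2 * deriv (D.q a b) r := fun a b => (hsq.mul (hdq a b)).deriv
  have h4 : D.qh r = (r ^ 2) • D.qm r := by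
    ext a b; rfl
  have hdet : IsUnit (D.qm r).det := isUnit_iff_ne_zero.2 (D.qm_det_ne hr)
  have h5 : (D.qh r)⁻¹ = (r ^ 2)⁻¹ • D.iq r := by
    rw [h4]
    have : Invertible (r ^ 2) := invertibleOfNonzero (by positivity)
    rw [Matrix.inv_smul _ _ hdet]
    simp [Data.iq]
  unfold Data.A
  rw [h5, Matrix.smul_mul, Matrix.smul_apply, Matrix.smul_apply, Matrix.mul_apply]
  simp only [Matrix.of_apply, h3, smul_eq_mul]
  rw [Finset.mul_sum, Finset.mul_sum]
  refine Finset.sum_congr rfl fun c _ => ?_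
  field_simp
  ring

lemma yb_eq {r : ℝ} (hr : D.R ≤ r) : D.yb r = 1 / r + deriv D.al r / (2 * D.al r) := by
  have hr0 : 0 < r := lt_of_lt_of_le D.hR hr
  have hal := D.al_pos r hr
  have hdal := (D.al_smooth.differentiable (by norm_num) r).hasDerivAt
  have hsq : HasDerivAt (fun t : ℝ => t ^ 2) (2 * r) r := by
    simpa using hasDerivAt_pow 2 r
  have h1 : deriv D.Yh r = 2 * r * D.al r + r ^ 2 * deriv D.al r := (hsq.mul hdal).deriv
  unfold Data.yb
  rw [h1]
  unfold Data.Yh
  field_simp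

/-- the quaternionic background is realized -/
theorem bgQ_fits (hn : 4 ≤ n) (h : Fits D G K0) (hp : ∀ r, D.R ≤ r → D.p r = 1) :
    (bgQ hn D hp).Fits G where
  hdet := by
    intro x hx
    have hx' : D.R ≤ len x := hx
    have hr : 0 < len x := D.hR.trans_le hx'
    have hal := D.al_pos _ hx'
    have hd : 0 < (D.qm (len x)).det := by
      have h1 := D.det_pos hx'
      have h4 : D.qh (len x) = (len x ^ 2) • D.qm (len x) := by
        ext a b; rfl
      rw [h4, Matrix.det_smul, Fintype.card_fin] at h1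
      exact (mul_pos_iff_of_pos_left (by positivity)).1 h1
    show len x ^ (n - 1) * √(mat G x).det = D.ar (len x)
    rw [det_eq D hn h hx', hp _ hx', one_mul]
    unfold Data.ar Data.Yh Data.b
    have h4 : D.qh (len x) = (len x ^ 2) • D.qm (len x) := by
      ext a b; rfl
    rw [h4, Matrix.det_smul, Fintype.card_fin]
    have e1 : √((len x ^ 2) ^ 3 * (D.qm (len x)).det) = len x ^ 3 * √(D.qm (len x)).det := by
      rw [Real.sqrt_mul (by positivity)]
      congr 1
      rw [show (len x ^ 2) ^ 3 = (len x ^ 3) ^ 2 by ring]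
      exact Real.sqrt_sq (by positivity)
    have e2 : √(D.al (len x) ^ (n - 4) * (D.qm (len x)).det) =
        D.al (len x) ^ (((n : ℝ) - 4) / 2) * √(D.qm (len x)).det := by
      rw [Real.sqrt_mul (by positivity)]
      congr 1
      rw [Real.sqrt_eq_rpow, ← Real.rpow_natCast, ← Real.rpow_mul hal.le]
      congr 1
      rw [Nat.cast_sub hn]
      push_cast
      ring
    have e3 : (len x ^ 2 * D.al (len x)) ^ (((n : ℝ) - 4) / 2) =
        len x ^ (n - 4) * D.al (len x) ^ (((n : ℝ) - 4) / 2) := by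
      rw [Real.mul_rpow (by positivity) hal.le]
      congr 1
      rw [← Real.rpow_natCast (len x) 2, ← Real.rpow_mul hr.le, ← Real.rpow_natCast (len x) (n - 4)]
      congr 1
      rw [Nat.cast_sub hn]
      push_cast
      ring
    rw [e1, e2, e3]
    have e4 : len x ^ (n - 1) = len x ^ 3 * len x ^ (n - 4) := by
      rw [← pow_add]
      congr 1
      omega
    rw [e4]
    ring
  hL := by
    intro x hx i
    have hx' : D.R < len x := hx
    have hr : 0 < len x := D.hR.trans hx'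
    show Lg G i x = (D.H (len x) - ((n : ℝ) - 1) / len x) * nx i x
    rw [Lg_eq h hx' i]
    have h1 := B68.cH_form (D := D) hx'.le
    rw [c_one hp hx'.le, one_mul] at h1
    rw [h1]
    unfold Data.elf B68.Lm Data.dq nx
    rw [hp _ hx'.le, deriv_p hp hx']
    simp only [Matrix.of_apply]
    field_simp
    ring
  hII := by
    intro x hx
    have hx' : D.R < len x := hx
    have hx0 := ne_zero_of_len D.hR hx'.le
    have hr := D.hR.trans hx'
    have hal := (D.al_pos _ hx'.le).ne'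
    show ctr G (IIf G) (IIf G) x = D.II2 (len x)
    have hS : ∀ i j, Sm G i j x = Sm G j i x := by
      intro i j
      rw [Sm_nt h hp hx'.le, Sm_nt h hp hx'.le j i, B68.nt_transpose]
      congr 1
      funext a b
      exact D.iq_symm_apply _ b a
    have hI : ∀ i j, IIf G x i j = IIf G x j i := by
      intro i j
      rw [IIf_nt h hp hx', IIf_nt h hp hx' j i, B68.nt_transpose]
      congr 1
      funext a b
      rw [D.q_symm a b]
    have hM : ∀ i k, ∑ j, Sm G i j x * IIf G x j k = B68.nt D.Q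
        (D.yb (len x)) 0 (fun _ => 0) (fun _ => 0) (fun a b => D.A (len x) a b) x i k := by
      intro i k
      have e : ∀ j, Sm G i j x * IIf G x j k = B68.nt D.Q (1 / D.al (len x)) 0 (fun _ => 0)
          (fun _ => 0) (fun a b => D.iq (len x) a b) x i j * B68.nt D.Q
          (deriv D.al (len x) / 2 + D.al (len x) / len x) 0 (fun _ => 0) (fun _ => 0)
          (fun a b => deriv (D.q a b) (len x) / 2 + D.q a b (len x) / len x) x j k := fun j => by
        rw [Sm_nt h hp hx'.le, IIf_nt h hp hx']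
      simp only [e, B68.nt_mul D.Q _ _ _ _ _ hx0, zero_mul, mul_zero, Finset.sum_const_zero,
        add_zero]
      congr 1
      · rw [yb_eq hx'.le]
        field_simp
        ring
      · funext a b
        rw [A_apply hx'.le, zero_add]
    rw [ctr_eq hS hI]
    simp only [hM, B68.nt_nt D.Q _ _ _ _ _ hx0]
    unfold Data.II2
    rw [hp _ hx'.le, div_one, Matrix.trace]
    simp only [Matrix.diag_apply, Matrix.mul_apply, zero_mul, Finset.sum_const_zero, add_zero]
    unfold Data.b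
    ring
  hRh := by
    intro x hx
    have hx' : D.R < len x := hx
    show scal G x + D.II2 (len x) + D.H (len x) ^ 2 + 2 * deriv D.H (len x) = D.Rh (len x)
    rw [scal_eq D h hx']
    unfold Data.Rg
    rw [c_one hp hx'.le]
    ring

/-! ### asymptotics of the weight -/

open E68 in
/-- `2 λ ρ / (n - 1) = 1 + O(r ^ (-2q))`, abstract form -/
theorem lamrho_abs {N b q : ℝ} (hN : N = b + 3) (hb : 0 ≤ b) (hq0 : 0 < q)
    {a d t κ ℓ : ℝ → ℝ} (ha : O1 q fun r => a r - 1)
    (ht : O1 q fun r => t r - 3) (hd : O2 q fun r => d r - 1 - (t r - 3))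
    (hℓ : ∀ᶠ r in atTop, ℓ r = t r / 2 * (d r) ^ (-(1 / 2) : ℝ) + b / 4 *
      ((d r) ^ (-(1 / 6) : ℝ) + (d r) ^ ((1 / 6) : ℝ) * (1 / a r)))
    (hκ : ∀ᶠ r in atTop, κ r = ((d r) ^ ((1 / 2) : ℝ) * (a r) ^ (b / 2)) ^ (1 / N)) :
    O2 q fun r => 2 * ℓ r * κ r / N - 1 := by
  have hN0 : 0 < N := by linarith
  have ha2 : Tendsto a atTop (𝓝 1) := by
    have := (ha.tendsto hq0).add_const 1
    simpa using this
  have ht2 : Tendsto t atTop (𝓝 3) := by
    have := (ht.tendsto hq0).add_const 3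
    simpa using this
  have hδ : O1 q fun r => d r - 1 := by
    have := (hd.o1 hq0).add ht
    simpa using this
  have hd1 : Tendsto d atTop (𝓝 1) := by
    have := (hδ.tendsto hq0).add_const 1
    simpa using this
  have hia : Tendsto (fun r => 1 / a r) atTop (𝓝 1) := by
    have := ha2.inv₀ one_ne_zero
    simpa using this
  have hia0 : O0 fun r => 1 / a r := O0.of_tendsto hia
  have ha0 : ∀ᶠ r in atTop, a r ≠ 0 := ha2.eventually_ne one_ne_zero
  have hpow : ∀ s : ℝ, O2 q fun r => (d r) ^ s - 1 - s * (t r - 3) := by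
    intro s
    have h1 : O2 q fun r => (d r) ^ s - 1 - s * (d r - 1) :=
      ((rpow_taylor s).comp_tendsto hd1).trans (hδ.mul hδ)
    have h2 := h1.add (hd.cmul s)
    refine h2.congr' (Eventually.of_forall fun r => ?_)
    ring
  have hpa : ∀ s : ℝ, O2 q fun r => (a r) ^ s - 1 - s * (a r - 1) := fun s =>
    ((rpow_taylor s).comp_tendsto ha2).trans (ha.mul ha)
  have hA1 : O2 q fun r => 1 / a r - 1 + (a r - 1) := by
    have h1 := hia0.mul2 (ha.mul ha)
    refine h1.congr' ?_
    filter_upwards [ha0] with r hr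
    field_simp
    ring
  -- the super-potential
  have hL : O2 q fun r => ℓ r - (N / 2 - (t r - 3) / 4 - b * (a r - 1) / 4) := by
    have e1 : O2 q fun r => -(1 / 4) * ((t r - 3) * (t r - 3)) := (ht.mul ht).cmul _
    have e2 : O2 q fun r => (1 / 2 * t r) * ((d r) ^ (-(1 / 2) : ℝ) - 1 - (-(1 / 2)) * (t r - 3)) :=
      ((O0.of_tendsto ht2).cmul _).mul2 (hpow _)
    have e3 : O2 q fun r => (b / 4) * ((d r) ^ (-(1 / 6) : ℝ) - 1 - (-(1 / 6)) * (t r - 3)) :=
      (hpow _).cmul _
    have e4 : O2 q fun r => (b / 4) * ((1 / a r) *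
        ((d r) ^ ((1 / 6) : ℝ) - 1 - (1 / 6) * (t r - 3))) :=
      (hia0.mul2 (hpow _)).cmul _
    have e5 : O2 q fun r => (b / 4) * ((1 + 1 / 6 * (t r - 3)) * (1 / a r - 1 + (a r - 1))) :=
      (((O0.const 1).add ((ht.o0 hq0).cmul _)).mul2 hA1).cmul _
    have e6 : O2 q fun r => -(b / 24) * ((t r - 3) * (a r - 1)) := (ht.mul ha).cmul _
    refine (((((e1.add e2).add e3).add e4).add e5).add e6).congr' ?_
    filter_upwards [hℓ] with r hr
    rw [hr, hN]
    ring
  -- the area radius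
  have hX : O2 q fun r => (d r) ^ ((1 / 2) : ℝ) * (a r) ^ (b / 2) - 1 -
      ((t r - 3) / 2 + b / 2 * (a r - 1)) := by
    have e0 : O0 fun r => (a r) ^ (b / 2) := by
      refine O0.of_tendsto (c := 1) ?_
      have := ha2.rpow_const (p := b / 2) (Or.inl one_ne_zero)
      simpa using this
    have e1 := e0.mul2 (hpow (1 / 2))
    have e2 : O2 q fun r => (1 + 1 / 2 * (t r - 3)) * ((a r) ^ (b / 2) - 1 - b / 2 * (a r - 1)) :=
      ((O0.const 1).add ((ht.o0 hq0).cmul _)).mul2 (hpa _)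
    have e3 : O2 q fun r => (b / 4) * ((t r - 3) * (a r - 1)) := (ht.mul ha).cmul _
    refine ((e1.add e2).add e3).congr' (Eventually.of_forall fun r => ?_)
    ring
  have hX1 : O1 q fun r => (d r) ^ ((1 / 2) : ℝ) * (a r) ^ (b / 2) - 1 := by
    have := ((hX.o1 hq0).add (ht.cmul (1 / 2))).add (ha.cmul (b / 2))
    refine this.congr' (Eventually.of_forall fun r => ?_)
    ring
  have hXt : Tendsto (fun r => (d r) ^ ((1 / 2) : ℝ) * (a r) ^ (b / 2)) atTop (𝓝 1) := by
    have := (hX1.tendsto hq0).add_const 1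
    simpa using this
  have hκ2 : O2 q fun r => κ r - 1 - 1 / N * ((t r - 3) / 2 + b / 2 * (a r - 1)) := by
    have e1 : O2 q fun r => ((d r) ^ ((1 / 2) : ℝ) * (a r) ^ (b / 2)) ^ (1 / N) - 1 -
        1 / N * ((d r) ^ ((1 / 2) : ℝ) * (a r) ^ (b / 2) - 1) :=
      ((rpow_taylor (1 / N)).comp_tendsto hXt).trans (hX1.mul hX1)
    refine (e1.add (hX.cmul (1 / N))).congr' ?_
    filter_upwards [hκ] with r hr
    rw [hr]
    ring
  have hκ0 : O0 κ := by
    have h1 : O1 q fun r => κ r - 1 := by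
      have := ((hκ2.o1 hq0).add (ht.cmul (1 / (2 * N)))).add (ha.cmul (b / (2 * N)))
      refine this.congr' (Eventually.of_forall fun r => ?_)
      field_simp
      ring
    refine O0.of_tendsto (c := 1) ?_
    have := (h1.tendsto hq0).add_const 1
    simpa using this
  -- the product
  have e1 : O2 q fun r => (2 / N) * (κ r * (ℓ r - (N / 2 - (t r - 3) / 4 - b * (a r - 1) / 4))) :=
    (hκ0.mul2 hL).cmul _
  have e2 : O0 fun r => 1 + (-(1 / (2 * N))) * ((t r - 3) + b * (a r - 1)) := by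
    refine (O0.const 1).add (O0.cmul _ ?_)
    exact (ht.o0 hq0).add ((ha.o0 hq0).cmul b)
  have e3 := e2.mul2 hκ2
  have e4 : O2 q fun r => (-(1 / (4 * N ^ 2))) *
      (((t r - 3) + b * (a r - 1)) * ((t r - 3) + b * (a r - 1))) :=
    ((ht.add (ha.cmul b)).mul (ht.add (ha.cmul b))).cmul _
  refine ((e1.add e3).add e4).congr' (Eventually.of_forall fun r => ?_)
  field_simp
  ring

open E68 in
theorem bgQ_lam (hn : 4 ≤ n) (h : Fits D G K0) (hp : ∀ r, D.R ≤ r → D.p r = 1) :
    (bgQ hn D hp).LamOK G := by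
  intro q hq0 hAF
  have hn' : (4 : ℝ) ≤ n := by exact_mod_cast hn
  have i0 : Fin n := ⟨0, by omega⟩
  have hqd := fun a b => (E68.q_dec h hAF.1 hAF.2 i0 a b).1
  have hA := (E68.A1_dec h hAF.1 hAF.2 i0).1
  have ht : O1 q fun r => E68.tt D r - 3 := by
    have e1 := ((hqd 0 0).add (hqd 1 1)).add (hqd 2 2)
    refine e1.congr' (Eventually.of_forall fun r => ?_)
    simp only [E68.tt, Fin.sum_univ_three, if_true]
    ring
  have hd : O2 q fun r => dd D r - 1 - (E68.tt D r - 3) := E68.det_exp hq0 hqd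
  have hmain := lamrho_abs (N := (n : ℝ) - 1) (b := (n : ℝ) - 4) (q := q) (a := A1 D) (d := dd D)
    (t := E68.tt D) (κ := fun r => ((dd D r) ^ ((1 / 2) : ℝ) *
      (A1 D r) ^ (((n : ℝ) - 4) / 2)) ^ (1 / ((n : ℝ) - 1))) (ℓ := ell D)
    (by ring) (by linarith) hq0 hA ht hd (Eventually.of_forall fun r => rfl)
    (Eventually.of_forall fun r => rfl)
  refine hmain.congr' ?_
  filter_upwards [eventually_ge_atTop D.R] with r hR
  have hr0 : 0 < r := D.hR.trans_le hR
  show _ = 2 * D.lam r * D.rho r / ((n : ℝ) - 1) - 1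
  rw [lam_ell hR]
  have hdd : 0 < dd D r := D.qm_det_pos hR
  have hA0 := A1_pos D hR
  have h1 : √(r ^ 6 * dd D r) = r ^ 3 * (dd D r) ^ ((1 / 2) : ℝ) := by
    rw [Real.sqrt_eq_rpow, Real.mul_rpow (by positivity) hdd.le]
    congr 1
    rw [← Real.rpow_natCast r 6, ← Real.rpow_natCast r 3, ← Real.rpow_mul hr0.le]
    congr 1
    norm_num
  have h2 : D.ar r = r ^ ((n : ℝ) - 1) *
      ((dd D r) ^ ((1 / 2) : ℝ) * (A1 D r) ^ (((n : ℝ) - 4) / 2)) := by
    unfold Data.ar
    rw [det_qh, h1, Data.Yh, Data.b, A1_pow, Real.mul_rpow (by positivity) hA0.le,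
      ← Real.rpow_natCast r 3, ← Real.rpow_natCast r 2, ← Real.rpow_mul hr0.le]
    have h3 : r ^ ((n : ℝ) - 1) = r ^ ((3 : ℕ) : ℝ) * r ^ (((2 : ℕ) : ℝ) * (((n : ℝ) - 4) / 2)) := by
      rw [← Real.rpow_add hr0]
      congr 1
      push_cast
      ring
    rw [h3]
    ring
  have h4 : D.rho r = r * ((dd D r) ^ ((1 / 2) : ℝ) *
      (A1 D r) ^ (((n : ℝ) - 4) / 2)) ^ (1 / ((n : ℝ) - 1)) := by
    unfold Data.rho
    rw [h2, Real.mul_rpow (by positivity) (by positivity), ← Real.rpow_mul hr0.le,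
      mul_one_div_cancel (by linarith), Real.rpow_one]
  rw [h4]
  field_simp

end Quaternionic

end Vale.Agent.T4
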