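import Vale.Agent.P366.T4.U92a
import Vale.Agent.P366.T4.BgQ
import Vale.Agent.P366.T4.A4c

/-! T4: the background of asymptotically flat data is asymptotically flat to first order. -/

open MeasureTheory Metric Filter Topology Set
open scoped ContDiff ENNReal Matrix

noncomputable section
namespace Vale.Agent.T4
open Vale.Agent.P366.Stmt Vale.Agent.P366.T2

variable {n : ℕ}

lemma bigO_const_mul {q : ℝ} {f : E n → ℝ} (c : ℝ) (hf : BigO q f) :
    BigO q (fun x => c * f x) := by
  obtain ⟨C, R, h⟩ := hf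
  refine ⟨|c| * C, R, fun x hx => ?_⟩
  rw [abs_mul, mul_assoc]
  exact mul_le_mul_of_nonneg_left (h x hx) (abs_nonneg _)

lemma bigO_div_len {q : ℝ} {f : E n → ℝ} (hf : BigO q f) :
    BigO (q + 1) (fun x => f x / len x) := by
  obtain ⟨C, R, h⟩ := hf
  refine ⟨C, max R 0, fun x hx => ?_⟩
  have h0 : 0 < len x := (le_max_right _ _).trans_lt hx
  have h1 := h x ((le_max_left _ _).trans_lt hx)
  rw [abs_div, abs_of_pos h0]
  have e : len x ^ (-(q + 1)) = len x ^ (-q) / len x := by
    rw [neg_add, ← sub_eq_add_neg, Real.rpow_sub_one h0.ne']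
  rw [e, ← mul_div_assoc]
  exact div_le_div_of_nonneg_right h1 h0.le

/-- product of four components of the unit radial field -/
def W4 (a b i j : Fin n) (x : E n) : ℝ := nx a x * nx b x * (nx i x * nx j x)

lemma abs_W4 (a b i j : Fin n) (x : E n) : |W4 a b i j x| ≤ 1 := by
  unfold W4
  rw [abs_mul, abs_mul, abs_mul]
  have e := abs_nx_le (n := n)
  have a1 : |nx a x| * |nx b x| ≤ 1 := mul_le_one₀ (e a x) (abs_nonneg _) (e b x)
  have a2 : |nx i x| * |nx j x| ≤ 1 := mul_le_one₀ (e i x) (abs_nonneg _) (e j x)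
  exact mul_le_one₀ a1 (by positivity) a2

/-- derivative of a component, times the radius -/
def dn1 (k a : Fin n) (x : E n) : ℝ := (if a = k then 1 else 0) - nx a x * nx k x

lemma abs_dn1 (k a : Fin n) (x : E n) : |dn1 k a x| ≤ 2 := by
  have e := abs_nx_le (n := n)
  have h1 : |nx a x * nx k x| ≤ 1 := by
    rw [abs_mul]; exact mul_le_one₀ (e a x) (abs_nonneg _) (e k x)
  unfold dn1
  have h2 : |(if a = k then (1 : ℝ) else 0)| ≤ 1 := by split_ifs <;> simp
  calc _ ≤ |(if a = k then (1 : ℝ) else 0)| + |nx a x * nx k x| := abs_sub _ _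
    _ ≤ 2 := by linarith

/-- derivative of `W4`, times the radius -/
def dW4 (k a b i j : Fin n) (x : E n) : ℝ :=
  (dn1 k a x * nx b x + nx a x * dn1 k b x) * (nx i x * nx j x) +
    nx a x * nx b x * (dn1 k i x * nx j x + nx i x * dn1 k j x)

lemma abs_dW4 (k a b i j : Fin n) (x : E n) : |dW4 k a b i j x| ≤ 8 := by
  have e := abs_nx_le (n := n)
  have d := abs_dn1 (n := n)
  have h1 : ∀ a b, |nx a x * nx b x| ≤ 1 := fun a b => by
    rw [abs_mul]; exact mul_le_one₀ (e a x) (abs_nonneg _) (e b x)
  have h2 : ∀ a b, |dn1 k a x * nx b x + nx a x * dn1 k b x| ≤ 4 := by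
    intro a b
    have h3 : |dn1 k a x * nx b x| ≤ 2 := by
      rw [abs_mul]
      calc _ ≤ 2 * 1 := mul_le_mul (d k a x) (e b x) (abs_nonneg _) (by norm_num)
        _ = 2 := by norm_num
    have h4 : |nx a x * dn1 k b x| ≤ 2 := by
      rw [abs_mul]
      calc _ ≤ 1 * 2 := mul_le_mul (e a x) (d k b x) (abs_nonneg _) (by norm_num)
        _ = 2 := by norm_num
    calc _ ≤ |dn1 k a x * nx b x| + |nx a x * dn1 k b x| := abs_add_le _ _
      _ ≤ 4 := by linarith
  unfold dW4
  have h5 : |(dn1 k a x * nx b x + nx a x * dn1 k b x) * (nx i x * nx j x)| ≤ 4 := by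
    rw [abs_mul]
    calc _ ≤ 4 * 1 := mul_le_mul (h2 a b) (h1 i j) (abs_nonneg _) (by norm_num)
      _ = 4 := by norm_num
  have h6 : |nx a x * nx b x * (dn1 k i x * nx j x + nx i x * dn1 k j x)| ≤ 4 := by
    rw [abs_mul]
    calc _ ≤ 1 * 4 := mul_le_mul (h1 a b) (h2 i j) (abs_nonneg _) (by norm_num)
      _ = 4 := by norm_num
  calc _ ≤ |(dn1 k a x * nx b x + nx a x * dn1 k b x) * (nx i x * nx j x)| +
        |nx a x * nx b x * (dn1 k i x * nx j x + nx i x * dn1 k j x)| := abs_add_le _ _
    _ ≤ 8 := by linarith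

lemma HP_W4 {x : E n} (hx : x ≠ 0) (k a b i j : Fin n) :
    HP k (W4 a b i j) (dW4 k a b i j x / len x) x := by
  have h1 := ((HP_nx hx k a).mul (HP_nx hx k b)).mul ((HP_nx hx k i).mul (HP_nx hx k j))
  have e : (((if a = k then 1 else 0) - nx a x * nx k x) / len x * nx b x +
      nx a x * (((if b = k then 1 else 0) - nx b x * nx k x) / len x)) * (nx i x * nx j x) +
      nx a x * nx b x * (((if i = k then 1 else 0) - nx i x * nx k x) / len x * nx j x +
      nx i x * (((if j = k then 1 else 0) - nx j x * nx k x) / len x)) =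
      dW4 k a b i j x / len x := by
    unfold dW4 dn1; ring
  rw [← e]
  exact h1

/-- **the background is asymptotically flat to first order** -/
theorem Lapse.af1 {G g : Field n} {R : ℝ} (h : Lapse G g R) {q : ℝ}
    (h0 : ∀ i j, BigO q (fun x => g x i j - if i = j then 1 else 0))
    (h1 : ∀ i j k, BigO (q + 1) (pd k fun x => g x i j)) : AF1 q G := by
  refine ⟨h.bigO_G h0, fun i j k => ?_⟩
  have hF : ∀ y : E n, y ≠ 0 → rad g y - 1 =
      ∑ a, ∑ b, (g y a b - if a = b then 1 else 0) * (nx a y * nx b y) := by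
    intro y hy
    have e3 : ∀ a b, (g y a b - if a = b then 1 else 0) * (nx a y * nx b y) =
        g y a b * nx a y * nx b y - if a = b then nx a y * nx b y else 0 := by
      intro a b; split_ifs <;> ring
    simp only [e3, Finset.sum_sub_distrib]
    have e4 : ∑ k, ∑ l, (if k = l then nx k y * nx l y else 0) = 1 := by
      rw [← sum_nx_mul hy]
      exact Finset.sum_congr rfl fun k _ => by simp
    rw [e4]
    rfl
  have hder : ∀ x : E n, R < len x → pd k (fun y => G y i j) x =
      pd k (fun y => g y i j) x + ∑ a, ∑ b, (pd k (fun y => g y a b) x * (-W4 a b i j x) +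
        8 * (((g x a b - if a = b then 1 else 0) / len x) * (-dW4 k a b i j x / 8))) := by
    intro x hx
    have hx0 := h.ne_zero hx.le
    have h2 : HP k (fun y => g y i j - ∑ a, ∑ b,
        (g y a b - if a = b then 1 else 0) * W4 a b i j y)
        (pd k (fun y => g y i j) x - ∑ a, ∑ b, ((pd k (fun y => g y a b) x - 0) * W4 a b i j x +
          (g x a b - if a = b then 1 else 0) * (dW4 k a b i j x / len x))) x := by
      refine (HP.of_contDiffAt (h.gs i j).contDiffAt k).sub
        (HP.sum Finset.univ fun a _ => HP.sum Finset.univ fun b _ => ?_)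
      exact ((HP.of_contDiffAt (h.gs a b).contDiffAt k).sub (HP.const k _ x)).mul
        (HP_W4 hx0 k a b i j)
    have h3 : (fun y => G y i j) =ᶠ[𝓝 x] fun y => g y i j - ∑ a, ∑ b,
        (g y a b - if a = b then 1 else 0) * W4 a b i j y := by
      filter_upwards [(isOpen_out R).mem_nhds hx] with y hy
      have e1 : ∑ a, ∑ b, (g y a b - if a = b then 1 else 0) * W4 a b i j y =
          (rad g y - 1) * (nx i y * nx j y) := by
        rw [hF y (h.ne_zero (le_of_lt hy)), Finset.sum_mul]
        refine Finset.sum_congr rfl fun a _ => ?_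
        rw [Finset.sum_mul]
        exact Finset.sum_congr rfl fun b _ => by unfold W4; ring
      rw [e1, h.eq y (le_of_lt hy) i j]
      ring
    rw [(HP.congr h2 h3).pd, sub_eq_add_neg, ← Finset.sum_neg_distrib]
    congr 1
    refine Finset.sum_congr rfl fun a _ => ?_
    rw [← Finset.sum_neg_distrib]
    exact Finset.sum_congr rfl fun b _ => by ring
  have hb : BigO (q + 1) (fun x => pd k (fun y => g y i j) x +
      ∑ a, ∑ b, (pd k (fun y => g y a b) x * (-W4 a b i j x) +
        8 * (((g x a b - if a = b then 1 else 0) / len x) * (-dW4 k a b i j x / 8)))) := by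
    refine bigO_add (h1 i j k) (bigO_sum _ fun a _ => bigO_sum _ fun b _ => bigO_add ?_ ?_)
    · exact bigO_bdd (h1 a b k) fun x => by rw [abs_neg]; exact abs_W4 a b i j x
    · refine bigO_const_mul 8 (bigO_bdd (bigO_div_len (h0 a b)) fun x => ?_)
      rw [abs_div, abs_neg, abs_of_pos (by norm_num : (0 : ℝ) < 8)]
      have := abs_dW4 k a b i j x
      rw [div_le_one (by norm_num)]
      exact this
  exact bigO_congr (R := R + 1) hb fun x hx => hder x (by linarith)

end Vale.Agent.T4
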