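import Vale.Agent.P366.T4.Basic
import Vale.Agent.P366.T2.Area

/-! T4: the minimal enclosing area. -/

open MeasureTheory Metric Filter Topology Set
open scoped ContDiff ENNReal Matrix

noncomputable section
namespace Vale.Agent.T4
open Vale.Agent.P366.Stmt Vale.Agent.P366.T2

variable {n : ℕ}

namespace Lapse

variable {G g : Field n} {R : ℝ} (h : Lapse G g R)
include h

theorem det_g {x : E n} (hx : R ≤ len x) : (mat g x).det = rad g x * (mat G x).det := by
  have h0 := h.ne_zero hx
  have e : mat g x = mat G x * (1 + (Matrix.of fun (i : Fin n) (_ : Unit) =>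
      (rad g x - 1) * nx i x) * (Matrix.of fun (_ : Unit) (j : Fin n) => nx j x)) := by
    ext i j
    rw [Matrix.mul_add, Matrix.mul_one, Matrix.add_apply, show mat g x i j = g x i j from rfl,
      h.eq x hx i j, Matrix.mul_apply]
    have e2 : ∀ k, mat G x i k * ((Matrix.of fun (i : Fin n) (_ : Unit) =>
        (rad g x - 1) * nx i x) * (Matrix.of fun (_ : Unit) (j : Fin n) => nx j x)) k j =
        (rad g x - 1) * nx j x * (G x i k * nx k x) := by
      intro k
      rw [Matrix.mul_apply]
      simp only [Finset.univ_unique, Finset.sum_singleton, Matrix.of_apply]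
      change G x i k * _ = _
      ring
    simp only [e2, ← Finset.mul_sum, h.G_nx hx]
    change _ = G x i j + _
    ring
  rw [e, Matrix.det_mul, Matrix.det_one_add_mul_comm]
  have e3 : (1 + (Matrix.of fun (_ : Unit) (j : Fin n) => nx j x) *
      (Matrix.of fun (i : Fin n) (_ : Unit) => (rad g x - 1) * nx i x)).det = rad g x := by
    rw [Matrix.det_unique, Matrix.add_apply, Matrix.one_apply_eq, Matrix.mul_apply]
    simp only [Matrix.of_apply]
    have e4 : ∀ i, nx i x * ((rad g x - 1) * nx i x) = (rad g x - 1) * (nx i x * nx i x) :=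
      fun i => by ring
    simp only [e4, ← Finset.mul_sum, sum_nx_mul h0]
    ring
  rw [e3, mul_comm]

theorem G_ge {x : E n} (hx : R ≤ len x) (v : Fin n → ℝ) :
    (∑ i, v i * nx i x) ^ 2 ≤ ∑ i, ∑ j, G x i j * v i * v j := by
  set t := ∑ i, v i * nx i x with ht
  have h0 := h.ne_zero hx
  have h1 := (h.pos x hx).posSemidef.dotProduct_mulVec_nonneg (fun i => v i - t * nx i x)
  have h2 : star (fun i => v i - t * nx i x) ⬝ᵥ (mat G x).mulVec (fun i => v i - t * nx i x) =
      (∑ i, ∑ j, G x i j * v i * v j) - t ^ 2 := by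
    simp only [dotProduct, Matrix.mulVec, star_trivial]
    have e1 : ∀ i, ∑ j, mat G x i j * (v j - t * nx j x) =
        (∑ j, G x i j * v j) - t * nx i x := by
      intro i
      have : ∀ j, mat G x i j * (v j - t * nx j x) = G x i j * v j - t * (G x i j * nx j x) := by
        intro j; change G x i j * _ = _; ring
      simp only [this, Finset.sum_sub_distrib, ← Finset.mul_sum, h.G_nx hx]
    simp only [e1]
    have e2 : ∀ i, (v i - t * nx i x) * ((∑ j, G x i j * v j) - t * nx i x) =
        (∑ j, G x i j * v i * v j) - t * (nx i x * ∑ j, G x i j * v j) - t * (v i * nx i x) +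
          t ^ 2 * (nx i x * nx i x) := by
      intro i
      have : ∑ j, G x i j * v i * v j = v i * ∑ j, G x i j * v j := by
        rw [Finset.mul_sum]; exact Finset.sum_congr rfl fun j _ => by ring
      rw [this]; ring
    have e3 : ∑ i, nx i x * ∑ j, G x i j * v j = t := by
      simp only [Finset.mul_sum]
      rw [Finset.sum_comm]
      have : ∀ j, ∑ i, nx i x * (G x i j * v j) = v j * nx j x := by
        intro j
        rw [← h.nx_G hx j, Finset.mul_sum]
        exact Finset.sum_congr rfl fun i _ => by ring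
      simp only [this, ht]
    simp only [e2, Finset.sum_add_distrib, Finset.sum_sub_distrib, ← Finset.mul_sum, e3,
      sum_nx_mul h0, ← ht]
    ring
  rw [h2] at h1
  linarith

theorem g_ge {x : E n} (hx : R ≤ len x) (v : Fin n → ℝ) :
    rad g x * (∑ i, v i * nx i x) ^ 2 ≤ ∑ i, ∑ j, g x i j * v i * v j := by
  have h1 := h.G_ge hx v
  have h2 : ∑ i, ∑ j, g x i j * v i * v j = (∑ i, ∑ j, G x i j * v i * v j) +
      (rad g x - 1) * (∑ i, v i * nx i x) ^ 2 := by
    have e : ∀ i j, g x i j * v i * v j = G x i j * v i * v j +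
        (rad g x - 1) * ((v i * nx i x) * (v j * nx j x)) := by
      intro i j; rw [h.eq x hx i j]; ring
    simp only [e, Finset.sum_add_distrib, ← Finset.mul_sum]
    rw [sq, Finset.sum_mul]
  rw [h2]
  linarith

end Lapse

/-- **[area4]** -/
theorem area4 (hn : 2 ≤ n) {X : Exterior n} {G : Field n} {B : Bg n} (h : Lapse G X.g B.R)
    (hB : B.Fits G) (hR : IsGreatest {r | ∃ x, X.F x = 0 ∧ len x = r} B.R) {r : ℝ}
    (hr : B.R ≤ r) : X.Amin ≤ ENNReal.ofReal (omega n * B.ar r) := by
  have hr0 : 0 < r := B.hR.trans_le hr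
  have hA : ∀ x : E n, ‖x‖ = r → ∀ v : Fin n → ℝ, ∑ i, ∑ j, X.g x i j * v i * v j ≤ 1 →
      -(√((mat X.g x).det) * ∑ i, v i * (x i / ‖x‖)) ≤ B.ar r / r ^ (n - 1) := by
    intro x hx v hv
    have hlen : len x = r := hx
    have hxR : B.R ≤ len x := by rw [hlen]; exact hr
    have hp := h.ppos x hxR
    have h1 := (h.g_ge hxR v).trans hv
    have hdet : B.ar r / r ^ (n - 1) = √(mat G x).det := by
      have := hB.hdet x hxR
      rw [hlen] at this
      rw [← this]
      field_simp
    rw [h.det_g hxR, hdet, Real.sqrt_mul hp.le]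
    change -(√(rad X.g x) * √(mat G x).det * ∑ i, v i * nx i x) ≤ _
    set t := ∑ i, v i * nx i x with ht
    have h3 : √(rad X.g x) * |t| ≤ 1 := by
      have : (√(rad X.g x) * |t|) ^ 2 ≤ 1 := by
        rw [mul_pow, Real.sq_sqrt hp.le, sq_abs]; exact h1
      have h0 : 0 ≤ √(rad X.g x) * |t| := by positivity
      nlinarith
    calc -(√(rad X.g x) * √(mat G x).det * t)
        = √(mat G x).det * (√(rad X.g x) * (-t)) := by ring
      _ ≤ √(mat G x).det * (√(rad X.g x) * |t|) := by
          gcongr
          exact neg_le_abs t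
      _ ≤ √(mat G x).det * 1 := by gcongr
      _ = _ := mul_one _
  have h1 := Amin_le_general hn X hR hr hA
  refine h1.trans (le_of_eq ?_)
  rw [Vale.Agent.P366.omega_eq]
  congr 2
  field_simp

end Vale.Agent.T4
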