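import Vale.Agent.P366.T4.Defs

/-! T4, block D: the ODE argument for a homogeneous background with an averaged lapse. -/

open MeasureTheory Metric Filter Topology Set
open scoped ContDiff

noncomputable section
namespace Vale.Agent.T4
open Vale.Agent.P366.T2

variable {n : ℕ}

namespace Bg

variable (B : Bg n)

theorem rho_pos {r : ℝ} (hr : B.R ≤ r) : 0 < B.rho r := Real.rpow_pos_of_pos (B.ar_pos r hr) _

theorem rho_hasDerivAt {r : ℝ} (hr : B.R ≤ r) :
    HasDerivAt B.rho (B.rho r * (1 * B.H r / ((n : ℝ) - 1))) r := by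
  have ha := B.ar_pos r hr
  refine ((B.ar_deriv r hr).rpow_const (p := 1 / ((n : ℝ) - 1)) (Or.inl ha.ne')).congr_deriv ?_
  rw [Real.rpow_sub ha, Real.rpow_one, rho]; field_simp

/-- **Block D.** -/
theorem key (hn : 3 ≤ n) {V V' kap : ℝ → ℝ} (hV : ∀ r, B.R ≤ r → 0 < V r)
    (hVc : ContinuousOn V (Ici B.R)) (hVd : ∀ r, B.R < r → HasDerivAt V (V' r) r)
    (hkc : ContinuousOn kap (Ici B.R)) (hkd : ∀ r, B.R < r → DifferentiableAt ℝ kap r)
    (hY : ∀ r, B.R < r → |kap r| < B.H r →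
      V' r * (B.H r ^ 2 - kap r ^ 2) + V r * (2 * B.H r * deriv B.H r - 2 * kap r * deriv kap r) ≤
        B.H r * B.Rh r - B.H r * (V r * (B.H r ^ 2 - kap r ^ 2)) -
          V r * (B.H r ^ 2 - kap r ^ 2) / B.H r * B.II2 r)
    (h0 : B.H B.R + kap B.R ≤ 0) (hinf : ∀ᶠ r in atTop, |kap r| < B.H r) {m : ℝ}
    (hm : Tendsto (fun r => B.rho r ^ ((n : ℝ) - 2) *
      (1 - V r * (B.H r ^ 2 - kap r ^ 2) / (4 * B.lam r ^ 2))) atTop (𝓝 (2 * m))) :
    ∃ r, B.R ≤ r ∧ B.rho r ^ ((n : ℝ) - 2) ≤ 2 * m := by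
  -- the last radius with `H ≤ |κ|`
  obtain ⟨R1, hR1⟩ := (eventually_atTop.1 hinf)
  set S : Set ℝ := {r | B.R ≤ r ∧ B.H r ≤ |kap r|} with hS
  have hHc : ContinuousOn B.H (Ici B.R) := fun r hr => (B.H_diff r hr).continuousAt.continuousWithinAt
  have hSc : IsClosed S := by
    have h1 : ContinuousOn (fun r => |kap r| - B.H r) (Ici B.R) := hkc.abs.sub hHc
    have h2 := h1.preimage_isClosed_of_isClosed isClosed_Ici (isClosed_Ici (a := (0 : ℝ)))
    convert h2 using 1
    ext r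
    simp only [hS, mem_ofPred_eq, mem_inter_iff, mem_Ici, mem_preimage, sub_nonneg]
  have hSne : S.Nonempty := ⟨B.R, le_rfl, by
    have := neg_le_abs (kap B.R)
    linarith⟩
  have hSb : BddAbove S := ⟨max B.R R1, fun r hr => by
    by_contra hlt
    push Not at hlt
    have h1 := hR1 r ((le_max_right _ _).trans hlt.le)
    exact absurd hr.2 (not_le.2 h1)⟩
  set r0 := sSup S with hr0
  have hr0S : r0 ∈ S := hSc.csSup_mem hSne hSb
  have hgt : ∀ r, r0 < r → |kap r| < B.H r := by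
    intro r hr
    by_contra hle
    push Not at hle
    exact absurd (le_csSup hSb ⟨hr0S.1.trans hr.le, hle⟩) (not_le.2 hr)
  have hR : ∀ r, r0 ≤ r → B.R ≤ r := fun r hr => hr0S.1.trans hr
  have hge : |kap r0| ≤ B.H r0 := by
    have hsub : Ioi r0 ⊆ Ici B.R := fun r hr => hR r (le_of_lt hr)
    have h1 : Tendsto (fun r => |kap r|) (𝓝[>] r0) (𝓝 (|kap r0|)) :=
      ((hkc r0 hr0S.1).mono hsub).abs
    have h2 : Tendsto B.H (𝓝[>] r0) (𝓝 (B.H r0)) := (hHc r0 hr0S.1).mono hsub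
    refine le_of_tendsto_of_tendsto h1 h2 ?_
    filter_upwards [self_mem_nhdsWithin] with r hr using (hgt r hr).le
  have heq : B.H r0 = |kap r0| := le_antisymm hr0S.2 hge
  have hn3 : (3 : ℝ) ≤ n := by exact_mod_cast hn
  have hN : 1 < (n : ℝ) - 1 := by linarith
  obtain ⟨hmono, hbd⟩ := mono_main2 (N := (n : ℝ) - 1) (r0 := r0) hN (c := fun _ => 1) (H := B.H)
    (Y := fun r => V r * (B.H r ^ 2 - kap r ^ 2))
    (Y' := fun r => V' r * (B.H r ^ 2 - kap r ^ 2) +
      V r * (2 * B.H r * deriv B.H r - 2 * kap r * deriv kap r)) (ρ := B.rho) (R := B.Rh)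
    (II2 := B.II2) (lam := B.lam) (L2 := B.L2) (I := B.IT)
    (fun r hr => one_pos)
    (fun r hr => (abs_nonneg _).trans_lt (hgt r hr))
    (by rw [heq, sq_abs, sub_self, mul_zero])
    (fun r hr => by
      have h1 := hgt r hr
      have h2 : kap r ^ 2 ≤ B.H r ^ 2 := by
        rw [← sq_abs (kap r)]
        exact pow_le_pow_left₀ (abs_nonneg _) h1.le 2
      exact mul_nonneg (hV r (hR r hr.le)).le (by linarith))
    ((hVc.mono fun r hr => hR r hr).mul
      (((hHc.mono fun r hr => hR r hr).pow 2).sub ((hkc.mono fun r hr => hR r hr).pow 2)))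
    (fun r hr => (B.rho_hasDerivAt (hR r hr)).continuousAt.continuousWithinAt)
    (fun r hr => (B.lam_deriv r (hR r hr)).continuousAt.continuousWithinAt)
    (fun r hr => B.rho_pos (hR r hr))
    (fun r hr => B.lam_pos r (hR r hr))
    (fun r hr => B.rho_hasDerivAt (hR r hr.le))
    (fun r hr => by
      have h1 := (B.H_diff r (hR r hr.le)).hasDerivAt
      have h2 := (hkd r (hr0S.1.trans_lt hr)).hasDerivAt
      refine ((hVd r (hr0S.1.trans_lt hr)).mul ((h1.pow 2).sub (h2.pow 2))).congr_deriv ?_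
      simp)
    (fun r hr => by
      rw [one_mul]
      exact hY r (hr0S.1.trans_lt hr) (hgt r hr))
    (fun r hr => (B.lam_deriv r (hR r hr.le)).congr_deriv (by rw [one_mul]))
    (fun r hr => B.hU r (hR r hr.le) _)
    (fun r hr => B.hL r (hR r hr.le))
    (fun r hr => B.hJ r (hR r hr.le))
  refine ⟨r0, hr0S.1, ?_⟩
  have e : (n : ℝ) - 1 - 1 = (n : ℝ) - 2 := by ring
  rw [e] at hbd
  refine ge_of_tendsto hm ?_
  filter_upwards [eventually_ge_atTop r0] with r hr
  exact hbd r hr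

end Bg

end Vale.Agent.T4
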