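import Vale.Agent.P366.T4.Basic

/-! T4: the pointwise inequality. -/

open MeasureTheory Metric Filter Topology Set
open scoped ContDiff ENNReal Matrix MatrixOrder

noncomputable section
namespace Vale.Agent.T4
open Vale.Agent.P366.Stmt Vale.Agent.P366.T2

variable {n : ℕ}

/-- statement of block A4 -/
def StA (n : ℕ) : Prop := ∀ (G g : Field n) (R : ℝ), Lapse G g R → ∀ x : E n, R < len x →
  scal g x = scal G x +
    (1 - 1 / rad g x) * (ctr G (IIf G) (IIf G) x + H1 G x ^ 2 + 2 * dN (H1 G) x) +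
    2 / rad g x * dN (lf g) x * H1 G x - 2 * DS G (glf g) x - 2 * S2 G (Lg G) (glf g) x -
    2 * S2 G (glf g) (glf g) x

/-- statement of block B4 -/
def StB (n : ℕ) : Prop := ∀ (G g K : Field n) (R : ℝ), Lapse G g R →
  (∀ i j, Smooth (fun x => K x i j)) → (∀ x, R ≤ len x → ∀ i j, K x i j = K x j i) →
  ∀ x : E n, R < len x →
    tr g K x = trT G K x + rad K x / rad g x ∧
    normSq g K x = (rad K x / rad g x) ^ 2 + 2 / rad g x * S2 G (row K) (row K) x + ctr G K K x ∧
    ∑ j, nx j x * mom g K j x = DS G (row K) x + S2 G (Lg G) (row K) x +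
      S2 G (glf g) (row K) x - dN (trT G K) x + rad K x / rad g x * H1 G x - ctr G K (IIf G) x ∧
    ∀ w : Fin n → E n → ℝ, |∑ j, nx j x * w j x| ≤ √(rad g x) * covNorm g w x

/-- the radial row of `K`, divided by the lapse -/
def bf (g K : Field n) (l : Fin n) (y : E n) : ℝ := √(1 / rad g y) * row K l y

namespace Lapse

variable {G g : Field n} {R : ℝ} (h : Lapse G g R)
include h

lemma S2_nonneg {x : E n} (hx : R ≤ len x) (a : Fin n → ℝ) :
    0 ≤ ∑ k, ∑ l, Sm G k l x * a k * a l := by
  have h1 := (h.Sm_posSemidef hx).dotProduct_mulVec_nonneg a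
  simp only [dotProduct, Matrix.mulVec, Pi.star_apply, star_trivial, Matrix.of_apply,
    Finset.mul_sum] at h1
  refine h1.trans (le_of_eq ?_)
  exact Finset.sum_congr rfl fun k _ => Finset.sum_congr rfl fun l _ => by ring

lemma S2_cross {x : E n} (hx : R ≤ len x) (u w : Fin n → E n → ℝ) {H k : ℝ} (hk : |k| ≤ H) :
    0 ≤ 2 * H * (S2 G u u x + S2 G w w x) + 4 * k * S2 G u w x := by
  have h1 := h.S2_nonneg hx (fun i => u i x + w i x)
  have h2 := h.S2_nonneg hx (fun i => u i x - w i x)
  have e1 : ∑ k, ∑ l, Sm G k l x * (u k x + w k x) * (u l x + w l x) =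
      S2 G u u x + S2 G w w x + 2 * S2 G u w x := by
    have e3 : S2 G w u x = S2 G u w x := by
      unfold S2
      rw [Finset.sum_comm]
      refine Finset.sum_congr rfl fun k _ => Finset.sum_congr rfl fun l _ => ?_
      rw [h.Sm_symm hx l k]; ring
    have : 2 * S2 G u w x = S2 G u w x + S2 G w u x := by rw [e3]; ring
    rw [this]
    unfold S2
    simp only [← Finset.sum_add_distrib]
    exact Finset.sum_congr rfl fun k _ => Finset.sum_congr rfl fun l _ => by ring
  have e2 : ∑ k, ∑ l, Sm G k l x * (u k x - w k x) * (u l x - w l x) =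
      S2 G u u x + S2 G w w x - 2 * S2 G u w x := by
    have e3 : S2 G w u x = S2 G u w x := by
      unfold S2
      rw [Finset.sum_comm]
      refine Finset.sum_congr rfl fun k _ => Finset.sum_congr rfl fun l _ => ?_
      rw [h.Sm_symm hx l k]; ring
    have : 2 * S2 G u w x = S2 G u w x + S2 G w u x := by rw [e3]; ring
    rw [this]
    unfold S2
    simp only [← Finset.sum_add_distrib, ← Finset.sum_sub_distrib]
    exact Finset.sum_congr rfl fun k _ => Finset.sum_congr rfl fun l _ => by ring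
  rw [e1] at h1
  rw [e2] at h2
  have h3 := abs_le.1 hk
  have h4 : 0 ≤ (H + k) * (S2 G u u x + S2 G w w x + 2 * S2 G u w x) :=
    mul_nonneg (by linarith) h1
  have h5 : 0 ≤ (H - k) * (S2 G u u x + S2 G w w x - 2 * S2 G u w x) :=
    mul_nonneg (by linarith) h2
  nlinarith

lemma ctr_comb {x : E n} (hx : R ≤ len x) (A C : Field n) (t : ℝ) :
    0 ≤ ctr G A A x - 2 * t * ctr G A C x + t ^ 2 * ctr G C C x := by
  obtain ⟨M, hM⟩ : ∃ M : Matrix (Fin n) (Fin n) ℝ, (Matrix.of fun i j => Sm G i j x) = Mᴴ * M := by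
    have h0 := h.Sm_posSemidef hx
    exact CStarAlgebra.nonneg_iff_eq_star_mul_self.mp h0.nonneg
  have hS : ∀ i k, Sm G i k x = ∑ a, M a i * M a k := by
    intro i k
    have := congrFun (congrFun hM i) k
    rw [Matrix.mul_apply] at this
    simpa using this
  -- general bilinear formula
  have key : ∀ A C : Field n, ctr G A C x =
      ∑ a, ∑ b, (∑ i, ∑ j, M a i * M b j * A x i j) * (∑ k, ∑ l, M a k * M b l * C x k l) := by
    intro A C
    unfold ctr
    have e1 : ∀ i j k l, Sm G i k x * Sm G j l x * A x i j * C x k l =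
        ∑ a, ∑ b, (M a i * M b j * A x i j) * (M a k * M b l * C x k l) := by
      intro i j k l
      rw [hS i k, hS j l, Finset.sum_mul_sum, Finset.sum_mul, Finset.sum_mul]
      refine Finset.sum_congr rfl fun a _ => ?_
      rw [Finset.sum_mul, Finset.sum_mul]
      exact Finset.sum_congr rfl fun b _ => by ring
    simp only [e1]
    have e2 : ∀ a b, (∑ i, ∑ j, M a i * M b j * A x i j) * (∑ k, ∑ l, M a k * M b l * C x k l) =
        ∑ i, ∑ j, ∑ k, ∑ l, (M a i * M b j * A x i j) * (M a k * M b l * C x k l) := by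
      intro a b
      rw [Finset.sum_mul]
      refine Finset.sum_congr rfl fun i _ => ?_
      rw [Finset.sum_mul]
      refine Finset.sum_congr rfl fun j _ => ?_
      rw [Finset.mul_sum]
      refine Finset.sum_congr rfl fun k _ => ?_
      rw [Finset.mul_sum]
    simp only [e2]
    -- move the sums over `a, b` outside
    have e3 : ∀ F : Fin n → Fin n → Fin n → Fin n → Fin n → Fin n → ℝ,
        ∑ i, ∑ j, ∑ k, ∑ l, ∑ a, ∑ b, F i j k l a b =
        ∑ a, ∑ b, ∑ i, ∑ j, ∑ k, ∑ l, F i j k l a b := by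
      intro F
      calc ∑ i, ∑ j, ∑ k, ∑ l, ∑ a, ∑ b, F i j k l a b
          = ∑ i, ∑ j, ∑ k, ∑ a, ∑ b, ∑ l, F i j k l a b := by
            refine Finset.sum_congr rfl fun i _ => Finset.sum_congr rfl fun j _ =>
              Finset.sum_congr rfl fun k _ => ?_
            rw [Finset.sum_comm]
            exact Finset.sum_congr rfl fun a _ => Finset.sum_comm
        _ = ∑ i, ∑ j, ∑ a, ∑ b, ∑ k, ∑ l, F i j k l a b := by
            refine Finset.sum_congr rfl fun i _ => Finset.sum_congr rfl fun j _ => ?_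
            rw [Finset.sum_comm]
            exact Finset.sum_congr rfl fun a _ => Finset.sum_comm
        _ = ∑ i, ∑ a, ∑ b, ∑ j, ∑ k, ∑ l, F i j k l a b := by
            refine Finset.sum_congr rfl fun i _ => ?_
            rw [Finset.sum_comm]
            exact Finset.sum_congr rfl fun a _ => Finset.sum_comm
        _ = ∑ a, ∑ b, ∑ i, ∑ j, ∑ k, ∑ l, F i j k l a b := by
            rw [Finset.sum_comm]
            exact Finset.sum_congr rfl fun a _ => Finset.sum_comm
    exact e3 _
  rw [key A A, key A C, key C C]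
  have e5 : ∀ α γ : Fin n → Fin n → ℝ, ∑ a, ∑ b, α a b * α a b -
      2 * t * ∑ a, ∑ b, α a b * γ a b + t ^ 2 * ∑ a, ∑ b, γ a b * γ a b =
      ∑ a, ∑ b, (α a b - t * γ a b) ^ 2 := by
    intro α γ
    simp only [Finset.mul_sum, ← Finset.sum_add_distrib, ← Finset.sum_sub_distrib]
    exact Finset.sum_congr rfl fun a _ => Finset.sum_congr rfl fun b _ => by ring
  rw [e5 (fun a b => ∑ i, ∑ j, M a i * M b j * A x i j)
    (fun a b => ∑ i, ∑ j, M a i * M b j * C x i j)]
  exact Finset.sum_nonneg fun a _ => Finset.sum_nonneg fun b _ => sq_nonneg _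

/-- contraction with a radial covector vanishes -/
lemma S2_radial {x : E n} (hx : R ≤ len x) {u w : Fin n → E n → ℝ} {c : ℝ}
    (hu : ∀ i, u i x = c * nx i x) : S2 G u w x = 0 := by
  unfold S2
  rw [Finset.sum_comm]
  have : ∀ l, ∑ k, Sm G k l x * u k x * w l x = c * w l x * ∑ k, nx k x * Sm G k l x := by
    intro l
    rw [Finset.mul_sum]
    exact Finset.sum_congr rfl fun k _ => by rw [hu k]; ring
  simp only [this, h.nx_Sm hx, mul_zero, Finset.sum_const_zero]

/-- derivative of `1 / p` -/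
lemma HP_inv_rad {x : E n} (hx : R ≤ len x) (k : Fin n) :
    HP k (fun y => 1 / rad g y) (-(2 * (1 / rad g x) * glf g k x)) x := by
  have hp := h.ppos x hx
  have hx0 := h.ne_zero hx
  have h1 : DifferentiableAt ℝ (lf g) x :=
    (contDiffAt_lf h.gs hx0 hp).differentiableAt (by simp)
  have h2 : HP k (lf g) (glf g k x) x := HP.of_diff h1
  have h3 : HP k (fun y => Real.exp (-2 * lf g y)) (Real.exp (-2 * lf g x) * (-2 * glf g k x)) x := by
    have h4 : HasDerivAt _ _ (0 : ℝ) := (HP.const_mul (-2) h2)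
    have h5 := h4.exp
    simp only [zero_smul, add_zero] at h5
    exact h5
  have e : ∀ y, 0 < rad g y → Real.exp (-2 * lf g y) = 1 / rad g y := by
    intro y hy
    unfold lf
    have : -2 * (Real.log (rad g y) / 2) = -Real.log (rad g y) := by ring
    rw [this, Real.exp_neg, Real.exp_log hy, one_div]
  have hev : ∀ᶠ y in 𝓝 x, 0 < rad g y :=
    (contDiffAt_rad h.gs hx0).continuousAt.eventually (lt_mem_nhds hp)
  have h6 := h3.congr (g := fun y => 1 / rad g y) (by
    filter_upwards [hev] with y hy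
    exact (e y hy).symm)
  rw [e x hp] at h6
  have e2 : 1 / rad g x * (-2 * glf g k x) = -(2 * (1 / rad g x) * glf g k x) := by ring
  rw [e2] at h6
  exact h6

/-- derivative of `1 / √p` -/
lemma HP_sqrt_inv {x : E n} (hx : R ≤ len x) (k : Fin n) :
    HP k (fun y => √(1 / rad g y)) (-(√(1 / rad g x) * glf g k x)) x := by
  have hp := h.ppos x hx
  have hv : 0 < 1 / rad g x := by positivity
  have h1 : HasDerivAt _ _ (0 : ℝ) := h.HP_inv_rad hx k
  have h2 := h1.sqrt (by simp only [zero_smul, add_zero]; exact hv.ne')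
  simp only [zero_smul, add_zero] at h2
  have hs : 0 < √(1 / rad g x) := Real.sqrt_pos.2 hv
  have e : -(2 * (1 / rad g x) * glf g k x) / (2 * √(1 / rad g x)) =
      -(√(1 / rad g x) * glf g k x) := by
    rw [div_eq_iff (by positivity)]
    have := Real.mul_self_sqrt hv.le
    linear_combination (2 * glf g k x) * this
  rw [e] at h2
  exact h2

/-- divergence of the tangential field `S B`, `B = K(N, ·) / √p` -/
lemma DS_bf {K : Field n} (hK : ∀ i j, Smooth (fun x => K x i j)) {x : E n} (hx : R < len x) :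
    DS G (bf g K) x = √(1 / rad g x) * (DS G (row K) x - S2 G (glf g) (row K) x) := by
  have hx0 := h.ne_zero hx.le
  have hS : ∀ k l, HP k (Sm G k l) (pd k (Sm G k l) x) x := fun k l =>
    HP.of_diff ((h.contDiffAt_Sm hx k l).differentiableAt (by simp))
  have hr : ∀ k l, HP k (row K l) (pd k (row K l) x) x := fun k l =>
    HP.of_diff ((contDiffAt_row hK l hx0).differentiableAt (by simp))
  have h1 : ∀ k, pd k (fun y => ∑ l, Sm G k l y * bf g K l y) x =
      ∑ l, (pd k (Sm G k l) x * (√(1 / rad g x) * row K l x) +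
        Sm G k l x * (-(√(1 / rad g x) * glf g k x) * row K l x +
          √(1 / rad g x) * pd k (row K l) x)) := fun k =>
    (HP.sum Finset.univ fun l _ => (hS k l).mul ((h.HP_sqrt_inv hx.le k).mul (hr k l))).pd
  have h2 : ∀ k, pd k (fun y => ∑ l, Sm G k l y * row K l y) x =
      ∑ l, (pd k (Sm G k l) x * row K l x + Sm G k l x * pd k (row K l) x) := fun k =>
    (HP.sum Finset.univ fun l _ => (hS k l).mul (hr k l)).pd
  unfold DS S2
  simp only [h1, h2, mul_sub, Finset.mul_sum, ← Finset.sum_sub_distrib]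
  exact Finset.sum_congr rfl fun k _ => Finset.sum_congr rfl fun l _ => by ring

end Lapse

/-- radial derivative of a radial function -/
lemma dN_radial {f : ℝ → ℝ} {x : E n} (hx : x ≠ 0) (hf : DifferentiableAt ℝ f (len x))
    {F : E n → ℝ} (hF : F =ᶠ[𝓝 x] fun y => f (len y)) : dN F x = deriv f (len x) := by
  have h1 : ∀ i, pd i F x = deriv f (len x) / len x * x i := fun i =>
    ((HP.radial hx hf.hasDerivAt i).congr hF).pd
  have hl := len_ne hx
  unfold dN
  simp only [h1]
  have : ∀ i, nx i x * (deriv f (len x) / len x * x i) = deriv f (len x) * (nx i x * nx i x) := by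
    intro i; unfold nx; field_simp
  simp only [this, ← Finset.mul_sum, sum_nx_mul hx, mul_one]

section Pointwise

variable {G g K : Field n} {B : Bg n} {kap : ℝ → ℝ}

lemma H1_eq (hF : B.Fits G) {x : E n} (hx : B.R < len x) : H1 G x = B.H (len x) := by
  have hx0 := ne_zero_of_len B.hR hx.le
  unfold H1
  simp only [hF.hL x hx]
  have : ∀ i, nx i x * ((B.H (len x) - ((n : ℝ) - 1) / len x) * nx i x) =
      (B.H (len x) - ((n : ℝ) - 1) / len x) * (nx i x * nx i x) := fun i => by ring
  simp only [this, ← Finset.mul_sum, sum_nx_mul hx0]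
  ring

lemma dN_H1 (hF : B.Fits G) {x : E n} (hx : B.R < len x) :
    dN (H1 G) x = deriv B.H (len x) := by
  refine dN_radial (ne_zero_of_len B.hR hx.le) (B.H_diff _ hx.le) ?_
  filter_upwards [(isOpen_out B.R).mem_nhds hx] with y hy
  exact H1_eq hF hy

lemma sqrt_inv_mul {p : ℝ} (hp : 0 < p) : √(1 / p) * √p = 1 := by
  rw [← Real.sqrt_mul (by positivity), one_div, inv_mul_cancel₀ hp.ne', Real.sqrt_one]

lemma trT_eq (h : Lapse G g B.R)
    (hk : ∀ x, B.R ≤ len x → √(rad g x) * trT G K x = kap (len x)) {x : E n} (hx : B.R ≤ len x) :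
    trT G K x = √(1 / rad g x) * kap (len x) := by
  rw [← hk x hx, ← mul_assoc, sqrt_inv_mul (h.ppos x hx), one_mul]

lemma dN_trT (h : Lapse G g B.R)
    (hk : ∀ x, B.R ≤ len x → √(rad g x) * trT G K x = kap (len x)) {x : E n} (hx : B.R < len x)
    (hkd : DifferentiableAt ℝ kap (len x)) :
    dN (trT G K) x = √(1 / rad g x) * deriv kap (len x) -
      √(1 / rad g x) * kap (len x) * dN (lf g) x := by
  have hx0 := h.ne_zero hx.le
  have hev : trT G K =ᶠ[𝓝 x] fun y => √(1 / rad g y) * kap (len y) := by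
    filter_upwards [(isOpen_out B.R).mem_nhds hx] with y hy
    exact trT_eq h hk (le_of_lt hy)
  have h1 : ∀ i, pd i (trT G K) x = -(√(1 / rad g x) * glf g i x) * kap (len x) +
      √(1 / rad g x) * (deriv kap (len x) / len x * x i) := fun i =>
    (((h.HP_sqrt_inv hx.le i).mul (HP.radial hx0 hkd.hasDerivAt i)).congr hev).pd
  have hl := len_ne hx0
  unfold dN
  simp only [h1]
  have e : ∀ i, nx i x * (-(√(1 / rad g x) * glf g i x) * kap (len x) +
      √(1 / rad g x) * (deriv kap (len x) / len x * x i)) =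
      √(1 / rad g x) * deriv kap (len x) * (nx i x * nx i x) -
        √(1 / rad g x) * kap (len x) * (nx i x * pd i (lf g) x) := by
    intro i; unfold nx glf; field_simp; ring
  simp only [e, Finset.sum_sub_distrib, ← Finset.mul_sum, sum_nx_mul hx0, mul_one]

/-- **The pointwise inequality.** -/
theorem pointwise (hA : StA n) (hB : StB n) (h : Lapse G g B.R) (hF : B.Fits G)
    (hK : ∀ i j, Smooth (fun x => K x i j))
    (hKs : ∀ x, B.R ≤ len x → ∀ i j, K x i j = K x j i)
    (hk : ∀ x, B.R ≤ len x → √(rad g x) * trT G K x = kap (len x)) {x : E n}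
    (hx : B.R < len x) (hkd : DifferentiableAt ℝ kap (len x))
    (hdec : covNorm g (mom g K) x ≤ mu g K x) (hlt : |kap (len x)| < B.H (len x)) :
    0 ≤ B.H (len x) * B.Rh (len x) -
      dN (fun y => 1 / rad g y) x * (B.H (len x) ^ 2 - kap (len x) ^ 2) -
      1 / rad g x * (2 * B.H (len x) * deriv B.H (len x) - 2 * kap (len x) * deriv kap (len x)) -
      B.H (len x) * (1 / rad g x * (B.H (len x) ^ 2 - kap (len x) ^ 2)) -
      1 / rad g x * (B.H (len x) ^ 2 - kap (len x) ^ 2) / B.H (len x) * B.II2 (len x) -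
      2 * B.H (len x) * DS G (glf g) x - 2 * kap (len x) * DS G (bf g K) x := by
  have hp := h.ppos x hx.le
  have hx0 := h.ne_zero hx.le
  obtain ⟨b1, b2, b3, b4⟩ := hB G g K B.R h hK hKs x hx
  have a1 := hA G g B.R h x hx
  have hL0 : ∀ w : Fin n → E n → ℝ, S2 G (Lg G) w x = 0 := fun w =>
    h.S2_radial hx.le (hF.hL x hx)
  rw [hL0] at a1 b3
  have hRh := hF.hRh x hx
  rw [hF.hII x hx, H1_eq hF hx, dN_H1 hF hx] at a1
  rw [H1_eq hF hx, dN_trT h hk hx hkd] at b3
  rw [trT_eq h hk hx.le] at b1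
  have hdv : dN (fun y => 1 / rad g y) x = -(2 * (1 / rad g x) * dN (lf g) x) := by
    unfold dN
    have : ∀ i, nx i x * pd i (fun y => 1 / rad g y) x =
        -(2 * (1 / rad g x)) * (nx i x * pd i (lf g) x) := by
      intro i
      rw [(h.HP_inv_rad hx.le i).pd]
      unfold glf; ring
    simp only [this, ← Finset.mul_sum]
    ring
  rw [hdv, h.DS_bf hK hx]
  have hc := h.S2_cross hx.le (glf g) (bf g K) hlt.le
  have hII := h.ctr_comb hx.le K (IIf G) (kap (len x) * √(1 / rad g x) / B.H (len x))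
  rw [hF.hII x hx] at hII
  -- `S2` of `bf`
  have e1 : S2 G (bf g K) (bf g K) x = 1 / rad g x * S2 G (row K) (row K) x := by
    unfold S2 bf
    rw [Finset.mul_sum]
    refine Finset.sum_congr rfl fun k _ => ?_
    rw [Finset.mul_sum]
    refine Finset.sum_congr rfl fun l _ => ?_
    have := Real.mul_self_sqrt (show 0 ≤ 1 / rad g x by positivity)
    linear_combination (Sm G k l x * row K k x * row K l x) * this
  have e2 : S2 G (glf g) (bf g K) x = √(1 / rad g x) * S2 G (glf g) (row K) x := by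
    unfold S2 bf
    rw [Finset.mul_sum]
    refine Finset.sum_congr rfl fun k _ => ?_
    rw [Finset.mul_sum]
    exact Finset.sum_congr rfl fun l _ => by ring
  rw [e1, e2] at hc
  set s := √(1 / rad g x) with hs
  set v := 1 / rad g x with hv
  have hvp : 0 < v := by rw [hv]; positivity
  have hs2 : s * s = v := Real.mul_self_sqrt hvp.le
  have hsp : 0 < s := Real.sqrt_pos.2 hvp
  set H := B.H (len x) with hH
  set κ := kap (len x) with hκ
  have hHp : 0 < H := (abs_nonneg _).trans_lt hlt
  have hpv : ∀ t : ℝ, t / rad g x = t * v := fun t => by rw [hv]; ring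
  rw [hpv] at b1 b2 b3 a1
  rw [hpv] at b2
  -- dominant energy condition
  have b4' := b4 (mom g K)
  have hdec2 : s * |∑ j, nx j x * mom g K j x| ≤ mu g K x := by
    calc s * |∑ j, nx j x * mom g K j x| ≤ s * (√(rad g x) * covNorm g (mom g K) x) :=
          mul_le_mul_of_nonneg_left b4' hsp.le
      _ = covNorm g (mom g K) x := by rw [← mul_assoc, sqrt_inv_mul hp, one_mul]
      _ ≤ mu g K x := hdec
  have hmu : mu g K x = (scal g x + tr g K x ^ 2 - normSq g K x) / 2 := rfl
  have hDEC : 0 ≤ 2 * H * mu g K x - 2 * κ * (s * ∑ j, nx j x * mom g K j x) := by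
    have h1 : κ * (s * ∑ j, nx j x * mom g K j x) ≤ |κ| * (s * |∑ j, nx j x * mom g K j x|) := by
      have := le_abs_self (κ * (s * ∑ j, nx j x * mom g K j x))
      rwa [abs_mul, abs_mul, abs_of_pos hsp] at this
    have h2 : |κ| * (s * |∑ j, nx j x * mom g K j x|) ≤ H * mu g K x :=
      mul_le_mul hlt.le hdec2 (by positivity) hHp.le
    linarith
  rw [hmu, a1, b1, b2, b3] at hDEC
  -- the tensor part
  have hII' : 0 ≤ H * (ctr G K K x - 2 * (κ * s / H) * ctr G K (IIf G) x +
      (κ * s / H) ^ 2 * B.II2 (len x)) := mul_nonneg hHp.le hII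
  have e3 : H * (ctr G K K x - 2 * (κ * s / H) * ctr G K (IIf G) x +
      (κ * s / H) ^ 2 * B.II2 (len x)) = H * ctr G K K x - 2 * κ * s * ctr G K (IIf G) x +
        κ ^ 2 * v / H * B.II2 (len x) := by
    rw [← hs2]; field_simp
  rw [e3] at hII'
  have e4 : v * (H ^ 2 - κ ^ 2) / H * B.II2 (len x) =
      v * H * B.II2 (len x) - κ ^ 2 * v / H * B.II2 (len x) := by
    field_simp
  rw [e4]
  set RR := B.Rh (len x)
  set II2 := B.II2 (len x)
  have hRR : RR = scal G x + II2 + H ^ 2 + 2 * deriv B.H (len x) := hRh.symm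
  rw [hRR]
  set W1 := κ ^ 2 * v / H * II2
  -- everything is now linear in the remaining quantities
  have hmain : H * (scal G x + II2 + H ^ 2 + 2 * deriv B.H (len x)) -
      -(2 * v * dN (lf g) x) * (H ^ 2 - κ ^ 2) -
      v * (2 * H * deriv B.H (len x) - 2 * κ * deriv kap (len x)) -
      H * (v * (H ^ 2 - κ ^ 2)) - (v * H * II2 - W1) - 2 * H * DS G (glf g) x -
      2 * κ * (s * (DS G (row K) x - S2 G (glf g) (row K) x)) =
      (2 * H * ((scal G x + (1 - v) * (II2 + H ^ 2 + 2 * deriv B.H (len x)) +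
        2 * v * dN (lf g) x * H - 2 * DS G (glf g) x - 2 * 0 - 2 * S2 G (glf g) (glf g) x +
        (s * κ + rad K x * v) ^ 2 - ((rad K x * v) ^ 2 + 2 * v * S2 G (row K) (row K) x +
        ctr G K K x)) / 2) - 2 * κ * (s * (DS G (row K) x + 0 + S2 G (glf g) (row K) x -
        (s * deriv kap (len x) - s * κ * dN (lf g) x) + rad K x * v * H -
        ctr G K (IIf G) x))) +
      (2 * H * (S2 G (glf g) (glf g) x + v * S2 G (row K) (row K) x) +
        4 * κ * (s * S2 G (glf g) (row K) x)) +
      (H * ctr G K K x - 2 * κ * s * ctr G K (IIf G) x + W1) := by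
    linear_combination (-(H * κ ^ 2) - 2 * κ * deriv kap (len x) +
      2 * κ ^ 2 * dN (lf g) x) * hs2
  rw [hmain]
  linarith

end Pointwise

end Vale.Agent.T4
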