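import Vale.Agent.P366.T4.B4f
import Vale.Agent.P366.T4.Point

/-! T4, block B4 in the form of `Point.lean`. -/

noncomputable section
namespace Vale.Agent.T4
open Vale.Agent.P366.Stmt Vale.Agent.P366.T2

variable {n : ℕ}

theorem stB (n : ℕ) : StB n := fun _ _ _ _ h hK hKs x hx =>
  ⟨tr_lapse h hx.le, normSq_lapse h (hKs x hx.le) hx.le, mom_lapse h hK hKs hx,
    fun w => rad_le_covNorm h w hx.le⟩

end Vale.Agent.T4
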