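import Vale.Agent.P366.T4.Basic
import Vale.Agent.P366.T2.C92d

/-! T4: null expansion of the centred spheres and the touching argument. -/

open MeasureTheory Metric Filter Topology Set
open scoped ContDiff ENNReal Matrix

noncomputable section
namespace Vale.Agent.T4
open Vale.Agent.P366.Stmt Vale.Agent.P366.T2
open Vale.Agent.C92 (pd_congr_outside pd_mul pd_sum pd_len pd_pd_len trS_def outside_nonneg
  theta_compare)

variable {n : ℕ}

theorem pd_nx {x : E n} (hx : x ≠ 0) (k i : Fin n) :
    pd k (nx i) x = ((if i = k then 1 else 0) - nx i x * nx k x) / len x := (HP_nx hx k i).pd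

theorem diff_nx {x : E n} (hx : x ≠ 0) (i : Fin n) : DifferentiableAt ℝ (nx i) x :=
  (contDiffAt_nx (m := 1) i hx).differentiableAt (by norm_num)

theorem pd_nx_radial {x : E n} (hx : x ≠ 0) (i : Fin n) : ∑ k, nx k x * pd k (nx i) x = 0 := by
  have hl := len_ne hx
  have h : ∀ k, nx k x * pd k (nx i) x = (1 / len x) * ((if i = k then nx k x else 0) -
      nx i x * (nx k x * nx k x)) := by
    intro k
    rw [pd_nx hx]
    split_ifs <;> ring
  simp only [h, ← Finset.mul_sum, Finset.sum_sub_distrib, sum_nx_mul hx]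
  simp

namespace Lapse

variable {G g : Field n} {R : ℝ} (h : Lapse G g R)
include h

theorem diff_G (x : E n) (i j : Fin n) : DifferentiableAt ℝ (fun y => G y i j) x :=
  (h.Gs i j).differentiable (by norm_num) x

theorem diff_g (x : E n) (i j : Fin n) : DifferentiableAt ℝ (fun y => g y i j) x :=
  (h.gs i j).differentiable (by norm_num) x

theorem diff_rad {x : E n} (hx : R ≤ len x) : DifferentiableAt ℝ (rad g) x :=
  (contDiffAt_rad h.gs (h.ne_zero hx)).differentiableAt (by norm_num)

theorem Sm_G {x : E n} (hx : R ≤ len x) (i k : Fin n) :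
    ∑ j, Sm G i j x * G x j k = (if i = k then 1 else 0) - nx i x * nx k x := by
  have e : ∀ j, Sm G i j x * G x j k = up G i j x * G x j k - nx i x * (nx j x * G x j k) := by
    intro j; unfold Sm; ring
  simp only [e, Finset.sum_sub_distrib, ← Finset.mul_sum, h.up_G hx, h.nx_G hx]

theorem Sm_g {x : E n} (hx : R ≤ len x) (i k : Fin n) :
    ∑ j, Sm G i j x * g x j k = (if i = k then 1 else 0) - nx i x * nx k x := by
  have e : ∀ j, Sm G i j x * g x j k = Sm G i j x * G x j k +
      (rad g x - 1) * nx k x * (Sm G i j x * nx j x) := by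
    intro j; rw [h.eq x hx j k]; ring
  simp only [e, Finset.sum_add_distrib, ← Finset.mul_sum, h.Sm_G hx, h.Sm_nx hx]
  ring

theorem tr_Sm_g {x : E n} (hx : R ≤ len x) :
    ∑ i, ∑ j, Sm G i j x * g x j i = (n : ℝ) - 1 := by
  simp only [h.Sm_g hx, Finset.sum_sub_distrib, if_true, sum_nx_mul (h.ne_zero hx)]
  simp

theorem up_g_nx {x : E n} (hx : R ≤ len x) (i : Fin n) :
    ∑ j, up g i j x * nx j x = nx i x / rad g x := by
  have e : ∀ j, up g i j x * nx j x = Sm G i j x * nx j x +
      nx i x / rad g x * (nx j x * nx j x) := by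
    intro j; rw [h.up_g hx]; ring
  simp only [e, Finset.sum_add_distrib, ← Finset.mul_sum, h.Sm_nx hx, sum_nx_mul (h.ne_zero hx)]
  ring

theorem up_g_symm {x : E n} (hx : R ≤ len x) (i j : Fin n) : up g i j x = up g j i x := by
  rw [h.up_g hx, h.up_g hx, h.Sm_symm hx i j]; ring

theorem cov_len {x : E n} (hx : R ≤ len x) :
    covNorm g (fun j => pd j len) x = 1 / √(rad g x) := by
  have h0 := h.ne_zero hx
  have h1 : ∑ i, ∑ j, up g i j x * pd i len x * pd j len x = 1 / rad g x := by
    have e : ∀ i, ∑ j, up g i j x * pd i len x * pd j len x = nx i x * nx i x / rad g x := by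
      intro i
      have e2 : ∀ j, up g i j x * pd i len x * pd j len x = nx i x * (up g i j x * nx j x) := by
        intro j
        rw [pd_len h0, pd_len h0]
        change up g i j x * nx i x * nx j x = _
        ring
      simp only [e2, ← Finset.mul_sum, h.up_g_nx hx]
      ring
    simp only [e, ← Finset.sum_div, sum_nx_mul h0]
  unfold covNorm
  rw [h1, Real.sqrt_div zero_le_one, Real.sqrt_one]

theorem nrm_len {x : E n} (hx : R ≤ len x) (i : Fin n) :
    nrm g len i x = nx i x / √(rad g x) := by
  have h0 := h.ne_zero hx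
  have hp := h.ppos x hx
  have h3 : ∑ j, up g i j x * pd j len x = nx i x / rad g x := by
    rw [← h.up_g_nx hx]
    exact Finset.sum_congr rfl fun j _ => by rw [pd_len h0]; rfl
  unfold nrm
  rw [h3, h.cov_len hx]
  have hs : 0 < √(rad g x) := Real.sqrt_pos.2 hp
  have hs2 : √(rad g x) ^ 2 = rad g x := Real.sq_sqrt hp.le
  field_simp
  rw [hs2]

theorem trS_len {x : E n} (hx : R ≤ len x) (T : Field n) : trS g T len x = trT G T x := by
  rw [trS_def]
  have hp := h.ppos x hx
  have hs2 : √(rad g x) ^ 2 = rad g x := Real.sq_sqrt hp.le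
  have hs : 0 < √(rad g x) := Real.sqrt_pos.2 hp
  unfold trT
  refine Finset.sum_congr rfl fun i _ => Finset.sum_congr rfl fun j _ => ?_
  rw [h.nrm_len hx, h.nrm_len hx, h.up_g hx]
  have : nx i x / √(rad g x) * (nx j x / √(rad g x)) = nx i x * nx j x / rad g x := by
    rw [div_mul_div_comm, ← sq, hs2]
  rw [this]
  ring

theorem dg_nx {x : E n} (hx : R ≤ len x) (i j : Fin n) :
    ∑ l, nx l x * pd i (fun y => g y j l) x = pd i (rad g) x * nx j x +
      rad g x / len x * (if j = i then 1 else 0) - g x j i / len x := by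
  have h0 := h.ne_zero hx
  have hl := len_ne h0
  have hd1 : ∀ l, DifferentiableAt ℝ (fun y => g y j l * nx l y) x :=
    fun l => (h.diff_g x j l).mul (diff_nx h0 l)
  have h1 := pd_congr_outside hx (u := fun y => ∑ l, g y j l * nx l y)
    (v := fun y => rad g y * nx j y)
    (DifferentiableAt.fun_sum fun l _ => hd1 l)
    ((h.diff_rad hx).mul (diff_nx h0 j)) (fun y hy => h.g_nx hy j) i
  rw [pd_sum _ (fun l _ => hd1 l),
    pd_mul (h.diff_rad hx) (diff_nx h0 j)] at h1
  have h2 : ∀ l, pd i (fun y => g y j l * nx l y) x = nx l x * pd i (fun y => g y j l) x +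
      (1 / len x) * ((if l = i then g x j l else 0) - nx i x * (g x j l * nx l x)) := by
    intro l
    rw [pd_mul (h.diff_g x j l) (diff_nx h0 l), pd_nx h0]
    split_ifs <;> ring
  simp only [h2, Finset.sum_add_distrib, ← Finset.mul_sum, Finset.sum_sub_distrib,
    h.g_nx hx, Finset.sum_ite_eq', Finset.mem_univ, if_true, pd_nx h0] at h1
  have h3 : ∑ l, nx l x * pd i (fun y => g y j l) x = pd i (rad g) x * nx j x +
      rad g x * (((if j = i then 1 else 0) - nx j x * nx i x) / len x) -
      1 / len x * (g x j i - nx i x * (rad g x * nx j x)) := by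
    linarith
  rw [h3]
  ring

/-- tangential trace of the covariant Hessian of the radius -/
theorem trT_hess {x : E n} (hx : R ≤ len x) :
    trT G (hess g len) x = (((n : ℝ) - 1) / len x +
      (∑ i, ∑ j, Sm G i j x * ∑ l, nx l x * pd l (fun y => g y i j) x) / 2) / rad g x := by
  have h0 := h.ne_zero hx
  have hl := len_ne h0
  have hp := (h.ppos x hx).ne'
  have hh : ∀ i j, hess g len x i j = ((if i = j then 1 else 0) - nx i x * nx j x) / len x -
      (1 / (2 * rad g x)) * ((∑ l, nx l x * pd i (fun y => g y j l) x) +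
        (∑ l, nx l x * pd j (fun y => g y i l) x) -
        ∑ l, nx l x * pd l (fun y => g y i j) x) := by
    intro i j
    have h1 : ∑ k, chr g k i j x * pd k len x = (1 / (2 * rad g x)) *
        ((∑ l, nx l x * pd i (fun y => g y j l) x) +
        (∑ l, nx l x * pd j (fun y => g y i l) x) -
        ∑ l, nx l x * pd l (fun y => g y i j) x) := by
      have h2 : ∀ k, chr g k i j x * pd k len x = ∑ l, 1 / 2 * (up g l k x * nx k x) *
          (pd i (fun y => g y j l) x + pd j (fun y => g y i l) x -
            pd l (fun y => g y i j) x) := by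
        intro k
        unfold chr
        rw [Finset.sum_div, Finset.sum_mul]
        refine Finset.sum_congr rfl fun l _ => ?_
        rw [pd_len h0, h.up_g_symm hx k l]
        change _ * nx k x = _
        ring
      simp only [h2]
      rw [Finset.sum_comm]
      have h3 : ∀ l, ∑ k, 1 / 2 * (up g l k x * nx k x) *
          (pd i (fun y => g y j l) x + pd j (fun y => g y i l) x -
            pd l (fun y => g y i j) x) = (1 / (2 * rad g x)) *
          (nx l x * pd i (fun y => g y j l) x + nx l x * pd j (fun y => g y i l) x -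
            nx l x * pd l (fun y => g y i j) x) := by
        intro l
        rw [← Finset.sum_mul, ← Finset.mul_sum, h.up_g_nx hx]
        field_simp
      simp only [h3, ← Finset.mul_sum, Finset.sum_add_distrib, Finset.sum_sub_distrib]
    unfold hess
    rw [h1, pd_pd_len h0]
    unfold nx
    field_simp
  unfold trT
  have e : ∀ i j, Sm G i j x * hess g len x i j =
      (1 / (2 * rad g x)) * (Sm G i j x * ∑ l, nx l x * pd l (fun y => g y i j) x) +
      (1 / (2 * rad g x)) * (1 / len x * (Sm G i j x * g x j i) +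
        1 / len x * (Sm G j i x * g x i j)) -
      (1 / len x) * nx j x * (nx i x * Sm G i j x) -
      (1 / (2 * rad g x)) * (nx j x * (pd i (rad g) x * Sm G i j x)) -
      (1 / (2 * rad g x)) * (pd j (rad g) x * (nx i x * Sm G i j x)) := by
    intro i j
    rw [hh, h.dg_nx hx, h.dg_nx hx, h.Sm_symm hx j i]
    by_cases hij : i = j
    · subst hij
      simp only [if_true]
      field_simp
      ring
    · simp only [hij, Ne.symm hij, if_false]
      field_simp
      ring
  have z1 : ∑ i, ∑ j, (1 / len x) * nx j x * (nx i x * Sm G i j x) = 0 := by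
    rw [Finset.sum_comm]
    simp only [← Finset.mul_sum, h.nx_Sm hx]
    simp
  have z2 : ∑ i, ∑ j, (1 / (2 * rad g x)) * (nx j x * (pd i (rad g) x * Sm G i j x)) = 0 := by
    have e2 : ∀ i j, (1 / (2 * rad g x)) * (nx j x * (pd i (rad g) x * Sm G i j x)) =
        (1 / (2 * rad g x)) * pd i (rad g) x * (Sm G i j x * nx j x) := fun i j => by ring
    simp only [e2, ← Finset.mul_sum, h.Sm_nx hx]
    simp
  have z3 : ∑ i, ∑ j, (1 / (2 * rad g x)) * (pd j (rad g) x * (nx i x * Sm G i j x)) = 0 := by
    rw [Finset.sum_comm]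
    simp only [← Finset.mul_sum, h.nx_Sm hx]
    simp
  have z4 : ∑ i, ∑ j, Sm G j i x * g x i j = (n : ℝ) - 1 := by
    rw [Finset.sum_comm]
    exact h.tr_Sm_g hx
  simp only [e, Finset.sum_sub_distrib, Finset.sum_add_distrib]
  rw [z1, z2, z3]
  simp only [← Finset.mul_sum, Finset.sum_add_distrib]
  rw [h.tr_Sm_g hx, z4]
  field_simp
  ring

/-- the normal derivative of `g` and of `G` have the same tangential trace -/
theorem tr_dN {x : E n} (hx : R ≤ len x) :
    ∑ i, ∑ j, Sm G i j x * ∑ l, nx l x * pd l (fun y => g y i j) x =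
      2 * ∑ i, nx i x * Lg G i x := by
  have h0 := h.ne_zero hx
  have hl := len_ne h0
  have hdr : DifferentiableAt ℝ (fun y => rad g y - 1) x := (h.diff_rad hx).sub_const 1
  -- `g` in terms of `G`
  have h1 : ∀ l i j, pd l (fun y => g y i j) x = pd l (fun y => G y i j) x +
      (pd l (fun y => rad g y - 1) x * nx i x * nx j x +
        (rad g x - 1) * pd l (nx i) x * nx j x + (rad g x - 1) * nx i x * pd l (nx j) x) := by
    intro l i j
    have e := pd_congr_outside hx (u := fun y => g y i j)
      (v := fun y => G y i j + (rad g y - 1) * nx i y * nx j y) (h.diff_g x i j)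
      ((h.diff_G x i j).add ((hdr.mul (diff_nx h0 i)).mul (diff_nx h0 j)))
      (fun y hy => h.eq y hy i j) l
    rw [e]
    have a1 := HP.of_diff (k := l) (h.diff_G x i j)
    have a2 := HP.of_diff (k := l) hdr
    have a3 := HP.of_diff (k := l) (diff_nx h0 i)
    have a4 := HP.of_diff (k := l) (diff_nx h0 j)
    have := (a1.add ((a2.mul a3).mul a4)).pd
    rw [this]
    ring
  have hz : ∀ (c : Fin n → ℝ), ∑ i, ∑ j, Sm G i j x * (c i * nx j x) = 0 := by
    intro c
    have e : ∀ i j, Sm G i j x * (c i * nx j x) = c i * (Sm G i j x * nx j x) :=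
      fun i j => by ring
    simp only [e, ← Finset.mul_sum, h.Sm_nx hx]
    simp
  have hz' : ∀ (c : Fin n → ℝ), ∑ i, ∑ j, Sm G i j x * (nx i x * c j) = 0 := by
    intro c
    have e : ∀ i j, Sm G i j x * (nx i x * c j) = c j * (nx i x * Sm G i j x) :=
      fun i j => by ring
    simp only [e]
    rw [Finset.sum_comm]
    simp only [← Finset.mul_sum, h.nx_Sm hx]
    simp
  have h2 : ∀ i j, Sm G i j x * ∑ l, nx l x * pd l (fun y => g y i j) x =
      Sm G i j x * (∑ l, nx l x * pd l (fun y => G y i j) x) +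
      (Sm G i j x * ((∑ l, nx l x * pd l (fun y => rad g y - 1) x) * nx i x * nx j x) +
      Sm G i j x * ((rad g x - 1) * (∑ l, nx l x * pd l (nx i) x) * nx j x) +
      Sm G i j x * (nx i x * ((rad g x - 1) * ∑ l, nx l x * pd l (nx j) x))) := by
    intro i j
    rw [← mul_add, ← mul_add, ← mul_add]
    congr 1
    simp only [Finset.mul_sum, Finset.sum_mul, ← Finset.sum_add_distrib]
    refine Finset.sum_congr rfl fun l _ => ?_
    rw [h1]
    ring
  simp only [h2, Finset.sum_add_distrib, hz, hz', add_zero]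
  -- the radial part of the normal derivative of `G` vanishes
  have h3 : ∀ k, ∑ l, (∑ i, nx i x * pd i (fun y => G y k l) x) * nx l x = 0 := by
    intro k
    have e : ∀ i, ∑ l, pd i (fun y => G y k l) x * nx l x = pd i (nx k) x -
        ∑ l, G x k l * pd i (nx l) x := by
      intro i
      have hd1 : ∀ l, DifferentiableAt ℝ (fun y => G y k l * nx l y) x :=
        fun l => (h.diff_G x k l).mul (diff_nx h0 l)
      have e1 := pd_congr_outside hx (u := fun y => ∑ l, G y k l * nx l y)
        (v := fun y => nx k y)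
        (DifferentiableAt.fun_sum fun l _ => hd1 l)
        (diff_nx h0 k) (fun y hy => h.G_nx hy k) i
      rw [pd_sum _ (fun l _ => hd1 l)] at e1
      have e2 : ∀ l, pd i (fun y => G y k l * nx l y) x = pd i (fun y => G y k l) x * nx l x +
          G x k l * pd i (nx l) x := fun l => pd_mul (h.diff_G x k l) (diff_nx h0 l) i
      simp only [e2, Finset.sum_add_distrib] at e1
      have e3 : pd i (fun y => nx k y) x = pd i (nx k) x := rfl
      linarith
    have e4 : ∑ l, (∑ i, nx i x * pd i (fun y => G y k l) x) * nx l x =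
        ∑ i, nx i x * ∑ l, pd i (fun y => G y k l) x * nx l x := by
      simp only [Finset.sum_mul, Finset.mul_sum]
      rw [Finset.sum_comm]
      exact Finset.sum_congr rfl fun i _ => Finset.sum_congr rfl fun l _ => by ring
    rw [e4]
    simp only [e, mul_sub, Finset.sum_sub_distrib, pd_nx_radial h0, Finset.mul_sum]
    rw [Finset.sum_comm]
    have e5 : ∀ l, ∑ i, nx i x * (G x k l * pd i (nx l) x) = 0 := by
      intro l
      have : ∀ i, nx i x * (G x k l * pd i (nx l) x) = G x k l * (nx i x * pd i (nx l) x) :=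
        fun i => by ring
      simp only [this, ← Finset.mul_sum, pd_nx_radial h0, mul_zero]
    simp only [e5]
    simp
  have h4 : ∑ i, nx i x * Lg G i x = (1 / 2) * ∑ k, ∑ l, up G k l x *
      ∑ i, nx i x * pd i (fun y => G y k l) x := by
    unfold Lg
    have e : ∀ i, nx i x * (1 / 2 * ∑ k, ∑ l, up G k l x * pd i (fun y => G y k l) x) =
        1 / 2 * ∑ k, ∑ l, up G k l x * (nx i x * pd i (fun y => G y k l) x) := by
      intro i
      rw [mul_left_comm]
      congr 1
      rw [Finset.mul_sum]
      refine Finset.sum_congr rfl fun k _ => ?_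
      rw [Finset.mul_sum]
      exact Finset.sum_congr rfl fun l _ => by ring
    simp only [e, ← Finset.mul_sum]
    congr 1
    rw [Finset.sum_comm]
    refine Finset.sum_congr rfl fun k _ => ?_
    rw [Finset.sum_comm]
    exact Finset.sum_congr rfl fun l _ => by rw [Finset.mul_sum]
  rw [h4]
  have h5 : ∀ k l, Sm G k l x * (∑ i, nx i x * pd i (fun y => G y k l) x) =
      up G k l x * (∑ i, nx i x * pd i (fun y => G y k l) x) -
      nx k x * ((∑ i, nx i x * pd i (fun y => G y k l) x) * nx l x) := by
    intro k l; unfold Sm; ring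
  simp only [h5, Finset.sum_sub_distrib, ← Finset.mul_sum, h3]
  simp

/-- **Null expansion of the centred spheres.** -/
theorem theta_len {K : Field n} {x : E n} (hx : R ≤ len x) :
    thetaPlus g K len x = H1 G x / √(rad g x) + trT G K x := by
  have hp := h.ppos x hx
  have hs : 0 < √(rad g x) := Real.sqrt_pos.2 hp
  have hs2 : √(rad g x) ^ 2 = rad g x := Real.sq_sqrt hp.le
  unfold thetaPlus
  rw [h.cov_len hx, h.trS_len hx, h.trS_len hx, h.trT_hess hx, h.tr_dN hx]
  unfold H1
  congr 1
  rw [show 2 * (∑ i, nx i x * Lg G i x) / 2 = ∑ i, nx i x * Lg G i x by ring, one_div,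
    div_inv_eq_mul, div_mul_eq_mul_div, div_eq_div_iff hp.ne' hs.ne', mul_assoc, ← sq, hs2]

/-! ### continuity of the mean curvature up to the sphere -/

theorem cont_up {x : E n} (hx : R ≤ len x) (i j : Fin n) : ContinuousAt (up G i j) x := by
  have hm : Continuous (fun y => mat G y) :=
    continuous_matrix fun i j => (h.Gs i j).continuous
  have hd := hm.matrix_det
  have ha := hm.matrix_adjugate
  have e : up G i j = fun y => (mat G y).det⁻¹ * (mat G y).adjugate i j := by
    funext y
    change (mat G y)⁻¹ i j = _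
    rw [Matrix.inv_def, Ring.inverse_eq_inv', Matrix.smul_apply, smul_eq_mul]
  rw [e]
  exact (hd.continuousAt.inv₀ (h.det_ne hx)).mul ((ha.matrix_elem i j).continuousAt)

theorem cont_pd (k i j : Fin n) : Continuous (pd k (fun y => G y i j)) := by
  rw [Vale.Agent.C92.pd_fderiv' (h.Gs i j) k]
  exact ((h.Gs i j).continuous_fderiv (by norm_num)).clm_apply continuous_const

theorem cont_Lg {x : E n} (hx : R ≤ len x) (i : Fin n) : ContinuousAt (Lg G i) x := by
  unfold Lg
  refine ContinuousAt.mul continuousAt_const ?_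
  refine tendsto_finsetSum _ fun k _ => tendsto_finsetSum _ fun l _ => ?_
  exact (h.cont_up hx k l).mul (h.cont_pd i k l).continuousAt

theorem cont_H1 {x : E n} (hx : R ≤ len x) : ContinuousAt (H1 G) x := by
  have h0 := h.ne_zero hx
  unfold H1
  refine ContinuousAt.add ?_ ?_
  · exact continuousAt_const.div continuous_norm.continuousAt (len_ne h0)
  · refine tendsto_finsetSum _ fun i _ => ?_
    exact (contDiffAt_nx (m := 0) i h0).continuousAt.mul (h.cont_Lg hx i)

end Lapse

theorem H1_eq_bd {G g : Field n} {B : Bg n} (h : Lapse G g B.R) (hB : B.Fits G) {x : E n}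
    (hx : B.R ≤ len x) : H1 G x = B.H (len x) := by
  have h0 := h.ne_zero hx
  have hr : 0 < len x := h.len_pos hx
  have key : ∀ y : E n, B.R < len y → H1 G y = B.H (len y) := by
    intro y hy
    unfold H1
    have e : ∀ i, nx i y * Lg G i y = (B.H (len y) - ((n : ℝ) - 1) / len y) *
        (nx i y * nx i y) := by
      intro i; rw [hB.hL y hy]; ring
    simp only [e, ← Finset.mul_sum, sum_nx_mul (h.ne_zero hy.le)]
    ring
  rcases hx.lt_or_eq with hlt | heq
  · exact key x hlt
  · -- approach along the ray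
    have hl : ∀ t : ℝ, 0 < t → len ((1 + t) • x) = (1 + t) * len x := by
      intro t ht
      unfold len
      rw [norm_smul, Real.norm_eq_abs, abs_of_pos (by linarith)]
    have hc : Tendsto (fun t : ℝ => (1 + t) • x) (𝓝 0) (𝓝 x) := by
      have h1 : ContinuousAt (fun t : ℝ => (1 + t) • x) 0 := by fun_prop
      have h2 := h1.tendsto
      simpa using h2
    have h1 : Tendsto (fun t : ℝ => H1 G ((1 + t) • x)) (𝓝[>] 0) (𝓝 (H1 G x)) :=
      ((h.cont_H1 hx).tendsto.comp hc).mono_left nhdsWithin_le_nhds
    have h5 : Tendsto (fun t : ℝ => B.H ((1 + t) * len x)) (𝓝[>] 0) (𝓝 (B.H (len x))) := by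
      have h6 : ContinuousAt B.H (len x) := (B.H_diff _ hx).continuousAt
      have h7 : Tendsto (fun t : ℝ => (1 + t) * len x) (𝓝 0) (𝓝 (len x)) := by
        have h8 : ContinuousAt (fun t : ℝ => (1 + t) * len x) 0 := by fun_prop
        have h9 := h8.tendsto
        simpa using h9
      exact (h6.tendsto.comp h7).mono_left nhdsWithin_le_nhds
    have h10 : (fun t : ℝ => H1 G ((1 + t) • x)) =ᶠ[𝓝[>] 0]
        fun t : ℝ => B.H ((1 + t) * len x) := by
      filter_upwards [self_mem_nhdsWithin] with t ht
      have ht' : 0 < t := ht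
      rw [key _ (by rw [hl t ht', ← heq]; nlinarith [B.hR]), hl t ht']
    exact tendsto_nhds_unique (h1.congr' h10) h5

/-- **[touch4]** -/
theorem touch4 (hn : 2 ≤ n) {X : Exterior n} {G : Field n} {B : Bg n} (h : Lapse G X.g B.R)
    (hB : B.Fits G) {κ : ℝ → ℝ}
    (hκ : ∀ x, B.R ≤ len x → √(rad X.g x) * trT G X.K x = κ (len x)) (hT : X.Trapped)
    (hR : IsGreatest {r | ∃ x, X.F x = 0 ∧ len x = r} B.R) : B.H B.R + κ B.R ≤ 0 := by
  have hout := outside_nonneg hn X hR
  obtain ⟨x0, hF0, hx0⟩ := hR.1
  have h1 := theta_compare (g := X.g) (K := X.K) X.dom.1 B.hR hx0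
    (X.pos x0 hF0.ge) (X.dom.2.1 x0 hF0) (fun x hx => by rw [hF0]; exact hout x hx)
  have h2 := h1.trans (hT x0 hF0)
  have hp := h.ppos x0 hx0.ge
  have hs : 0 < √(rad X.g x0) := Real.sqrt_pos.2 hp
  rw [h.theta_len hx0.ge, H1_eq_bd h hB hx0.ge] at h2
  have h3 := hκ x0 hx0.ge
  rw [hx0] at h2 h3
  rw [← h3]
  have h4 : √(rad X.g x0) * (B.H B.R / √(rad X.g x0) + trT G X.K x0) ≤ 0 :=
    mul_nonpos_of_nonneg_of_nonpos hs.le h2
  have h5 : √(rad X.g x0) * (B.H B.R / √(rad X.g x0) + trT G X.K x0) =
      B.H B.R + √(rad X.g x0) * trT G X.K x0 := by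
    field_simp
  rw [h5] at h4
  exact h4

end Vale.Agent.T4
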