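import Vale.Agent.P366.T4.Avg
import Vale.Agent.P366.T4.Key
import Vale.Agent.P366.T4.StB68
import Vale.Agent.P366.T4.Touch92
import Vale.Agent.P366.T4.Area92
import Vale.Agent.P366.T2.Assemble
import Vale.Agent.P366.T4.BgQ

/-! T4: assembly. -/

open MeasureTheory Metric Filter Topology Set
open scoped ContDiff ENNReal Matrix

noncomputable section
namespace Vale.Agent.T4
open Vale.Agent.P366.Stmt
open Vale.Agent.P366 (sphI sphM av norm_smul_sph integrable_sph sphI_congr sphI_continuousOn)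

variable {n : ℕ}

section

variable {G g K : Field n} {R : ℝ}

lemma smul_e_len {e : E n} (he : ‖e‖ = 1) {r : ℝ} (hr : 0 ≤ r) : len (r • e) = r := by
  unfold len
  rw [norm_smul, he, mul_one, Real.norm_eq_abs, abs_of_nonneg hr]

/-- `√p tr_S K` -/
def kfun (G g K : Field n) (x : E n) : ℝ := √(rad g x) * trT G K x

lemma kfun_contDiffAt (h : Lapse G g R) (hK : ∀ i j, Smooth (fun x => K x i j)) {x : E n}
    (hx : R < len x) : ContDiffAt ℝ ∞ (kfun G g K) x :=
  ((contDiffAt_rad h.gs (h.ne_zero hx.le)).sqrt (h.ppos x hx.le).ne').mul (h.contDiffAt_trT hK hx)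

lemma trT_continuousAt (h : Lapse G g R) (hK : ∀ i j, Smooth (fun x => K x i j)) {x : E n}
    (hx : R ≤ len x) : ContinuousAt (trT G K) x := by
  have hx0 := h.ne_zero hx
  unfold trT
  refine tendsto_finsetSum _ fun i _ => tendsto_finsetSum _ fun j _ => ?_
  refine ContinuousAt.mul ?_ (hK i j).continuous.continuousAt
  exact (h.cont_up hx i j).sub ((contDiffAt_nx (m := 0) i hx0).continuousAt.mul
    (contDiffAt_nx (m := 0) j hx0).continuousAt)

lemma kfun_continuousAt (h : Lapse G g R) (hK : ∀ i j, Smooth (fun x => K x i j)) {x : E n}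
    (hx : R ≤ len x) : ContinuousAt (kfun G g K) x :=
  ((contDiffAt_rad h.gs (h.ne_zero hx)).continuousAt.sqrt).mul (trT_continuousAt h hK hx)

lemma kap_continuousOn (hn : 0 < n) (h : Lapse G g R) (hK : ∀ i j, Smooth (fun x => K x i j))
    {kap : ℝ → ℝ} (hk : ∀ x, R ≤ len x → √(rad g x) * trT G K x = kap (len x)) :
    ContinuousOn kap (Ici R) := by
  set e : E n := EuclideanSpace.single ⟨0, hn⟩ 1 with he
  have he1 : ‖e‖ = 1 := by simp [he]
  have h1 : ContinuousOn (fun r : ℝ => kfun G g K (r • e)) (Ici R) := by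
    intro r hr
    have hr0 : 0 ≤ r := h.hR.le.trans hr
    have h2 : ContinuousAt (kfun G g K) (r • e) :=
      kfun_continuousAt h hK (by rw [smul_e_len he1 hr0]; exact hr)
    exact (ContinuousAt.comp (f := fun r : ℝ => r • e) h2
      (continuous_id.smul continuous_const).continuousAt).continuousWithinAt
  refine h1.congr fun r hr => ?_
  have hr0 : 0 ≤ r := h.hR.le.trans hr
  have := hk (r • e) (by rw [smul_e_len he1 hr0]; exact hr)
  rw [smul_e_len he1 hr0] at this
  exact this.symm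

lemma kap_differentiableAt (hn : 0 < n) (h : Lapse G g R)
    (hK : ∀ i j, Smooth (fun x => K x i j)) {kap : ℝ → ℝ}
    (hk : ∀ x, R ≤ len x → √(rad g x) * trT G K x = kap (len x)) {r : ℝ} (hr : R < r) :
    DifferentiableAt ℝ kap r := by
  set e : E n := EuclideanSpace.single ⟨0, hn⟩ 1 with he
  have he1 : ‖e‖ = 1 := by simp [he]
  have hr0 : 0 ≤ r := h.hR.le.trans hr.le
  have h2 : DifferentiableAt ℝ (kfun G g K) (r • e) :=
    (kfun_contDiffAt h hK (by rw [smul_e_len he1 hr0]; exact hr)).differentiableAt (by simp)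
  have h3 : DifferentiableAt ℝ (fun r : ℝ => kfun G g K (r • e)) r :=
    DifferentiableAt.comp (f := fun r : ℝ => r • e) r h2 (differentiableAt_id.smul_const e)
  refine h3.congr_of_eventuallyEq ?_
  filter_upwards [lt_mem_nhds hr] with t ht
  have ht0 : 0 ≤ t := h.hR.le.trans ht.le
  have := hk (t • e) (by rw [smul_e_len he1 ht0]; exact ht.le)
  rw [smul_e_len he1 ht0] at this
  exact this.symm

/-- radial projection to the outside -/
def proj (R : ℝ) (x : E n) : E n := (max ‖x‖ R / ‖x‖) • x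

lemma proj_len {x : E n} (hR : 0 < R) (hx : x ≠ 0) : len (proj R x) = max ‖x‖ R := by
  have h1 : 0 < ‖x‖ := norm_pos_iff.2 hx
  have h2 : 0 < max ‖x‖ R := lt_max_of_lt_left h1
  unfold len proj
  rw [norm_smul, Real.norm_eq_abs, abs_of_pos (by positivity)]
  field_simp

lemma proj_eq {x : E n} (hR : 0 < R) (hx : R ≤ ‖x‖) : proj R x = x := by
  unfold proj
  rw [max_eq_left hx, div_self (hR.trans_le hx).ne', one_smul]

lemma v_cont (h : Lapse G g R) :
    ContinuousOn (fun x => 1 / rad g (proj R x)) {x : E n | 0 < ‖x‖} := by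
  intro x hx
  have hx0 : x ≠ 0 := norm_pos_iff.1 hx
  have hl := proj_len (R := R) h.hR hx0
  have hle : R ≤ len (proj R x) := by rw [hl]; exact le_max_right _ _
  have h1 : ContinuousAt (fun y => 1 / rad g y) (proj R x) := (h.contDiffAt_v hle).continuousAt
  have h2 : ContinuousAt (proj R) x := by
    unfold proj
    refine ContinuousAt.smul (f := fun x : E n => max ‖x‖ R / ‖x‖) (g := fun x => x) ?_
      continuousAt_id
    exact (continuous_norm.max continuous_const).continuousAt.div continuous_norm.continuousAt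
      (norm_ne_zero_iff.2 hx0)
  exact (ContinuousAt.comp (f := proj R) h1 h2).continuousWithinAt

lemma Vav_eq (h : Lapse G g R) {r : ℝ} (hr : R ≤ r) :
    Vav g r = av (fun x => 1 / rad g (proj R x)) r := by
  unfold Vav av
  congr 1
  refine sphI_congr (h.hR.le.trans hr) fun x hx => ?_
  rw [proj_eq h.hR (by rw [hx]; exact hr)]

lemma Vav_continuousOn (h : Lapse G g R) : ContinuousOn (Vav g) (Ici R) := by
  have h1 : ContinuousOn (sphI fun x : E n => 1 / rad g (proj R x)) (Ioi 0) :=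
    sphI_continuousOn le_rfl (v_cont h)
  have h2 : ContinuousOn (av fun x : E n => 1 / rad g (proj R x)) (Ioi 0) := h1.div_const _
  refine (h2.mono fun r hr => h.hR.trans_le hr).congr fun r hr => Vav_eq h hr

lemma Vav_pos [Nontrivial (E n)] (h : Lapse G g R) {r : ℝ} (hr : R ≤ r) : 0 < Vav g r := by
  have hω : 0 < Vale.Agent.P366.omega n := Vale.Agent.P366.omega_pos'
  have hr0 : 0 < r := h.hR.trans_le hr
  rw [Vav_eq h hr]
  refine div_pos ?_ hω
  have hpos : ∀ θ : sphere (0 : E n) 1, 0 < 1 / rad g (proj R (r • (θ : E n))) := by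
    intro θ
    have hn0 : (r • (θ : E n)) ≠ 0 := by
      intro h0
      have := norm_smul_sph hr0.le θ
      rw [h0, norm_zero] at this
      linarith
    have := h.ppos (proj R (r • (θ : E n))) (by rw [proj_len h.hR hn0]; exact le_max_right _ _)
    positivity
  have hint := integrable_sph le_rfl hr0 (v_cont h)
  unfold sphI
  rw [integral_pos_iff_support_of_nonneg (fun θ => (hpos θ).le) hint]
  have hs : Function.support (fun θ : sphere (0 : E n) 1 => 1 / rad g (proj R (r • (θ : E n)))) =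
      univ := by
    ext θ
    simp only [Function.mem_support, mem_univ, iff_true]
    exact (hpos θ).ne'
  rw [hs]
  have hω' : 0 < ((sphM n) univ).toReal := hω
  exact (ENNReal.toReal_pos_iff.1 hω').1

end

/-- statement of block E4 -/
def StE (n : ℕ) : Prop := ∀ (X : Exterior n) (B : Bg n) (G : Field n), Lapse G X.g B.R →
  B.Fits G → B.LamOK G → X.IsAF → ∀ m : ℝ, X.IsEnergy m → ∀ κ : ℝ → ℝ,
  (∀ x, B.R ≤ len x → √(rad X.g x) * trT G X.K x = κ (len x)) →
  Tendsto (fun r => B.rho r ^ ((n : ℝ) - 2) *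
    (1 - Vav X.g r * (B.H r ^ 2 - κ r ^ 2) / (4 * B.lam r ^ 2))) atTop (𝓝 (2 * m)) ∧
  ∀ᶠ r in atTop, |κ r| < B.H r

/-- **The Penrose inequality for an arbitrary lapse over a homogeneous background.** -/
theorem penrose_bg (hn : 3 ≤ n) (hA : StA n) (hE : StE n) {X : Exterior n} {G : Field n}
    {B : Bg n} (h : Lapse G X.g B.R) (hB : B.Fits G) (hL : B.LamOK G) (hAF : X.IsAF)
    (hDEC : X.DEC) (hT : X.Trapped) {m : ℝ} (hm : X.IsEnergy m)
    (hR : IsGreatest {r | ∃ x, X.F x = 0 ∧ len x = r} B.R) {κ : ℝ → ℝ}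
    (hκ : ∀ x, B.R ≤ len x → √(rad X.g x) * trT G X.K x = κ (len x)) :
    ∃ r, B.R ≤ r ∧ 0 < B.rho r ∧ B.rho r ^ ((n : ℝ) - 2) ≤ 2 * m ∧
      X.Amin ≤ ENNReal.ofReal (omega n * B.rho r ^ ((n : ℝ) - 1)) := by
  have : Nonempty (Fin n) := ⟨⟨0, by omega⟩⟩
  have : Nontrivial (E n) := inferInstance
  have hout := Vale.Agent.C92.outside_nonneg (by omega) X hR
  have hKsm := fun i j => (X.smooth i j).2
  obtain ⟨hlim, hinf⟩ := hE X B G h hB hL hAF m hm κ hκ
  obtain ⟨r, hr, hle⟩ := B.key hn (V := Vav X.g) (V' := Vav' X.g) (kap := κ)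
    (fun r hr => Vav_pos h hr) (Vav_continuousOn h) (fun r hr => Vav_hasDerivAt h hr)
    (kap_continuousOn (by omega) h hKsm hκ)
    (fun r hr => kap_differentiableAt (by omega) h hKsm hκ hr)
    (fun r hr hlt => avg_ineq hA (stB n) h hB hKsm (fun x _ i j => (X.symm x i j).2) hκ hr
      (kap_differentiableAt (by omega) h hKsm hκ hr)
      (fun x hx => hDEC x (hout x hx.le)) hlt)
    (touch4 (by omega) h hB hκ hT hR) hinf hlim
  refine ⟨r, hr, B.rho_pos hr, hle, ?_⟩
  have hn1 : (n : ℝ) - 1 ≠ 0 := by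
    have : (3 : ℝ) ≤ n := by exact_mod_cast hn
    linarith
  have e : B.rho r ^ ((n : ℝ) - 1) = B.ar r := by
    unfold Bg.rho
    rw [← Real.rpow_mul (B.ar_pos r hr).le, one_div, inv_mul_cancel₀ hn1, Real.rpow_one]
  rw [e]
  exact area4 (by omega) h hB hR hr

/-- energy form of the conclusion -/
theorem penrose_bg_energy (hn : 3 ≤ n) (hA : StA n) (hE : StE n) {X : Exterior n} {G : Field n}
    {B : Bg n} (h : Lapse G X.g B.R) (hB : B.Fits G) (hL : B.LamOK G) (hAF : X.IsAF)
    (hDEC : X.DEC) (hT : X.Trapped) {m : ℝ} (hm : X.IsEnergy m)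
    (hR : IsGreatest {r | ∃ x, X.F x = 0 ∧ len x = r} B.R) {κ : ℝ → ℝ}
    (hκ : ∀ x, B.R ≤ len x → √(rad X.g x) * trT G X.K x = κ (len x)) :
    X.Amin ≠ ⊤ ∧ 0 < m ∧
      (X.Amin.toReal / omega n) ^ (((n : ℝ) - 2) / (n - 1)) / 2 ≤ m := by
  obtain ⟨r, hr, hρ, hle, hAm⟩ := penrose_bg hn hA hE h hB hL hAF hDEC hT hm hR hκ
  obtain ⟨h1, h2, h3⟩ := Vale.Agent.P366.T2.conclude hn (P := fun _ : Fin n => 0) rfl hρ hAm hle
  simp only [ne_eq, OfNat.ofNat_ne_zero, not_false_eq_true, zero_pow, Finset.sum_const_zero,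
    Real.sqrt_zero, sub_zero] at h2 h3
  rw [Real.sqrt_sq h2.le] at h3
  exact ⟨h1, h2, h3⟩

end Vale.Agent.T4
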