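import Vale.Agent.P366.T4.Point

/-! T4, block C: sphere averages. -/

open MeasureTheory Metric Filter Topology Set
open scoped ContDiff ENNReal Matrix

noncomputable section
namespace Vale.Agent.T4
open Vale.Agent.P366.Stmt Vale.Agent.P366.T2
open Vale.Agent.P366 (sphI sphM av flux dvg norm_smul_sph integrable_sph sphI_hasDerivAt
  flux_hasDerivAt isOpen_outside sphI_congr sphI_continuousOn)

variable {n : ℕ}

lemma pd_eq_pd {f : E n → ℝ} {x : E n} (hf : DifferentiableAt ℝ f x) (i : Fin n) :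
    pd i f x = Vale.Agent.P366.pd i f x := Vale.Agent.P366.Bridge.pd_eq hf i

lemma fderiv_nx {b : ℝ} (hb : 0 ≤ b) {f : E n → ℝ} (hf : ContDiffOn ℝ 1 f {x | b < ‖x‖}) {r : ℝ}
    (hr : b < r) (θ : sphere (0 : E n) 1) :
    fderiv ℝ f (r • (θ : E n)) (θ : E n) = dN f (r • (θ : E n)) := by
  have h0 : 0 < r := hb.trans_lt hr
  have hmem : (r • (θ : E n)) ∈ {x : E n | b < ‖x‖} := by
    simp only [mem_ofPred_eq, norm_smul_sph h0.le]; exact hr
  have hd : DifferentiableAt ℝ f (r • (θ : E n)) :=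
    (hf.contDiffAt ((isOpen_outside b).mem_nhds hmem)).differentiableAt (by simp)
  rw [Vale.Agent.P366.fderiv_eq_sum_pd]
  unfold dN
  refine Finset.sum_congr rfl fun i _ => ?_
  rw [pd_eq_pd hd]
  congr 1
  unfold nx len
  rw [norm_smul_sph h0.le]
  simp only [PiLp.smul_apply, smul_eq_mul]
  field_simp

lemma sphI_hasDerivAt' {b : ℝ} (hb : 0 ≤ b) {f : E n → ℝ} (hf : ContDiffOn ℝ 1 f {x | b < ‖x‖})
    {r : ℝ} (hr : b < r) : HasDerivAt (sphI f) (sphI (dN f) r) r := by
  have h1 := sphI_hasDerivAt hb hf hr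
  have e : (∫ θ : sphere (0 : E n) 1, fderiv ℝ f (r • (θ : E n)) (θ : E n) ∂(sphM n)) =
      sphI (dN f) r := by
    unfold sphI
    exact integral_congr_ae (Eventually.of_forall fun θ => fderiv_nx hb hf hr θ)
  rwa [e] at h1

lemma sphI_comb {b r : ℝ} (hb : 0 ≤ b) (hr : b < r) {f1 f2 f3 f4 : E n → ℝ}
    (h1 : ContinuousOn f1 {x | b < ‖x‖}) (h2 : ContinuousOn f2 {x | b < ‖x‖})
    (h3 : ContinuousOn f3 {x | b < ‖x‖}) (h4 : ContinuousOn f4 {x | b < ‖x‖})
    {c0 c1 c2 c3 c4 : ℝ} :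
    sphI (fun x => c0 - c1 * f1 x - c2 * f2 x - c3 * f3 x - c4 * f4 x) r =
      c0 * Vale.Agent.P366.omega n - c1 * sphI f1 r - c2 * sphI f2 r - c3 * sphI f3 r -
        c4 * sphI f4 r := by
  have k1 : ContinuousOn (fun x => c1 * f1 x) {x | b < ‖x‖} := continuousOn_const.mul h1
  have k2 : ContinuousOn (fun x => c2 * f2 x) {x | b < ‖x‖} := continuousOn_const.mul h2
  have k3 : ContinuousOn (fun x => c3 * f3 x) {x | b < ‖x‖} := continuousOn_const.mul h3
  have k4 : ContinuousOn (fun x => c4 * f4 x) {x | b < ‖x‖} := continuousOn_const.mul h4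
  rw [Vale.Agent.P366.sphI_sub (u := fun x => c0 - c1 * f1 x - c2 * f2 x - c3 * f3 x)
      (v := fun x => c4 * f4 x) hb hr (((continuousOn_const.sub k1).sub k2).sub k3) k4,
    Vale.Agent.P366.sphI_sub (u := fun x => c0 - c1 * f1 x - c2 * f2 x)
      (v := fun x => c3 * f3 x) hb hr ((continuousOn_const.sub k1).sub k2) k3,
    Vale.Agent.P366.sphI_sub (u := fun x => c0 - c1 * f1 x)
      (v := fun x => c2 * f2 x) hb hr (continuousOn_const.sub k1) k2,
    Vale.Agent.P366.sphI_sub (u := fun _ => c0) (v := fun x => c1 * f1 x) hb hr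
      continuousOn_const k1, Vale.Agent.P366.sphI_const, Vale.Agent.P366.sphI_const_mul,
    Vale.Agent.P366.sphI_const_mul, Vale.Agent.P366.sphI_const_mul,
    Vale.Agent.P366.sphI_const_mul]

/-- the divergence of a tangential field has vanishing sphere integrals -/
lemma sphI_div_tangential [Nontrivial (E n)] {b : ℝ} (hb : 0 ≤ b) {W : Fin n → E n → ℝ}
    (hW : ∀ i, ContDiffOn ℝ 1 (W i) {x | b < ‖x‖})
    (hT : ∀ x, b < ‖x‖ → ∑ i, W i x * nx i x = 0) {r : ℝ} (hr : b < r) :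
    sphI (fun x => ∑ k, pd k (W k) x) r = 0 := by
  have h0 : 0 < r := hb.trans_lt hr
  have h1 := flux_hasDerivAt hb hW hr
  have h2 : flux W =ᶠ[𝓝 r] fun _ => 0 := by
    filter_upwards [lt_mem_nhds hr] with s hs
    unfold flux
    have : sphI (fun x => ∑ i, W i x * (x i / ‖x‖)) s = 0 := by
      unfold sphI
      refine integral_eq_zero_of_ae (Eventually.of_forall fun θ => ?_)
      exact hT _ (by rw [norm_smul_sph (hb.trans hs.le)]; exact hs)
    rw [this, mul_zero]
  have h3 := h1.unique ((hasDerivAt_const r (0 : ℝ)).congr_of_eventuallyEq h2)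
  have h4 : sphI (dvg W) r = 0 := by
    have : r ^ (n - 1) ≠ 0 := by positivity
    exact (mul_eq_zero.1 h3).resolve_left this
  rw [← h4]
  refine sphI_congr h0.le fun x hx => ?_
  unfold dvg
  refine Finset.sum_congr rfl fun k _ => ?_
  exact pd_eq_pd ((hW k).contDiffAt ((isOpen_outside b).mem_nhds (by
    show b < ‖x‖
    rw [hx]; exact hr)) |>.differentiableAt (by simp)) k

/-- continuity of the divergence -/
lemma contOn_div {b : ℝ} {W : Fin n → E n → ℝ}
    (hW : ∀ i, ContDiffOn ℝ 1 (W i) {x | b < ‖x‖}) :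
    ContinuousOn (fun x => ∑ k, pd k (W k) x) {x | b < ‖x‖} := by
  refine continuousOn_finsetSum _ fun k _ => ?_
  have h1 : ContinuousOn (fun x => fderiv ℝ (W k) x (EuclideanSpace.single k (1 : ℝ)))
      {x | b < ‖x‖} :=
    ((hW k).continuousOn_fderiv_of_isOpen (isOpen_outside b) le_rfl).clm_apply continuousOn_const
  refine h1.congr fun x hx => ?_
  exact pd_eq_pd (((hW k).contDiffAt ((isOpen_outside b).mem_nhds hx)).differentiableAt
    (by simp)) k

/-- continuity of the radial derivative -/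
lemma contOn_dN {b : ℝ} (hb : 0 ≤ b) {f : E n → ℝ} (hf : ContDiffOn ℝ 1 f {x | b < ‖x‖}) :
    ContinuousOn (dN f) {x | b < ‖x‖} := by
  unfold dN
  refine continuousOn_finsetSum _ fun k _ => ?_
  refine ContinuousOn.mul ?_ ?_
  · intro x hx
    have hx0 : x ≠ 0 := by
      rintro rfl
      simp only [mem_ofPred_eq, norm_zero] at hx
      linarith
    exact (contDiffAt_nx (m := 0) k hx0).continuousAt.continuousWithinAt
  · have h1 : ContinuousOn (fun x => fderiv ℝ f x (EuclideanSpace.single k (1 : ℝ)))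
        {x | b < ‖x‖} :=
      (hf.continuousOn_fderiv_of_isOpen (isOpen_outside b) le_rfl).clm_apply continuousOn_const
    refine h1.congr fun x hx => ?_
    exact pd_eq_pd ((hf.contDiffAt ((isOpen_outside b).mem_nhds hx)).differentiableAt (by simp)) k

namespace Lapse

variable {G g : Field n} {R : ℝ} (h : Lapse G g R)
include h

lemma contDiffAt_v {x : E n} (hx : R ≤ len x) : ContDiffAt ℝ ∞ (fun y => 1 / rad g y) x :=
  contDiffAt_const.div (contDiffAt_rad h.gs (h.ne_zero hx)) (h.ppos x hx).ne'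

lemma contDiffAt_bf {K : Field n} (hK : ∀ i j, Smooth (fun x => K x i j)) {x : E n}
    (hx : R ≤ len x) (l : Fin n) : ContDiffAt ℝ ∞ (bf g K l) x := by
  have hp := h.ppos x hx
  have hv : 1 / rad g x ≠ 0 := by positivity
  exact ((h.contDiffAt_v hx).sqrt hv).mul (contDiffAt_row hK l (h.ne_zero hx))

lemma tangential (Z : Fin n → E n → ℝ) {x : E n} (hx : R ≤ len x) :
    ∑ i, (∑ l, Sm G i l x * Z l x) * nx i x = 0 := by
  have : ∀ i, (∑ l, Sm G i l x * Z l x) * nx i x = ∑ l, Z l x * (nx i x * Sm G i l x) := by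
    intro i
    rw [Finset.sum_mul]
    exact Finset.sum_congr rfl fun l _ => by ring
  simp only [this]
  rw [Finset.sum_comm]
  simp only [← Finset.mul_sum, h.nx_Sm hx, mul_zero, Finset.sum_const_zero]

lemma contDiffOn_SZ {Z : Fin n → E n → ℝ} (hZ : ∀ l x, R < len x → ContDiffAt ℝ ∞ (Z l) x)
    (k : Fin n) : ContDiffOn ℝ 1 (fun y => ∑ l, Sm G k l y * Z l y) {x | R < ‖x‖} := by
  intro x hx
  have : ContDiffAt ℝ ∞ (fun y => ∑ l, Sm G k l y * Z l y) x :=
    ContDiffAt.sum fun l _ => (h.contDiffAt_Sm hx k l).mul (hZ l x hx)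
  exact (this.of_le (by simp)).contDiffWithinAt

lemma sphI_DS [Nontrivial (E n)] {Z : Fin n → E n → ℝ}
    (hZ : ∀ l x, R < len x → ContDiffAt ℝ ∞ (Z l) x) {r : ℝ} (hr : R < r) :
    sphI (DS G Z) r = 0 :=
  sphI_div_tangential (W := fun k y => ∑ l, Sm G k l y * Z l y) h.hR.le
    (fun k => h.contDiffOn_SZ hZ k) (fun _ hx => h.tangential Z (le_of_lt hx)) hr

lemma contOn_DS {Z : Fin n → E n → ℝ} (hZ : ∀ l x, R < len x → ContDiffAt ℝ ∞ (Z l) x) :
    ContinuousOn (DS G Z) {x | R < ‖x‖} :=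
  contOn_div (W := fun k y => ∑ l, Sm G k l y * Z l y) (fun k => h.contDiffOn_SZ hZ k)

lemma contDiffOn_v : ContDiffOn ℝ 1 (fun y => 1 / rad g y) {x | R < ‖x‖} := fun x hx =>
  ((h.contDiffAt_v (x := x) (le_of_lt hx)).of_le (by simp)).contDiffWithinAt

end Lapse

/-- the sphere average of `1 / p` -/
def Vav (g : Field n) (r : ℝ) : ℝ := av (fun y => 1 / rad g y) r

/-- its derivative -/
def Vav' (g : Field n) (r : ℝ) : ℝ := av (dN fun y => 1 / rad g y) r

section

variable {G g K : Field n} {B : Bg n} {kap : ℝ → ℝ}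

lemma Vav_hasDerivAt {R : ℝ} (h : Lapse G g R) {r : ℝ} (hr : R < r) :
    HasDerivAt (Vav g) (Vav' g r) r :=
  (sphI_hasDerivAt' h.hR.le h.contDiffOn_v hr).div_const _

/-- **Block C**: the averaged inequality. -/
theorem avg_ineq [Nontrivial (E n)] (hA : StA n) (hB : StB n) (h : Lapse G g B.R)
    (hF : B.Fits G) (hK : ∀ i j, Smooth (fun x => K x i j))
    (hKs : ∀ x, B.R ≤ len x → ∀ i j, K x i j = K x j i)
    (hk : ∀ x, B.R ≤ len x → √(rad g x) * trT G K x = kap (len x)) {r : ℝ} (hr : B.R < r)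
    (hkd : DifferentiableAt ℝ kap r) (hdec : ∀ x, B.R < len x → covNorm g (mom g K) x ≤ mu g K x)
    (hlt : |kap r| < B.H r) :
    Vav' g r * (B.H r ^ 2 - kap r ^ 2) +
      Vav g r * (2 * B.H r * deriv B.H r - 2 * kap r * deriv kap r) ≤
        B.H r * B.Rh r - B.H r * (Vav g r * (B.H r ^ 2 - kap r ^ 2)) -
          Vav g r * (B.H r ^ 2 - kap r ^ 2) / B.H r * B.II2 r := by
  have hω : 0 < Vale.Agent.P366.omega n := Vale.Agent.P366.omega_pos'
  have h0 : 0 < r := B.hR.trans hr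
  have hZ1 : ∀ l x, B.R < len x → ContDiffAt ℝ ∞ (glf g l) x := fun l x hx =>
    h.contDiffAt_glf hx.le l
  have hZ2 : ∀ l x, B.R < len x → ContDiffAt ℝ ∞ (bf g K l) x := fun l x hx =>
    h.contDiffAt_bf hK hx.le l
  set w := B.H r ^ 2 - kap r ^ 2 with hw
  set c1 := (2 * B.H r * deriv B.H r - 2 * kap r * deriv kap r) + B.H r * w +
    w / B.H r * B.II2 r with hc1
  -- the integrand
  have hpt : ∀ x : E n, ‖x‖ = r → 0 ≤ B.H r * B.Rh r - w * dN (fun y => 1 / rad g y) x -
      c1 * (1 / rad g x) - 2 * B.H r * DS G (glf g) x - 2 * kap r * DS G (bf g K) x := by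
    intro x hx
    have hx' : len x = r := hx
    have hxR : B.R < len x := by rw [hx']; exact hr
    have hp := pointwise hA hB h hF hK hKs hk hxR (by rw [hx']; exact hkd) (hdec x hxR)
      (by rw [hx']; exact hlt)
    rw [hx'] at hp
    refine hp.trans (le_of_eq ?_)
    rw [hc1, hw]
    ring
  have hnn : 0 ≤ sphI (fun x => B.H r * B.Rh r -
      w * dN (fun y => 1 / rad g y) x - c1 * (1 / rad g x) -
      2 * B.H r * DS G (glf g) x - 2 * kap r * DS G (bf g K) x) r :=
    integral_nonneg fun θ => hpt _ (norm_smul_sph h0.le θ)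
  rw [sphI_comb h.hR.le hr (contOn_dN h.hR.le h.contDiffOn_v) h.contDiffOn_v.continuousOn
    (h.contOn_DS hZ1) (h.contOn_DS hZ2), h.sphI_DS hZ1 hr, h.sphI_DS hZ2 hr] at hnn
  have e1 : sphI (dN fun y => 1 / rad g y) r = Vale.Agent.P366.omega n * Vav' g r := by
    unfold Vav' av
    field_simp
  have e2 : sphI (fun y => 1 / rad g y) r = Vale.Agent.P366.omega n * Vav g r := by
    unfold Vav av
    field_simp
  rw [e1, e2] at hnn
  have h2 : 0 ≤ Vale.Agent.P366.omega n *
      (B.H r * B.Rh r - w * Vav' g r - c1 * Vav g r) := by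
    refine hnn.trans (le_of_eq ?_)
    ring
  have h3 : 0 ≤ B.H r * B.Rh r - w * Vav' g r - c1 * Vav g r :=
    nonneg_of_mul_nonneg_right h2 hω
  rw [hc1] at h3
  have e3 : Vav g r * w / B.H r * B.II2 r = Vav g r * (w / B.H r * B.II2 r) := by ring
  rw [e3]
  linarith

end

end Vale.Agent.T4
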