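import Vale.Agent.P366.T4.Basic
import Vale.Agent.P366.T2.MomX68

/-! T4, block B4: trace, norm and radial momentum density for an arbitrary lapse. -/

open MeasureTheory Metric Filter Topology Set
open scoped ContDiff ENNReal Matrix

noncomputable section
namespace Vale.Agent.T4
open Vale.Agent.P366.Stmt Vale.Agent.P366.T2 Vale.Agent.Mom68

variable {n : ℕ}

/-! ### contractions -/

lemma quad_left (a : Fin n → Fin n → ℝ) (u w : Fin n → ℝ) (A B : Fin n → Fin n → ℝ) :
    ∑ i, ∑ j, ∑ k, ∑ l, a i k * (u j * w l) * A i j * B k l =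
      ∑ i, ∑ k, a i k * (∑ j, A i j * u j) * (∑ l, B k l * w l) := by
  refine Finset.sum_congr rfl fun i _ => ?_
  rw [Finset.sum_comm]
  refine Finset.sum_congr rfl fun k _ => ?_
  rw [mul_assoc, Finset.sum_mul_sum, Finset.mul_sum]
  refine Finset.sum_congr rfl fun j _ => ?_
  rw [Finset.mul_sum]
  exact Finset.sum_congr rfl fun l _ => by ring

lemma quad_right (u w : Fin n → ℝ) (b : Fin n → Fin n → ℝ) (A B : Fin n → Fin n → ℝ) :
    ∑ i, ∑ j, ∑ k, ∑ l, (u i * w k) * b j l * A i j * B k l =
      ∑ j, ∑ l, b j l * (∑ i, u i * A i j) * (∑ k, w k * B k l) := by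
  rw [Finset.sum_comm]
  refine Finset.sum_congr rfl fun j _ => ?_
  have h1 : ∀ i, ∑ k, ∑ l, (u i * w k) * b j l * A i j * B k l =
      ∑ l, ∑ k, (u i * w k) * b j l * A i j * B k l := fun i => Finset.sum_comm
  simp only [h1]
  rw [Finset.sum_comm]
  refine Finset.sum_congr rfl fun l _ => ?_
  rw [mul_assoc, Finset.sum_mul_sum, Finset.mul_sum]
  refine Finset.sum_congr rfl fun i _ => ?_
  rw [Finset.mul_sum]
  exact Finset.sum_congr rfl fun k _ => by ring

/-- contraction of two tensors with an inverse metric of the form `S + v N N` -/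
lemma quad_split (S : Fin n → Fin n → ℝ) (N : Fin n → ℝ) (v : ℝ) (A B : Fin n → Fin n → ℝ) :
    ∑ i, ∑ j, ∑ k, ∑ l, (S i k + v * (N i * N k)) * (S j l + v * (N j * N l)) * A i j * B k l =
      ∑ i, ∑ j, ∑ k, ∑ l, S i k * S j l * A i j * B k l +
      v * (∑ i, ∑ k, S i k * (∑ j, A i j * N j) * (∑ l, B k l * N l)) +
      v * (∑ j, ∑ l, S j l * (∑ i, N i * A i j) * (∑ k, N k * B k l)) +
      v ^ 2 * ((∑ i, ∑ j, A i j * N i * N j) * (∑ k, ∑ l, B k l * N k * N l)) := by
  have h4 : (∑ i, ∑ j, A i j * N i * N j) * (∑ k, ∑ l, B k l * N k * N l) =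
      ∑ i, ∑ j, ∑ k, ∑ l, (N i * N k) * (N j * N l) * A i j * B k l := by
    rw [Finset.sum_mul]
    refine Finset.sum_congr rfl fun i _ => ?_
    rw [Finset.sum_mul]
    refine Finset.sum_congr rfl fun j _ => ?_
    rw [Finset.mul_sum]
    refine Finset.sum_congr rfl fun k _ => ?_
    rw [Finset.mul_sum]
    exact Finset.sum_congr rfl fun l _ => by ring
  rw [← quad_left, ← quad_right, h4]
  simp only [Finset.mul_sum, ← Finset.sum_add_distrib]
  refine Finset.sum_congr rfl fun i _ => Finset.sum_congr rfl fun j _ =>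
    Finset.sum_congr rfl fun k _ => Finset.sum_congr rfl fun l _ => ?_
  ring


lemma rad_eq (A : Field n) (x : E n) : rad A x = ∑ i, nx i x * row A i x := by
  unfold rad row
  refine Finset.sum_congr rfl fun i _ => ?_
  rw [Finset.mul_sum]
  exact Finset.sum_congr rfl fun j _ => by ring

section

variable {G g K : Field n} {R : ℝ} (h : Lapse G g R) {x : E n}
include h

theorem tr_lapse (hx : R ≤ len x) : tr g K x = trT G K x + rad K x / rad g x := by
  unfold tr trT rad
  rw [Finset.sum_div, ← Finset.sum_add_distrib]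
  refine Finset.sum_congr rfl fun i _ => ?_
  rw [Finset.sum_div, ← Finset.sum_add_distrib]
  refine Finset.sum_congr rfl fun j _ => ?_
  rw [h.up_g hx]
  unfold rad
  ring

/-- the contraction of two tensors by the metric `g` -/
lemma con_lapse (A B : Field n) (hx : R ≤ len x) (hA : ∀ i j, A x i j = A x j i)
    (hB : ∀ i j, B x i j = B x j i) :
    ∑ i, ∑ j, ∑ k, ∑ l, up g i k x * up g j l x * A x i j * B x k l =
      ctr G A B x + 2 / rad g x * S2 G (row A) (row B) x + rad A x * rad B x / rad g x ^ 2 := by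
  have h1 := quad_split (fun i j => Sm G i j x) (fun i => nx i x) (1 / rad g x)
    (fun i j => A x i j) (fun i j => B x i j)
  have h2 : ∀ i j k l, up g i k x * up g j l x * A x i j * B x k l =
      (Sm G i k x + 1 / rad g x * (nx i x * nx k x)) *
        (Sm G j l x + 1 / rad g x * (nx j x * nx l x)) * A x i j * B x k l := by
    intro i j k l
    rw [h.up_g hx, h.up_g hx]
    ring
  simp only [h2]
  rw [h1]
  have h3 : ∑ j, ∑ l, Sm G j l x * (∑ i, nx i x * A x i j) * (∑ k, nx k x * B x k l) =
      S2 G (row A) (row B) x := by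
    unfold S2 row
    refine Finset.sum_congr rfl fun j _ => Finset.sum_congr rfl fun l _ => ?_
    congr 1
    · congr 1
      exact Finset.sum_congr rfl fun i _ => by rw [hA i j]; ring
    · exact Finset.sum_congr rfl fun i _ => by rw [hB i l]; ring
  have h4 : ∑ i, ∑ k, Sm G i k x * (∑ j, A x i j * nx j x) * (∑ l, B x k l * nx l x) =
      S2 G (row A) (row B) x := rfl
  rw [h3, h4]
  unfold ctr rad
  ring

theorem normSq_lapse (hKs : ∀ i j, K x i j = K x j i) (hx : R ≤ len x) :
    normSq g K x = (rad K x / rad g x) ^ 2 + 2 / rad g x * S2 G (row K) (row K) x +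
      ctr G K K x := by
  unfold normSq
  rw [con_lapse h K K hx hKs hKs]
  ring

/-- **Cauchy–Schwarz** -/
theorem rad_le_covNorm (w : Fin n → E n → ℝ) (hx : R ≤ len x) :
    |∑ j, nx j x * w j x| ≤ √(rad g x) * covNorm g w x := by
  have hp := h.ppos x hx
  unfold covNorm
  rw [← Real.sqrt_mul hp.le]
  refine Real.abs_le_sqrt ?_
  have h1 : ∑ i, ∑ j, up g i j x * w i x * w j x =
      ∑ i, ∑ j, Sm G i j x * w i x * w j x + (∑ j, nx j x * w j x) ^ 2 / rad g x := by
    rw [sq, Finset.sum_mul_sum, Finset.sum_div, ← Finset.sum_add_distrib]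
    refine Finset.sum_congr rfl fun i _ => ?_
    rw [Finset.sum_div, ← Finset.sum_add_distrib]
    refine Finset.sum_congr rfl fun j _ => ?_
    rw [h.up_g hx]
    ring
  have h2 : 0 ≤ ∑ i, ∑ j, Sm G i j x * w i x * w j x := by
    have h3 := (h.Sm_posSemidef hx).dotProduct_mulVec_nonneg (fun i => w i x)
    simp only [star_trivial, dotProduct, Matrix.mulVec, Matrix.of_apply] at h3
    refine h3.trans_eq (Finset.sum_congr rfl fun i _ => ?_)
    rw [Finset.mul_sum]
    exact Finset.sum_congr rfl fun j _ => by ring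
  rw [h1, mul_add]
  have h3 : rad g x * ((∑ j, nx j x * w j x) ^ 2 / rad g x) = (∑ j, nx j x * w j x) ^ 2 := by
    field_simp
  rw [h3]
  have := mul_nonneg hp.le h2
  linarith

/-! ### first derivatives -/

lemma ev_le (hx : R < len x) : ∀ᶠ y in 𝓝 x, R ≤ len y := by
  filter_upwards [(isOpen_out R).mem_nhds hx] with y hy
  exact le_of_lt hy

/-- `(∂ₖ G) N = (1 - G)ₖ / r` -/
lemma pdG_nx (hx : R < len x) (k i : Fin n) :
    ∑ j, pd k (fun y => G y i j) x * nx j x = ((if i = k then 1 else 0) - G x i k) / len x := by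
  have hx0 := h.ne_zero hx.le
  have hG : ∀ j, HP k (fun y => G y i j) (pd k (fun y => G y i j) x) x := fun j =>
    HP.of_diff ((h.Gs i j).differentiable (by norm_num) x)
  have h1 : HP k (fun y => ∑ j, G y i j * nx j y) _ x :=
    HP.sum _ fun j _ => (hG j).mul (HP_nx hx0 k j)
  have h2 : (nx i : E n → ℝ) =ᶠ[𝓝 x] fun y => ∑ j, G y i j * nx j y := by
    filter_upwards [ev_le h hx] with y hy
    exact (h.G_nx hy i).symm
  have h3 := (h1.congr h2).pd
  rw [(HP_nx hx0 k i).pd] at h3
  have h4 : ∑ j, (pd k (fun y => G y i j) x * nx j x +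
      G x i j * (((if j = k then 1 else 0) - nx j x * nx k x) / len x)) =
      ∑ j, pd k (fun y => G y i j) x * nx j x + (G x i k - nx i x * nx k x) / len x := by
    rw [Finset.sum_add_distrib]
    congr 1
    have h5 : ∀ j, G x i j * (((if j = k then 1 else 0) - nx j x * nx k x) / len x) =
        ((if j = k then G x i j else 0) - nx k x * (G x i j * nx j x)) / len x := by
      intro j
      split_ifs <;> ring
    simp only [h5, ← Finset.sum_div, Finset.sum_sub_distrib, ← Finset.mul_sum, h.G_nx hx.le,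
      Finset.sum_ite_eq', Finset.mem_univ, if_true]
    ring
  rw [h4] at h3
  have h6 := eq_sub_of_add_eq h3.symm
  rw [h6]
  ring

lemma pd_symm (hx : R < len x) (k i j : Fin n) :
    pd k (fun y => G y i j) x = pd k (fun y => G y j i) x := by
  have hG : HP k (fun y => G y j i) (pd k (fun y => G y j i) x) x :=
    HP.of_diff ((h.Gs j i).differentiable (by norm_num) x)
  have h2 : (fun y => G y i j) =ᶠ[𝓝 x] fun y => G y j i := by
    filter_upwards [ev_le h hx] with y hy
    exact h.symm y hy i j
  exact (hG.congr h2).pd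

lemma rad_HP (hx : R < len x) (k : Fin n) : HP k (rad g) (pd k (rad g) x) x :=
  HP.of_diff ((contDiffAt_rad h.gs (h.ne_zero hx.le)).differentiableAt (by simp))

lemma pd_g (hx : R < len x) (k i j : Fin n) :
    pd k (fun y => g y i j) x = pd k (fun y => G y i j) x +
      pd k (rad g) x * (nx i x * nx j x) + (rad g x - 1) *
        (((if i = k then 1 else 0) - nx i x * nx k x) / len x * nx j x +
          nx i x * (((if j = k then 1 else 0) - nx j x * nx k x) / len x)) := by
  have hx0 := h.ne_zero hx.le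
  have hG : HP k (fun y => G y i j) (pd k (fun y => G y i j) x) x :=
    HP.of_diff ((h.Gs i j).differentiable (by norm_num) x)
  have h1 := hG.add (((rad_HP h hx k).sub (HP.const k 1 x)).mul
    ((HP_nx hx0 k i).mul (HP_nx hx0 k j)))
  have h2 : (fun y => g y i j) =ᶠ[𝓝 x]
      fun y => G y i j + (rad g y - 1) * (nx i y * nx j y) := by
    filter_upwards [ev_le h hx] with y hy
    rw [h.eq y hy i j]
    ring
  rw [(h1.congr h2).pd]
  ring

lemma glf_eq (hx : R < len x) (k : Fin n) : glf g k x = pd k (rad g) x / (2 * rad g x) := by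
  have hp := h.ppos x hx.le
  have h1 : HP k (lf g) (pd k (rad g) x / rad g x / 2) x := by
    have h2 : HasDerivAt Real.log (rad g x)⁻¹ (rad g x) := Real.hasDerivAt_log hp.ne'
    have h3 : DifferentiableAt ℝ (rad g) x :=
      (contDiffAt_rad h.gs (h.ne_zero hx.le)).differentiableAt (by simp)
    have h4 : HasFDerivAt (fun y => Real.log (rad g y)) ((rad g x)⁻¹ • fderiv ℝ (rad g) x) x :=
      h2.comp_hasFDerivAt x h3.hasFDerivAt
    have h5 := h4.hasLineDerivAt (EuclideanSpace.single k (1 : ℝ))
    have h6 : pd k (rad g) x = fderiv ℝ (rad g) x (EuclideanSpace.single k 1) :=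
      h3.lineDeriv_eq_fderiv
    have h7 : HP k (fun y => Real.log (rad g y)) (pd k (rad g) x / rad g x) x := by
      rw [h6]
      have e : ((rad g x)⁻¹ • fderiv ℝ (rad g) x) (EuclideanSpace.single k 1) =
          fderiv ℝ (rad g) x (EuclideanSpace.single k 1) / rad g x := by
        simp only [smul_apply, smul_eq_mul]
        ring
      rw [e] at h5
      exact h5
    have h8 := h7.const_mul (1 / 2)
    have h9 : (lf g : E n → ℝ) = fun y => 1 / 2 * Real.log (rad g y) := by
      funext y; unfold lf; ring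
    rw [h9]
    have e : pd k (rad g) x / rad g x / 2 = 1 / 2 * (pd k (rad g) x / rad g x) := by ring
    rw [e]
    exact h8
  unfold glf
  rw [h1.pd]
  field_simp

lemma nx_D (hx0 : x ≠ 0) (k : Fin n) :
    ∑ i, nx i x * (((if i = k then 1 else 0) - nx i x * nx k x) / len x) = 0 := by
  have h1 : ∀ i, nx i x * (((if i = k then 1 else 0) - nx i x * nx k x) / len x) =
      ((if i = k then nx i x else 0) - nx k x * (nx i x * nx i x)) / len x := by
    intro i
    split_ifs <;> ring
  simp only [h1, ← Finset.sum_div, Finset.sum_sub_distrib, ← Finset.mul_sum, sum_nx_mul hx0,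
    Finset.sum_ite_eq', Finset.mem_univ, if_true]
  ring

/-- `N (∂ₖ G) N = 0` -/
lemma nx_pdG_nx (hx : R < len x) (k : Fin n) :
    ∑ i, ∑ j, nx i x * nx j x * pd k (fun y => G y i j) x = 0 := by
  have h1 : ∀ i, ∑ j, nx i x * nx j x * pd k (fun y => G y i j) x =
      nx i x * (((if i = k then 1 else 0) - G x i k) / len x) := by
    intro i
    rw [← pdG_nx h hx, Finset.mul_sum]
    exact Finset.sum_congr rfl fun j _ => by ring
  simp only [h1]
  have h2 : ∀ i, nx i x * (((if i = k then 1 else 0) - G x i k) / len x) =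
      ((if i = k then nx i x else 0) - nx i x * G x i k) / len x := by
    intro i
    split_ifs <;> ring
  simp only [h2, ← Finset.sum_div, Finset.sum_sub_distrib, h.nx_G hx.le,
    Finset.sum_ite_eq', Finset.mem_univ, if_true]
  ring

/-- the covector `L` of `G` in terms of the tangential inverse metric -/
lemma Lg_Sm (hx : R < len x) (k : Fin n) :
    Lg G k x = (1 / 2) * ∑ i, ∑ j, Sm G i j x * pd k (fun y => G y i j) x := by
  unfold Lg
  have h1 : ∀ i j, up G i j x * pd k (fun y => G y i j) x =
      Sm G i j x * pd k (fun y => G y i j) x + nx i x * nx j x * pd k (fun y => G y i j) x := by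
    intro i j
    unfold Sm
    ring
  simp only [h1, Finset.sum_add_distrib, nx_pdG_nx h hx, add_zero]

/-- the covector `L` of `g` -/
theorem Lg_lapse (hx : R < len x) (k : Fin n) : Lg g k x = Lg G k x + glf g k x := by
  have hx0 := h.ne_zero hx.le
  have hp := (h.ppos x hx.le).ne'
  rw [Lg_Sm h hx, glf_eq h hx]
  unfold Lg
  set D : Fin n → ℝ := fun i => ((if i = k then 1 else 0) - nx i x * nx k x) / len x with hD
  have h1 : ∀ i j, up g i j x * pd k (fun y => g y i j) x =
      Sm G i j x * pd k (fun y => G y i j) x +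
      1 / rad g x * (nx i x * nx j x * pd k (fun y => G y i j) x) +
      pd k (rad g) x * nx i x * (Sm G i j x * nx j x) +
      (rad g x - 1) * D i * (Sm G i j x * nx j x) +
      (rad g x - 1) * D j * (nx i x * Sm G i j x) +
      pd k (rad g) x / rad g x * (nx i x * nx i x) * (nx j x * nx j x) +
      (rad g x - 1) / rad g x * (nx i x * D i) * (nx j x * nx j x) +
      (rad g x - 1) / rad g x * (nx i x * nx i x) * (nx j x * D j) := by
    intro i j
    rw [h.up_g hx.le, pd_g h hx]
    simp only [hD]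
    ring
  have s1 : ∑ i, ∑ j, pd k (rad g) x * nx i x * (Sm G i j x * nx j x) = 0 := by
    simp only [← Finset.mul_sum, h.Sm_nx hx.le, mul_zero, Finset.sum_const_zero]
  have s2 : ∑ i, ∑ j, (rad g x - 1) * D i * (Sm G i j x * nx j x) = 0 := by
    simp only [← Finset.mul_sum, h.Sm_nx hx.le, mul_zero, Finset.sum_const_zero]
  have s3 : ∑ i, ∑ j, (rad g x - 1) * D j * (nx i x * Sm G i j x) = 0 := by
    rw [Finset.sum_comm]
    simp only [← Finset.mul_sum, h.nx_Sm hx.le, mul_zero, Finset.sum_const_zero]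
  have s4 : ∑ i, ∑ j, pd k (rad g) x / rad g x * (nx i x * nx i x) * (nx j x * nx j x) =
      pd k (rad g) x / rad g x := by
    simp only [← Finset.mul_sum, sum_nx_mul hx0, mul_one]
  have s5 : ∑ i, ∑ j, (rad g x - 1) / rad g x * (nx i x * D i) * (nx j x * nx j x) = 0 := by
    simp only [← Finset.mul_sum, sum_nx_mul hx0, mul_one, hD, nx_D h hx0, mul_zero]
  have s6 : ∑ i, ∑ j, (rad g x - 1) / rad g x * (nx i x * nx i x) * (nx j x * D j) = 0 := by
    simp only [← Finset.mul_sum, hD, nx_D h hx0, mul_zero, Finset.sum_const_zero]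
  have s0 : ∑ i, ∑ j, 1 / rad g x * (nx i x * nx j x * pd k (fun y => G y i j) x) = 0 := by
    simp only [← Finset.mul_sum, nx_pdG_nx h hx, mul_zero]
  simp only [h1, Finset.sum_add_distrib, s0, s1, s2, s3, s4, s5, s6]
  field_simp
  ring

end

end Vale.Agent.T4
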