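import Vale.Agent.P366.T4.B4m

/-! T4, block B4: the radial momentum density for an arbitrary lapse. -/

open MeasureTheory Metric Filter Topology Set
open scoped ContDiff ENNReal Matrix

noncomputable section
namespace Vale.Agent.T4
open Vale.Agent.P366.Stmt Vale.Agent.P366.T2 Vale.Agent.Mom68

variable {n : ℕ} {G g K : Field n} {R : ℝ} (h : Lapse G g R) {x : E n}
include h

lemma momT_nx (hx : R ≤ len x) (i : Fin n) :
    ∑ j, momT g K x i j * nx j x = row K i x - tr g K x * rad g x * nx i x := by
  have h1 : ∀ j, momT g K x i j * nx j x = K x i j * nx j x - tr g K x * (g x i j * nx j x) :=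
    fun j => by unfold momT; ring
  simp only [h1, Finset.sum_sub_distrib, ← Finset.mul_sum, h.g_nx hx]
  unfold row
  ring

lemma WX_lapse (hx : R ≤ len x) (k : Fin n) :
    WX g K nx k x = ∑ l, Sm G k l x * row K l x - trT G K x * nx k x := by
  have hx0 := h.ne_zero hx
  have hp := (h.ppos x hx).ne'
  unfold WX
  simp only [momT_nx h hx]
  have h1 : ∀ i, up g k i x * (row K i x - tr g K x * rad g x * nx i x) =
      Sm G k i x * row K i x + nx k x / rad g x * (nx i x * row K i x) -
      tr g K x * rad g x * (Sm G k i x * nx i x) - tr g K x * nx k x * (nx i x * nx i x) := by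
    intro i
    rw [h.up_g hx]
    field_simp
    ring
  simp only [h1, Finset.sum_add_distrib, Finset.sum_sub_distrib, ← Finset.mul_sum, h.Sm_nx hx,
    sum_nx_mul hx0, ← rad_eq]
  rw [tr_lapse h hx]
  ring

lemma div_lapse (hK : ∀ i j, Smooth (fun x => K x i j)) (hx : R < len x) :
    ∑ k, pd k (WX g K nx k) x = DS G (row K) x - dN (trT G K) x -
      trT G K x * (((n : ℝ) - 1) / len x) := by
  have hx0 := h.ne_zero hx.le
  have h1 : ∀ k, pd k (WX g K nx k) x = pd k (fun y => ∑ l, Sm G k l y * row K l y) x -
      (nx k x * pd k (trT G K) x + trT G K x * ((1 - nx k x * nx k x) / len x)) := by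
    intro k
    have hA : DifferentiableAt ℝ (fun y => ∑ l, Sm G k l y * row K l y) x :=
      DifferentiableAt.fun_sum fun l _ =>
        ((h.contDiffAt_Sm hx k l).differentiableAt (by simp)).mul
          ((contDiffAt_row hK l hx0).differentiableAt (by simp))
    have hT : DifferentiableAt ℝ (trT G K) x :=
      (h.contDiffAt_trT hK hx).differentiableAt (by simp)
    have h2 := (HP.of_diff (k := k) hA).sub ((HP.of_diff (k := k) hT).mul (HP_nx hx0 k k))
    have h3 : (WX g K nx k) =ᶠ[𝓝 x]
        fun y => ∑ l, Sm G k l y * row K l y - trT G K y * nx k y := by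
      filter_upwards [ev_le h hx] with y hy
      exact WX_lapse h hy k
    rw [(h2.congr h3).pd, if_pos rfl]
    ring
  simp only [h1, Finset.sum_sub_distrib, Finset.sum_add_distrib, ← Finset.mul_sum,
    ← Finset.sum_div, sum_nx_mul hx0]
  unfold DS dN
  simp
  ring

lemma L_lapse (hx : R < len x) :
    ∑ k, Lg g k x * WX g K nx k x = S2 G (Lg G) (row K) x + S2 G (glf g) (row K) x -
      trT G K x * (H1 G x - ((n : ℝ) - 1) / len x) -
      trT G K x * (dN (rad g) x / (2 * rad g x)) := by
  have hp := (h.ppos x hx.le).ne'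
  have h1 : ∀ k, Lg g k x * WX g K nx k x =
      ∑ l, Sm G k l x * Lg G k x * row K l x + ∑ l, Sm G k l x * glf g k x * row K l x -
      trT G K x * (nx k x * Lg G k x) -
      trT G K x * (1 / (2 * rad g x) * (nx k x * pd k (rad g) x)) := by
    intro k
    have e1 : ∑ l, Sm G k l x * Lg G k x * row K l x = Lg G k x * ∑ l, Sm G k l x * row K l x := by
      rw [Finset.mul_sum]; exact Finset.sum_congr rfl fun l _ => by ring
    have e2 : ∑ l, Sm G k l x * glf g k x * row K l x =
        glf g k x * ∑ l, Sm G k l x * row K l x := by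
      rw [Finset.mul_sum]; exact Finset.sum_congr rfl fun l _ => by ring
    rw [Lg_lapse h hx, WX_lapse h hx.le, e1, e2, glf_eq h hx]
    ring
  simp only [h1, Finset.sum_add_distrib, Finset.sum_sub_distrib, ← Finset.mul_sum]
  unfold S2 H1 dN
  ring

/-- the contraction of `π` with the Lie derivative -/
lemma P_lapse (hKs : ∀ i j, K x i j = K x j i) (hx : R < len x) :
    ∑ k, ∑ m, Pu g K k m x * Lie g nx k m x = 2 * ctr G K (IIf G) x - 2 * tr g K x * H1 G x +
      dN (rad g) x * (rad K x - tr g K x * rad g x) / rad g x ^ 2 := by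
  have hx0 := h.ne_zero hx.le
  have hp := (h.ppos x hx.le).ne'
  set τ := tr g K x with hτ
  set d := dN (rad g) x with hd
  -- the two fields
  set A : Field n := fun y i j => K y i j - τ * g y i j with hA
  set B : Field n := fun y i j => 2 * IIf G y i j + d * (nx i y * nx j y) with hB
  have hAx : ∀ i j, momT g K x i j = A x i j := fun i j => rfl
  have hus : ∀ i j, up g i j x = up g j i x := by
    intro i j
    rw [h.up_g hx.le, h.up_g hx.le, h.Sm_symm hx.le]
    ring
  have h1 : ∑ k, ∑ m, Pu g K k m x * Lie g nx k m x =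
      ∑ i, ∑ j, ∑ k, ∑ l, up g i k x * up g j l x * A x i j * B x k l := by
    have e1 : ∀ k m, Pu g K k m x * Lie g nx k m x =
        ∑ i, ∑ j, up g i k x * up g j m x * A x i j * B x k m := by
      intro k m
      unfold Pu
      rw [Finset.sum_mul]
      refine Finset.sum_congr rfl fun i _ => ?_
      rw [Finset.mul_sum, Finset.sum_mul]
      refine Finset.sum_congr rfl fun j _ => ?_
      rw [Lie_lapse h hx, hus k i, hAx]
      ring
    simp only [e1]
    calc ∑ k, ∑ m, ∑ i, ∑ j, up g i k x * up g j m x * A x i j * B x k m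
        = ∑ k, ∑ i, ∑ m, ∑ j, up g i k x * up g j m x * A x i j * B x k m :=
          Finset.sum_congr rfl fun k _ => Finset.sum_comm
      _ = ∑ k, ∑ i, ∑ j, ∑ m, up g i k x * up g j m x * A x i j * B x k m :=
          Finset.sum_congr rfl fun k _ => Finset.sum_congr rfl fun i _ => Finset.sum_comm
      _ = ∑ i, ∑ k, ∑ j, ∑ m, up g i k x * up g j m x * A x i j * B x k m := Finset.sum_comm
      _ = _ := Finset.sum_congr rfl fun i _ => Finset.sum_comm
  rw [h1, con_lapse h A B hx.le (fun i j => by
      simp only [hA]; rw [hKs i j, h.g_symm hx.le i j])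
    (fun i j => by simp only [hB]; rw [IIf_symm h hx i j]; ring)]
  have hrowB : ∀ i, row B i x = d * nx i x := by
    intro i
    have e : row B i x = 2 * row (IIf G) i x + d * nx i x * ∑ j, nx j x * nx j x := by
      unfold row
      rw [Finset.mul_sum, Finset.mul_sum, ← Finset.sum_add_distrib]
      exact Finset.sum_congr rfl fun j _ => by simp only [hB]; ring
    rw [e, row_IIf h hx, sum_nx_mul hx0]
    ring
  have hS2 : S2 G (row A) (row B) x = 0 := by
    unfold S2
    have e : ∀ k, ∑ l, Sm G k l x * row A k x * row B l x =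
        row A k x * d * ∑ l, Sm G k l x * nx l x := by
      intro k
      rw [Finset.mul_sum]
      exact Finset.sum_congr rfl fun l _ => by rw [hrowB]; ring
    simp only [e, h.Sm_nx hx.le, mul_zero, Finset.sum_const_zero]
  have hradB : rad B x = d := by
    rw [rad_eq]
    have e : ∀ i, nx i x * row B i x = d * (nx i x * nx i x) := fun i => by rw [hrowB]; ring
    simp only [e, ← Finset.mul_sum, sum_nx_mul hx0, mul_one]
  have hradA : rad A x = rad K x - τ * rad g x := by
    unfold rad
    rw [Finset.mul_sum, ← Finset.sum_sub_distrib]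
    refine Finset.sum_congr rfl fun i _ => ?_
    rw [Finset.mul_sum, ← Finset.sum_sub_distrib]
    exact Finset.sum_congr rfl fun j _ => by simp only [hA]; ring
  have hctr : ctr G A B x = 2 * ctr G K (IIf G) x - 2 * τ * H1 G x := by
    have e1 : ctr G A B x = 2 * ctr G K (IIf G) x - 2 * τ * ctr G g (IIf G) x +
        d * ∑ i, ∑ j, ∑ k, ∑ l, Sm G i k x * Sm G j l x * A x i j * (nx k x * nx l x) := by
      unfold ctr
      simp only [Finset.mul_sum, ← Finset.sum_add_distrib, ← Finset.sum_sub_distrib]
      refine Finset.sum_congr rfl fun i _ => Finset.sum_congr rfl fun j _ =>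
        Finset.sum_congr rfl fun k _ => Finset.sum_congr rfl fun l _ => ?_
      simp only [hA, hB]
      ring
    have e2 : ∑ i, ∑ j, ∑ k, ∑ l, Sm G i k x * Sm G j l x * A x i j * (nx k x * nx l x) = 0 := by
      refine Finset.sum_eq_zero fun i _ => Finset.sum_eq_zero fun j _ =>
        Finset.sum_eq_zero fun k _ => ?_
      have e3 : ∀ l, Sm G i k x * Sm G j l x * A x i j * (nx k x * nx l x) =
          Sm G i k x * A x i j * nx k x * (Sm G j l x * nx l x) := fun l => by ring
      simp only [e3, ← Finset.mul_sum, h.Sm_nx hx.le, mul_zero]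
    rw [e1, e2, ctr_g h _ hx.le, trT_IIf h hx]
    ring
  rw [hctr, hS2, hradA, hradB]
  ring

/-- **Block B4.** -/
theorem mom_lapse (hK : ∀ i j, Smooth (fun x => K x i j))
    (hKs : ∀ y, R ≤ len y → ∀ i j, K y i j = K y j i) (hx : R < len x) :
    ∑ j, nx j x * mom g K j x = DS G (row K) x + S2 G (Lg G) (row K) x +
      S2 G (glf g) (row K) x - dN (trT G K) x + rad K x / rad g x * H1 G x -
      ctr G K (IIf G) x := by
  have hx0 := h.ne_zero hx.le
  have hp := (h.ppos x hx.le).ne'
  have h2 := mom_X (isOpen_out R) h.gs hK (fun y hy => h.g_symm (le_of_lt hy))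
    (fun y hy => hKs y (le_of_lt hy)) (fun y hy => h.g_det_ne (le_of_lt hy)) (X := nx) (x := x) hx
    (fun j => (contDiffAt_nx (m := 1) j hx0).differentiableAt (by simp))
  rw [h2, div_lapse h hK hx, L_lapse h hx, P_lapse h (hKs x hx.le) hx, tr_lapse h hx.le]
  field_simp
  ring

end Vale.Agent.T4
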