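import Vale.Agent.P366.T4.B4

/-! T4, block B4: the radial momentum density for an arbitrary lapse. -/

open MeasureTheory Metric Filter Topology Set
open scoped ContDiff ENNReal Matrix

noncomputable section
namespace Vale.Agent.T4
open Vale.Agent.P366.Stmt Vale.Agent.P366.T2 Vale.Agent.Mom68

variable {n : ℕ} {G g K : Field n} {R : ℝ} (h : Lapse G g R) {x : E n}
include h

lemma IIf_symm (hx : R < len x) (i j : Fin n) : IIf G x i j = IIf G x j i := by
  unfold IIf dN
  simp only [pd_symm h hx _ i j, h.symm x hx.le i j]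
  ring

/-- `II(N, ·) = 0` -/
lemma row_IIf (hx : R < len x) (i : Fin n) : row (IIf G) i x = 0 := by
  have hx0 := h.ne_zero hx.le
  unfold row IIf dN
  have h1 : ∀ j, ((∑ k, nx k x * pd k (fun y => G y i j) x) / 2 +
      (G x i j - nx i x * nx j x) / len x) * nx j x =
      (1 / 2) * (∑ k, nx k x * (pd k (fun y => G y i j) x * nx j x)) +
      (G x i j * nx j x - nx i x * (nx j x * nx j x)) / len x := by
    intro j
    have e : ∑ k, nx k x * (pd k (fun y => G y i j) x * nx j x) =
        (∑ k, nx k x * pd k (fun y => G y i j) x) * nx j x := by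
      rw [Finset.sum_mul]
      exact Finset.sum_congr rfl fun k _ => by ring
    rw [e]
    ring
  simp only [h1, Finset.sum_add_distrib, ← Finset.mul_sum, ← Finset.sum_div,
    Finset.sum_sub_distrib, h.G_nx hx.le, sum_nx_mul hx0]
  rw [Finset.sum_comm]
  simp only [← Finset.mul_sum, pdG_nx h hx]
  have h2 : ∀ k, nx k x * (((if i = k then 1 else 0) - G x i k) / len x) =
      ((if i = k then nx k x else 0) - G x i k * nx k x) / len x := by
    intro k
    split_ifs <;> ring
  simp only [h2, ← Finset.sum_div, Finset.sum_sub_distrib, h.G_nx hx.le, Finset.sum_ite_eq,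
    Finset.mem_univ, if_true]
  ring

lemma rad_IIf (hx : R < len x) : rad (IIf G) x = 0 := by
  rw [rad_eq]
  simp only [row_IIf h hx, mul_zero, Finset.sum_const_zero]

/-- the mean curvature is the trace of the second fundamental form -/
theorem trT_IIf (hx : R < len x) : trT G (IIf G) x = H1 G x := by
  have hx0 := h.ne_zero hx.le
  unfold trT H1 IIf dN
  have h1 : ∀ i j, Sm G i j x * ((∑ k, nx k x * pd k (fun y => G y i j) x) / 2 +
      (G x i j - nx i x * nx j x) / len x) =
      ∑ k, nx k x * ((1 / 2) * (Sm G i j x * pd k (fun y => G y i j) x)) +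
      1 / len x * (Sm G i j x * G x j i) - 1 / len x * nx i x * (Sm G i j x * nx j x) := by
    intro i j
    have e : ∑ k, nx k x * ((1 / 2) * (Sm G i j x * pd k (fun y => G y i j) x)) =
        (1 / 2) * Sm G i j x * ∑ k, nx k x * pd k (fun y => G y i j) x := by
      rw [Finset.mul_sum]
      exact Finset.sum_congr rfl fun k _ => by ring
    rw [e, h.symm x hx.le j i]
    ring
  simp only [h1, Finset.sum_add_distrib, Finset.sum_sub_distrib, ← Finset.mul_sum,
    h.Sm_nx hx.le, mul_zero, Finset.sum_const_zero, sub_zero]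
  have h2 : ∀ i, ∑ j, Sm G i j x * G x j i = 1 - nx i x * nx i x := by
    intro i
    have e : ∀ j, Sm G i j x * G x j i = up G i j x * G x j i - nx i x * (nx j x * G x j i) :=
      fun j => by unfold Sm; ring
    simp only [e, Finset.sum_sub_distrib, h.up_G hx.le, ← Finset.mul_sum, h.nx_G hx.le, if_true]
  simp only [h2, Finset.sum_sub_distrib, sum_nx_mul hx0]
  have h3 : ∑ i, ∑ j, ∑ k, nx k x * ((1 / 2) * (Sm G i j x * pd k (fun y => G y i j) x)) =
      ∑ k, nx k x * Lg G k x := by
    simp only [Lg_Sm h hx, Finset.mul_sum]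
    rw [Finset.sum_comm' (s := Finset.univ) (t := fun _ => Finset.univ)
      (t' := Finset.univ) (s' := fun _ => Finset.univ) (by simp)]
    have e1 : ∀ j : Fin n, ∑ i, ∑ k, nx k x * ((1 / 2) * (Sm G i j x *
        pd k (fun y => G y i j) x)) = ∑ k, ∑ i, nx k x * ((1 / 2) * (Sm G i j x *
        pd k (fun y => G y i j) x)) := fun j => Finset.sum_comm
    simp only [e1]
    rw [Finset.sum_comm]
    exact Finset.sum_congr rfl fun k _ => Finset.sum_comm
  rw [h3]
  simp
  ring

/-- the Lie derivative of `g` along `N` -/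
lemma Lie_lapse (hx : R < len x) (k m : Fin n) :
    Lie g nx k m x = 2 * IIf G x k m + dN (rad g) x * (nx k x * nx m x) := by
  have hx0 := h.ne_zero hx.le
  unfold Lie
  simp only [Finset.sum_add_distrib]
  have h1 : ∑ j, nx j x * pd j (fun y => g y k m) x = dN (fun y => G y k m) x +
      dN (rad g) x * (nx k x * nx m x) := by
    have e : ∀ j, nx j x * pd j (fun y => g y k m) x = nx j x * pd j (fun y => G y k m) x +
        nx j x * pd j (rad g) x * (nx k x * nx m x) + (rad g x - 1) *
          (((if k = j then nx j x else 0) - nx k x * (nx j x * nx j x)) / len x * nx m x +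
            nx k x * (((if m = j then nx j x else 0) - nx m x * (nx j x * nx j x)) / len x)) := by
      intro j
      rw [pd_g h hx]
      split_ifs <;> ring
    simp only [e, Finset.sum_add_distrib, ← Finset.mul_sum, ← Finset.sum_mul, ← Finset.sum_div,
      Finset.sum_sub_distrib, sum_nx_mul hx0, Finset.sum_ite_eq, Finset.mem_univ, if_true]
    unfold dN
    ring
  have h2 : ∀ a b, ∑ j, g x a j * pd b (nx j) x = (G x a b - nx a x * nx b x) / len x := by
    intro a b
    have e : ∀ j, g x a j * pd b (nx j) x = ((if j = b then g x a j else 0) -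
        nx b x * (g x a j * nx j x)) / len x := by
      intro j
      rw [(HP_nx hx0 b j).pd]
      split_ifs <;> ring
    simp only [e, ← Finset.sum_div, Finset.sum_sub_distrib, ← Finset.mul_sum, h.g_nx hx.le,
      Finset.sum_ite_eq', Finset.mem_univ, if_true]
    rw [h.eq x hx.le]
    ring
  have h3 : ∑ j, g x j m * pd k (nx j) x = ∑ j, g x m j * pd k (nx j) x :=
    Finset.sum_congr rfl fun j _ => by rw [h.g_symm hx.le j m]
  rw [h1, h3, h2, h2, h.symm x hx.le m k]
  unfold IIf
  ring

/-- `ctr(g, B) = tr B` -/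
lemma ctr_g (B : Field n) (hx : R ≤ len x) : ctr G g B x = trT G B x := by
  unfold ctr trT
  have h1 : ∀ i j, ∑ k, ∑ l, Sm G i k x * Sm G j l x * g x i j * B x k l =
      ∑ k, ∑ l, Sm G i k x * (g x i j * Sm G j l x) * B x k l := fun i j =>
    Finset.sum_congr rfl fun k _ => Finset.sum_congr rfl fun l _ => by ring
  simp only [h1]
  have h2 : ∀ i l, ∑ j, g x i j * Sm G j l x = (if i = l then 1 else 0) - nx i x * nx l x := by
    intro i l
    have e : ∀ j, g x i j * Sm G j l x = G x i j * up G j l x - nx l x * (G x i j * nx j x) +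
        (rad g x - 1) * nx i x * (nx j x * Sm G j l x) := by
      intro j
      rw [h.eq x hx]
      unfold Sm
      ring
    simp only [e, Finset.sum_add_distrib, Finset.sum_sub_distrib, ← Finset.mul_sum, h.G_up hx,
      h.G_nx hx, h.nx_Sm hx]
    ring
  have h3 : ∀ i, ∑ j, ∑ k, ∑ l, Sm G i k x * (g x i j * Sm G j l x) * B x k l =
      ∑ k, ∑ l, Sm G i k x * ((if i = l then 1 else 0) - nx i x * nx l x) * B x k l := by
    intro i
    rw [Finset.sum_comm]
    refine Finset.sum_congr rfl fun k _ => ?_
    rw [Finset.sum_comm]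
    refine Finset.sum_congr rfl fun l _ => ?_
    rw [← h2, Finset.mul_sum, Finset.sum_mul]
  simp only [h3]
  have h4 : ∀ i, ∑ k, ∑ l, Sm G i k x * ((if i = l then 1 else 0) - nx i x * nx l x) * B x k l =
      ∑ k, Sm G i k x * B x k i - ∑ k, ∑ l, nx i x * Sm G i k x * (nx l x * B x k l) := by
    intro i
    rw [← Finset.sum_sub_distrib]
    refine Finset.sum_congr rfl fun k _ => ?_
    have e : ∀ l, Sm G i k x * ((if i = l then 1 else 0) - nx i x * nx l x) * B x k l =
        (if i = l then Sm G i k x * B x k l else 0) -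
          nx i x * Sm G i k x * (nx l x * B x k l) := by
      intro l
      split_ifs <;> ring
    simp only [e, Finset.sum_sub_distrib, Finset.sum_ite_eq, Finset.mem_univ, if_true]
  simp only [h4, Finset.sum_sub_distrib]
  have h5 : ∑ i, ∑ k, ∑ l, nx i x * Sm G i k x * (nx l x * B x k l) = 0 := by
    rw [Finset.sum_comm]
    refine Finset.sum_eq_zero fun k _ => ?_
    rw [Finset.sum_comm]
    refine Finset.sum_eq_zero fun l _ => ?_
    rw [← Finset.sum_mul, h.nx_Sm hx, zero_mul]
  rw [h5, sub_zero, Finset.sum_comm]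
  exact Finset.sum_congr rfl fun k _ => Finset.sum_congr rfl fun i _ => by
    rw [h.Sm_symm hx i k]

end Vale.Agent.T4
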