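import Vale.Agent.P366.T4.Defs

/-! T4: basic lemmas on `Lapse`. -/

open MeasureTheory Metric Filter Topology Set
open scoped ContDiff ENNReal Matrix

noncomputable section
namespace Vale.Agent.T4
open Vale.Agent.P366.Stmt Vale.Agent.P366.T2

variable {n : ℕ}

lemma len_sq (x : E n) : len x ^ 2 = ∑ i, x i ^ 2 := by
  unfold len
  rw [EuclideanSpace.norm_sq_eq]
  simp

lemma ne_zero_of_len {R : ℝ} (hR : 0 < R) {x : E n} (hx : R ≤ len x) : x ≠ 0 := by
  rintro rfl
  simp only [len, norm_zero] at hx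
  linarith

lemma sum_nx_sq {x : E n} (hx : x ≠ 0) : ∑ i, nx i x ^ 2 = 1 := by
  have h := len_ne hx
  have : ∀ i, nx i x ^ 2 = x i ^ 2 / len x ^ 2 := fun i => by unfold nx; rw [div_pow]
  simp only [this]
  rw [← Finset.sum_div, ← len_sq, div_self (by positivity)]

lemma sum_nx_mul {x : E n} (hx : x ≠ 0) : ∑ i, nx i x * nx i x = 1 := by
  rw [← sum_nx_sq hx]
  exact Finset.sum_congr rfl fun i _ => by ring

lemma nx_mul_len {x : E n} (hx : x ≠ 0) (i : Fin n) : nx i x * len x = x i := by
  have := len_ne hx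
  unfold nx; field_simp

lemma isOpen_out (R : ℝ) : IsOpen {x : E n | R < len x} := isOpen_lt continuous_const continuous_norm

/-- derivative of the unit radial field -/
lemma HP_nx {x : E n} (hx : x ≠ 0) (k i : Fin n) :
    HP k (nx i) (((if i = k then 1 else 0) - nx i x * nx k x) / len x) x := by
  have hl := len_ne hx
  have h1 : HasDerivAt (fun t : ℝ => t⁻¹) (-(len x ^ 2)⁻¹) (len x) := hasDerivAt_inv hl
  have h2 := (HP.coord k i x).mul (HP.radial hx h1 k)
  have h3 : nx i = fun y : E n => y i * (len y)⁻¹ := by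
    funext y; unfold nx; rw [div_eq_mul_inv]
  have e : (if i = k then (1 : ℝ) else 0) * (len x)⁻¹ + x i * (-(len x ^ 2)⁻¹ / len x * x k) =
      ((if i = k then 1 else 0) - nx i x * nx k x) / len x := by
    unfold nx; field_simp; ring
  rw [← e, h3]
  exact h2

lemma contDiffAt_nx {m : WithTop ℕ∞} (i : Fin n) {x : E n} (hx : x ≠ 0) :
    ContDiffAt ℝ m (nx i) x := by
  have h1 : ContDiffAt ℝ m (fun x : E n => x i) x := by
    have : ContDiff ℝ m (fun x : E n => x i) := (EuclideanSpace.proj (𝕜 := ℝ) i).contDiff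
    exact this.contDiffAt
  exact h1.div (contDiffAt_norm ℝ hx) (norm_ne_zero_iff.mpr hx)

lemma contDiffAt_len {m : WithTop ℕ∞} {x : E n} (hx : x ≠ 0) :
    ContDiffAt ℝ m (len : E n → ℝ) x := contDiffAt_norm ℝ hx

lemma contDiffAt_rad {g : Field n} (hg : ∀ i j, Smooth (fun x => g x i j)) {x : E n} (hx : x ≠ 0) :
    ContDiffAt ℝ ∞ (rad g) x := by
  unfold rad
  exact ContDiffAt.sum fun i _ => ContDiffAt.sum fun j _ =>
    ((hg i j).contDiffAt.mul (contDiffAt_nx i hx)).mul (contDiffAt_nx j hx)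

lemma contDiffAt_row {g : Field n} (hg : ∀ i j, Smooth (fun x => g x i j)) (i : Fin n) {x : E n}
    (hx : x ≠ 0) : ContDiffAt ℝ ∞ (row g i) x := by
  unfold row
  exact ContDiffAt.sum fun j _ => (hg i j).contDiffAt.mul (contDiffAt_nx j hx)

lemma contDiffAt_lf {g : Field n} (hg : ∀ i j, Smooth (fun x => g x i j)) {x : E n} (hx : x ≠ 0)
    (hp : 0 < rad g x) : ContDiffAt ℝ ∞ (lf g) x := by
  unfold lf
  exact ((contDiffAt_rad hg hx).log hp.ne').div_const 2

namespace Lapse

variable {G g : Field n} {R : ℝ} (h : Lapse G g R)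
include h

lemma len_pos {x : E n} (hx : R ≤ len x) : 0 < len x := h.hR.trans_le hx

lemma ne_zero {x : E n} (hx : R ≤ len x) : x ≠ 0 := ne_zero_of_len h.hR hx

lemma G_nx {x : E n} (hx : R ≤ len x) (i : Fin n) : ∑ j, G x i j * nx j x = nx i x := by
  have h1 := h.unit x hx i
  have h2 : ∀ j, G x i j * nx j x = G x i j * x j / len x := fun j => by unfold nx; ring
  simp only [h2]
  rw [← Finset.sum_div, h1]; rfl

lemma nx_G {x : E n} (hx : R ≤ len x) (j : Fin n) : ∑ i, nx i x * G x i j = nx j x := by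
  rw [← h.G_nx hx j]
  exact Finset.sum_congr rfl fun i _ => by rw [h.symm x hx i j, mul_comm]

lemma det_ne {x : E n} (hx : R ≤ len x) : (mat G x).det ≠ 0 := (h.pos x hx).det_pos.ne'

lemma up_symm {x : E n} (hx : R ≤ len x) (i j : Fin n) : up G i j x = up G j i x := by
  unfold up
  have hs : (mat G x)ᵀ = mat G x := by
    ext a b; exact h.symm x hx b a
  have : ((mat G x)⁻¹)ᵀ = (mat G x)⁻¹ := by rw [Matrix.transpose_nonsing_inv, hs]
  exact congrFun (congrFun this j) i

lemma up_G {x : E n} (hx : R ≤ len x) (i k : Fin n) :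
    ∑ j, up G i j x * G x j k = if i = k then 1 else 0 := by
  have h1 : (mat G x)⁻¹ * mat G x = 1 :=
    Matrix.nonsing_inv_mul _ (isUnit_iff_ne_zero.2 (h.det_ne hx))
  have h2 := congrFun (congrFun h1 i) k
  rw [Matrix.mul_apply, Matrix.one_apply] at h2
  exact h2

lemma G_up {x : E n} (hx : R ≤ len x) (i k : Fin n) :
    ∑ j, G x i j * up G j k x = if i = k then 1 else 0 := by
  have h1 : mat G x * (mat G x)⁻¹ = 1 :=
    Matrix.mul_nonsing_inv _ (isUnit_iff_ne_zero.2 (h.det_ne hx))
  have h2 := congrFun (congrFun h1 i) k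
  rw [Matrix.mul_apply, Matrix.one_apply] at h2
  exact h2

lemma up_nx {x : E n} (hx : R ≤ len x) (i : Fin n) : ∑ j, up G i j x * nx j x = nx i x := by
  have h1 : ∑ j, up G i j x * nx j x = ∑ j, ∑ k, up G i j x * G x j k * nx k x := by
    refine Finset.sum_congr rfl fun j _ => ?_
    rw [← h.G_nx hx j, Finset.mul_sum]
    exact Finset.sum_congr rfl fun k _ => by ring
  rw [h1, Finset.sum_comm]
  simp only [← Finset.sum_mul, h.up_G hx]
  simp

lemma nx_up {x : E n} (hx : R ≤ len x) (j : Fin n) : ∑ i, nx i x * up G i j x = nx j x := by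
  rw [← h.up_nx hx j]
  exact Finset.sum_congr rfl fun i _ => by rw [h.up_symm hx i j, mul_comm]

lemma Sm_symm {x : E n} (hx : R ≤ len x) (i j : Fin n) : Sm G i j x = Sm G j i x := by
  unfold Sm; rw [h.up_symm hx i j]; ring

lemma Sm_nx {x : E n} (hx : R ≤ len x) (i : Fin n) : ∑ j, Sm G i j x * nx j x = 0 := by
  unfold Sm
  simp only [sub_mul, Finset.sum_sub_distrib, h.up_nx hx, mul_assoc, ← Finset.mul_sum,
    sum_nx_mul (h.ne_zero hx), mul_one, sub_self]

lemma nx_Sm {x : E n} (hx : R ≤ len x) (j : Fin n) : ∑ i, nx i x * Sm G i j x = 0 := by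
  rw [← h.Sm_nx hx j]
  exact Finset.sum_congr rfl fun i _ => by rw [h.Sm_symm hx i j, mul_comm]

lemma g_symm {x : E n} (hx : R ≤ len x) (i j : Fin n) : g x i j = g x j i := by
  rw [h.eq x hx i j, h.eq x hx j i, h.symm x hx i j]; ring

lemma g_nx {x : E n} (hx : R ≤ len x) (i : Fin n) : ∑ j, g x i j * nx j x = rad g x * nx i x := by
  have : ∀ j, g x i j * nx j x = G x i j * nx j x + (rad g x - 1) * nx i x * (nx j x * nx j x) :=
    fun j => by rw [h.eq x hx i j]; ring
  simp only [this, Finset.sum_add_distrib, h.G_nx hx, ← Finset.mul_sum, sum_nx_mul (h.ne_zero hx)]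
  ring

/-- the inverse of `g` -/
lemma up_g_mul {x : E n} (hx : R ≤ len x) :
    mat g x * (Matrix.of fun i j => Sm G i j x + nx i x * nx j x / rad g x) = 1 := by
  ext i k
  rw [Matrix.mul_apply, Matrix.one_apply]
  have hp := (h.ppos x hx).ne'
  have e : ∀ j, mat g x i j * (Matrix.of fun i j => Sm G i j x + nx i x * nx j x / rad g x) j k =
      G x i j * up G j k x + (1 / rad g x - 1) * nx k x * (G x i j * nx j x) +
        (rad g x - 1) * nx i x * (nx j x * Sm G j k x) +
          (rad g x - 1) * nx i x * (nx k x / rad g x) * (nx j x * nx j x) := by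
    intro j
    simp only [Matrix.of_apply, mat]
    rw [h.eq x hx i j]
    unfold Sm
    ring
  simp only [e, Finset.sum_add_distrib, ← Finset.mul_sum, h.G_up hx, h.G_nx hx, h.nx_Sm hx,
    sum_nx_mul (h.ne_zero hx)]
  split_ifs <;> · field_simp; ring

lemma up_g {x : E n} (hx : R ≤ len x) (i j : Fin n) :
    up g i j x = Sm G i j x + nx i x * nx j x / rad g x := by
  unfold up
  rw [Matrix.inv_eq_right_inv (h.up_g_mul hx)]; rfl

lemma g_det_ne {x : E n} (hx : R ≤ len x) : (mat g x).det ≠ 0 := by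
  have h1 := congrArg Matrix.det (h.up_g_mul hx)
  rw [Matrix.det_mul, Matrix.det_one] at h1
  exact left_ne_zero_of_mul_eq_one h1

lemma contDiffAt_up {x : E n} (hx : R < len x) (i j : Fin n) : ContDiffAt ℝ ∞ (up G i j) x :=
  (smoothMetric_mat (isOpen_out R) h.Gs (fun y hy => h.symm y (le_of_lt hy))
    (fun _ hy => h.det_ne (le_of_lt hy))).invAt hx i j

lemma contDiffAt_Sm {x : E n} (hx : R < len x) (i j : Fin n) : ContDiffAt ℝ ∞ (Sm G i j) x := by
  have hx0 := h.ne_zero hx.le
  exact (h.contDiffAt_up hx i j).sub ((contDiffAt_nx i hx0).mul (contDiffAt_nx j hx0))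

lemma contDiffAt_trT {K : Field n} (hK : ∀ i j, Smooth (fun x => K x i j)) {x : E n}
    (hx : R < len x) : ContDiffAt ℝ ∞ (trT G K) x := by
  unfold trT
  exact ContDiffAt.sum fun i _ => ContDiffAt.sum fun j _ =>
    (h.contDiffAt_Sm hx i j).mul (hK i j).contDiffAt

lemma contDiffAt_glf {x : E n} (hx : R ≤ len x) (l : Fin n) : ContDiffAt ℝ ∞ (glf g l) x := by
  have h1 := contDiffAt_lf h.gs (h.ne_zero hx) (h.ppos x hx)
  have h2 : ContDiffAt ℝ ∞ (fun y => fderiv ℝ (lf g) y (EuclideanSpace.single l 1)) x :=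
    (h1.fderiv_right (m := ∞) (by simp)).clm_apply contDiffAt_const
  refine h2.congr_of_eventuallyEq ?_
  have h3 : ∀ᶠ y in 𝓝 x, ContDiffAt ℝ 1 (lf g) y :=
    (h1.of_le (by simp)).eventually (by simp)
  filter_upwards [h3] with y hy
  show lineDeriv ℝ (lf g) y (EuclideanSpace.single l (1 : ℝ)) = _
  exact (hy.differentiableAt (by simp)).lineDeriv_eq_fderiv

/-- the tangential inverse metric is positive semidefinite -/
lemma Sm_posSemidef {x : E n} (hx : R ≤ len x) :
    (Matrix.of fun i j => Sm G i j x).PosSemidef := by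
  have hx0 := h.ne_zero hx
  have hP : (mat G x).PosSemidef := (h.pos x hx).posSemidef
  -- `S = Bᵀ G B` with `B = S`: `S G S = S`
  have key : (Matrix.of fun i j => Sm G i j x) =
      (Matrix.of fun i j => Sm G i j x)ᴴ * mat G x * (Matrix.of fun i j => Sm G i j x) := by
    ext i l
    rw [Matrix.mul_apply]
    have e1 : ∀ k, ((Matrix.of fun i j => Sm G i j x)ᴴ * mat G x) i k =
        (if i = k then 1 else 0) - nx i x * nx k x := by
      intro k
      rw [Matrix.mul_apply]
      have e2 : ∀ j, (Matrix.of fun i j => Sm G i j x)ᴴ i j * mat G x j k =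
          up G i j x * G x j k - nx i x * (nx j x * G x j k) := by
        intro j
        simp only [Matrix.conjTranspose_apply, Matrix.of_apply, star_trivial, mat]
        rw [h.Sm_symm hx j i]
        unfold Sm
        ring
      simp only [e2, Finset.sum_sub_distrib, ← Finset.mul_sum, h.up_G hx, h.nx_G hx]
    have e3 : ∀ k, ((Matrix.of fun i j => Sm G i j x)ᴴ * mat G x) i k *
        (Matrix.of fun i j => Sm G i j x) k l =
        (if i = k then 1 else 0) * Sm G k l x - nx i x * (nx k x * Sm G k l x) := by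
      intro k
      rw [e1 k, Matrix.of_apply]; ring
    simp only [e3, Finset.sum_sub_distrib, ← Finset.mul_sum, h.nx_Sm hx]
    simp
  rw [key]
  exact hP.conjTranspose_mul_mul_same _

end Lapse

end Vale.Agent.T4
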