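import Vale.Agent.P366.T4.BgQ
import Vale.Agent.P366.T2.S9.Final

/-! T4: the octonionic background. -/

open MeasureTheory Metric Filter Topology Set Asymptotics
open scoped ContDiff ENNReal Matrix

noncomputable section
namespace Vale.Agent.T4
open Vale.Agent.P366.Stmt
open Vale.Agent.P366.T2 (Lg HP)

variable {n : ℕ}

section Octonionic

open Vale.Agent.S9

variable {D : Vale.Agent.S9.Data n} {G K0 : Field n}

lemma lp_one (hp : ∀ r, D.R ≤ r → D.p r = 1) {r : ℝ} (hr : D.R ≤ r) : D.lp r = 1 := by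
  unfold Vale.Agent.S9.Data.lp; rw [hp r hr, Real.sqrt_one]

/-- the background of `Spin(9)`-invariant data with unit lapse -/
def bgO (hn : n = 16) (D : Vale.Agent.S9.Data n) (hp : ∀ r, D.R ≤ r → D.p r = 1) : Bg n where
  R := D.R
  H := D.H
  II2 := D.II2
  Rh := D.Rh
  ar := D.ar
  lam := D.lam
  L2 := D.L2
  IT := D.IT
  hR := D.hR
  ar_pos := fun r hr => D.ar_pos hr
  lam_pos := fun r hr => D.lam_pos hr
  H_diff := fun r hr => D.H_diff hr
  ar_deriv := fun r hr => (D.ar_deriv hr).congr_deriv (by rw [lp_one hp hr, one_mul])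
  lam_deriv := fun r hr => (D.lam_deriv hr).congr_deriv (by rw [lp_one hp hr, one_mul])
  hU := fun r hr y => D.hU_le hr y
  hL := fun r hr => by
    have h := D.hL_le r
    have : (n : ℝ) = 16 := by exact_mod_cast hn
    rw [this]
    linarith
  hJ := fun r hr => D.hJ_le hr

lemma deriv_p9 (hp : ∀ r, D.R ≤ r → D.p r = 1) {r : ℝ} (hr : D.R < r) : deriv D.p r = 0 := by
  have : D.p =ᶠ[𝓝 r] fun _ => 1 := by
    filter_upwards [lt_mem_nhds hr] with t ht
    exact hp t ht.le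
  rw [this.deriv_eq, deriv_const]

lemma Sm_tv (h : Vale.Agent.S9.Fits D G K0) (hp : ∀ r, D.R ≤ r → D.p r = 1) {x : E n}
    (hx : D.R ≤ len x) (i j : Fin n) :
    Sm G i j x = D.O.tv (D.al (len x))⁻¹ 0 (D.c (len x))⁻¹ x i j := by
  unfold Sm
  rw [Vale.Agent.S9.up_eq h hx, nx_mul, hp _ hx]
  unfold Oct.tv
  have := Vale.Agent.P366.T2.len_ne (ne_zero_of_len D.hR hx)
  field_simp
  ring

lemma IIf_tv (h : Vale.Agent.S9.Fits D G K0) (hp : ∀ r, D.R ≤ r → D.p r = 1) {x : E n}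
    (hx : D.R < len x) (i j : Fin n) : IIf G x i j = D.O.tv
      (deriv D.al (len x) / 2 + D.al (len x) / len x) 0
      (deriv D.c (len x) / 2 + D.c (len x) / len x) x i j := by
  have h1 : dN (fun y => G y i j) x = D.O.tv (deriv D.al (len x)) (deriv D.p (len x))
      (deriv D.c (len x)) x i j := Vale.Agent.S9.Dr_g h hx.le i j
  unfold IIf
  rw [h1, Vale.Agent.S9.g_tv h hx.le, nx_mul, hp _ hx.le, deriv_p9 hp hx]
  unfold Oct.tv
  have := Vale.Agent.P366.T2.len_ne (ne_zero_of_len D.hR hx.le)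
  field_simp
  ring

/-- the octonionic background is realized -/
theorem bgO_fits (hn : n = 16) (h : Vale.Agent.S9.Fits D G K0)
    (hp : ∀ r, D.R ≤ r → D.p r = 1) : (bgO hn D hp).Fits G where
  hdet := by
    intro x hx
    have hx' : D.R ≤ len x := hx
    have hr : 0 < len x := D.hR.trans_le hx'
    have hal := D.al_pos _ hx'
    have hc := D.c_pos _ hx'
    show len x ^ (n - 1) * √(mat G x).det = D.ar (len x)
    rw [Vale.Agent.S9.det_g h hx', hp _ hx', mul_one, Vale.Agent.S9.ar_eq D hx']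
    have e1 : √(D.c (len x) ^ 7 * D.al (len x) ^ 8) = D.al (len x) ^ 4 * √(D.c (len x) ^ 7) := by
      rw [Real.sqrt_mul (by positivity), mul_comm]
      congr 1
      rw [show D.al (len x) ^ 8 = (D.al (len x) ^ 4) ^ 2 by ring]
      exact Real.sqrt_sq (by positivity)
    rw [e1]
    have : n - 1 = 15 := by omega
    rw [this]
  hL := by
    intro x hx i
    have hx' : D.R < len x := hx
    have hr : 0 < len x := D.hR.trans hx'
    have hal := (D.al_pos _ hx'.le).ne'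
    have hc := (D.c_pos _ hx'.le).ne'
    have hn' : (n : ℝ) = 16 := by exact_mod_cast hn
    show Lg G i x = (D.H (len x) - ((n : ℝ) - 1) / len x) * nx i x
    rw [Vale.Agent.S9.Lg_eq h hx' i, D.H_eq hx'.le, hp _ hx'.le, Real.sqrt_one, div_one, hn']
    unfold Vale.Agent.S9.Data.ell Vale.Agent.S9.Data.hh
    rw [hp _ hx'.le, deriv_p9 hp hx']
    have e : Vale.Agent.S9.Nn x i = nx i x := rfl
    rw [e]
    field_simp
    ring
  hII := by
    intro x hx
    have hx' : D.R < len x := hx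
    have hx0 := ne_zero_of_len D.hR hx'.le
    have hr := D.hR.trans hx'
    have hal := (D.al_pos _ hx'.le).ne'
    have hc := (D.c_pos _ hx'.le).ne'
    show ctr G (IIf G) (IIf G) x = D.II2 (len x)
    have hS : ∀ i j, Sm G i j x = Sm G j i x := by
      intro i j
      rw [Sm_tv h hp hx'.le, Sm_tv h hp hx'.le j i, D.O.tv_symm]
    have hI : ∀ i j, IIf G x i j = IIf G x j i := by
      intro i j
      rw [IIf_tv h hp hx', IIf_tv h hp hx' j i, D.O.tv_symm]
    have hM : ∀ i k, ∑ j, Sm G i j x * IIf G x j k =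
        D.O.tv (D.yb (len x)) 0 (D.yf (len x)) x i k := by
      intro i k
      simp only [Sm_tv h hp hx'.le, IIf_tv h hp hx', D.O.tv_mul hx0, zero_mul]
      congr 1
      · rw [D.yb_eq hx'.le]; field_simp; ring
      · rw [D.yf_eq hx'.le]; field_simp; ring
    rw [ctr_eq hS hI]
    have e : ∀ k, ∑ j, (∑ i, Sm G k i x * IIf G x i j) * (∑ l, Sm G j l x * IIf G x l k) =
        D.O.tv (D.yb (len x) * D.yb (len x)) (0 * 0) (D.yf (len x) * D.yf (len x)) x k k := by
      intro k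
      rw [← D.O.tv_mul hx0]
      exact Finset.sum_congr rfl fun j _ => by rw [hM, hM]
    simp only [e, D.O.trace_tv hx0]
    unfold Vale.Agent.S9.Data.II2
    rw [hp _ hx'.le]
    ring
  hRh := by
    intro x hx
    have hx' : D.R < len x := hx
    show scal G x + D.II2 (len x) + D.H (len x) ^ 2 + 2 * deriv D.H (len x) = D.Rh (len x)
    rw [Vale.Agent.S9.scal_eq h hx']
    unfold Vale.Agent.S9.Data.Rg
    rw [lp_one hp hx'.le]
    ring

open Vale.Agent.P366.T2.E68 in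
theorem lamrho_abs9 {q : ℝ} (hq0 : 0 < q) {a c κ ℓ : ℝ → ℝ} (ha : O1 q fun r => a r - 1)
    (hc : O1 q fun r => c r - 1)
    (hℓ : ∀ᶠ r in atTop, ℓ r = 11 / 2 * (c r) ^ (-(1 / 2) : ℝ) +
      2 * ((c r) ^ ((1 / 2) : ℝ) * (1 / a r)))
    (hκ : ∀ᶠ r in atTop, κ r = ((a r) ^ (4 : ℝ) * (c r) ^ ((7 / 2) : ℝ)) ^ ((1 / 15) : ℝ)) :
    O2 q fun r => 2 * ℓ r * κ r / 15 - 1 := by
  have ha2 : Tendsto a atTop (𝓝 1) := by
    have := (ha.tendsto hq0).add_const 1
    simpa using this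
  have hc2 : Tendsto c atTop (𝓝 1) := by
    have := (hc.tendsto hq0).add_const 1
    simpa using this
  have hia : Tendsto (fun r => 1 / a r) atTop (𝓝 1) := by
    have := ha2.inv₀ one_ne_zero
    simpa using this
  have hia0 : O0 fun r => 1 / a r := O0.of_tendsto hia
  have ha0 : ∀ᶠ r in atTop, a r ≠ 0 := ha2.eventually_ne one_ne_zero
  have hpc : ∀ s : ℝ, O2 q fun r => (c r) ^ s - 1 - s * (c r - 1) := fun s =>
    ((rpow_taylor s).comp_tendsto hc2).trans (hc.mul hc)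
  have hpa : ∀ s : ℝ, O2 q fun r => (a r) ^ s - 1 - s * (a r - 1) := fun s =>
    ((rpow_taylor s).comp_tendsto ha2).trans (ha.mul ha)
  have hA1 : O2 q fun r => 1 / a r - 1 + (a r - 1) := by
    have h1 := hia0.mul2 (ha.mul ha)
    refine h1.congr' ?_
    filter_upwards [ha0] with r hr
    field_simp
    ring
  have hL : O2 q fun r => ℓ r - (15 / 2 - 7 / 4 * (c r - 1) - 2 * (a r - 1)) := by
    have e1 : O2 q fun r => 11 / 2 * ((c r) ^ (-(1 / 2) : ℝ) - 1 - (-(1 / 2)) * (c r - 1)) :=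
      (hpc _).cmul _
    have e2 : O2 q fun r => 2 * ((1 / a r) * ((c r) ^ ((1 / 2) : ℝ) - 1 - (1 / 2) * (c r - 1))) :=
      (hia0.mul2 (hpc _)).cmul _
    have e3 : O2 q fun r => 2 * ((1 + 1 / 2 * (c r - 1)) * (1 / a r - 1 + (a r - 1))) :=
      (((O0.const 1).add ((hc.o0 hq0).cmul _)).mul2 hA1).cmul _
    have e4 : O2 q fun r => (-1) * ((c r - 1) * (a r - 1)) := (hc.mul ha).cmul _
    refine (((e1.add e2).add e3).add e4).congr' ?_
    filter_upwards [hℓ] with r hr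
    rw [hr]
    ring
  have hX : O2 q fun r => (a r) ^ (4 : ℝ) * (c r) ^ ((7 / 2) : ℝ) - 1 -
      (4 * (a r - 1) + 7 / 2 * (c r - 1)) := by
    have e0 : O0 fun r => (c r) ^ ((7 / 2) : ℝ) := by
      refine O0.of_tendsto (c := 1) ?_
      have := hc2.rpow_const (p := 7 / 2) (Or.inl one_ne_zero)
      simpa using this
    have e1 := e0.mul2 (hpa 4)
    have e2 : O2 q fun r => (1 + 4 * (a r - 1)) * ((c r) ^ ((7 / 2) : ℝ) - 1 - 7 / 2 * (c r - 1)) :=
      ((O0.const 1).add ((ha.o0 hq0).cmul _)).mul2 (hpc _)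
    have e3 : O2 q fun r => 14 * ((a r - 1) * (c r - 1)) := (ha.mul hc).cmul _
    refine ((e1.add e2).add e3).congr' (Eventually.of_forall fun r => ?_)
    ring
  have hX1 : O1 q fun r => (a r) ^ (4 : ℝ) * (c r) ^ ((7 / 2) : ℝ) - 1 := by
    have := ((hX.o1 hq0).add (ha.cmul 4)).add (hc.cmul (7 / 2))
    refine this.congr' (Eventually.of_forall fun r => ?_)
    ring
  have hXt : Tendsto (fun r => (a r) ^ (4 : ℝ) * (c r) ^ ((7 / 2) : ℝ)) atTop (𝓝 1) := by
    have := (hX1.tendsto hq0).add_const 1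
    simpa using this
  have hκ2 : O2 q fun r => κ r - 1 - 1 / 15 * (4 * (a r - 1) + 7 / 2 * (c r - 1)) := by
    have e1 : O2 q fun r => ((a r) ^ (4 : ℝ) * (c r) ^ ((7 / 2) : ℝ)) ^ ((1 / 15) : ℝ) - 1 -
        1 / 15 * ((a r) ^ (4 : ℝ) * (c r) ^ ((7 / 2) : ℝ) - 1) :=
      ((rpow_taylor (1 / 15)).comp_tendsto hXt).trans (hX1.mul hX1)
    refine (e1.add (hX.cmul (1 / 15))).congr' ?_
    filter_upwards [hκ] with r hr
    rw [hr]
    ring
  have hκ0 : O0 κ := by
    have h1 : O1 q fun r => κ r - 1 := by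
      have := ((hκ2.o1 hq0).add (ha.cmul (4 / 15))).add (hc.cmul (7 / 30))
      refine this.congr' (Eventually.of_forall fun r => ?_)
      ring
    refine O0.of_tendsto (c := 1) ?_
    have := (h1.tendsto hq0).add_const 1
    simpa using this
  have e1 : O2 q fun r => (2 / 15) * (κ r * (ℓ r - (15 / 2 - 7 / 4 * (c r - 1) - 2 * (a r - 1)))) :=
    (hκ0.mul2 hL).cmul _
  have e2 : O0 fun r => 1 + (-(1 / 30)) * (7 * (c r - 1) + 8 * (a r - 1)) := by
    refine (O0.const 1).add (O0.cmul _ ?_)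
    exact ((hc.o0 hq0).cmul 7).add ((ha.o0 hq0).cmul 8)
  have e3 := e2.mul2 hκ2
  have e4 : O2 q fun r => (-(1 / 900)) *
      ((7 * (c r - 1) + 8 * (a r - 1)) * (7 * (c r - 1) + 8 * (a r - 1))) :=
    (((hc.cmul 7).add (ha.cmul 8)).mul ((hc.cmul 7).add (ha.cmul 8))).cmul _
  refine ((e1.add e3).add e4).congr' (Eventually.of_forall fun r => ?_)
  ring

/-- decay in the sense of explicit bounds implies `O1` -/
lemma O1_of_bound {q C R' : ℝ} {f : ℝ → ℝ} (h : ∀ r, R' < r → |f r| ≤ C * r ^ (-q)) :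
    Vale.Agent.P366.T2.E68.O1 q f := by
  refine IsBigO.of_bound C ?_
  filter_upwards [eventually_gt_atTop R', eventually_gt_atTop 0] with r hr h0
  rw [Real.norm_eq_abs, Real.norm_eq_abs, abs_of_nonneg (Real.rpow_nonneg h0.le _)]
  exact h r hr

theorem bgO_lam (hn : n = 16) (h : Vale.Agent.S9.Fits D G K0)
    (hp : ∀ r, D.R ≤ r → D.p r = 1) : (bgO hn D hp).LamOK G := by
  intro q hq0 hAF
  have hn' : (n : ℝ) = 16 := by exact_mod_cast hn
  obtain ⟨C, R', hR', hC, hd⟩ := Vale.Agent.S9.coef_decay D.O (by omega) (T := fun x i j => G x i j -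
    if i = j then 1 else 0) (f := fun r => D.al r - 1) (u := fun r => D.p r - 1)
    (s := fun r => D.c r - 1) (q := q) D.hR (by
      intro x hx i j
      rw [Vale.Agent.S9.g_tv h hx, ← D.O.tv_one (x := x) i j]
      unfold Oct.tv
      ring) hAF.1
  have hmain := lamrho_abs9 hq0 (a := D.al) (c := D.c)
    (ℓ := fun r => 11 / 2 * (D.c r) ^ (-(1 / 2) : ℝ) +
      2 * ((D.c r) ^ ((1 / 2) : ℝ) * (1 / D.al r)))
    (κ := fun r => ((D.al r) ^ (4 : ℝ) * (D.c r) ^ ((7 / 2) : ℝ)) ^ ((1 / 15) : ℝ))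
    (O1_of_bound fun r hr => (hd r hr).1) (O1_of_bound fun r hr => (hd r hr).2.2)
    (Eventually.of_forall fun r => rfl) (Eventually.of_forall fun r => rfl)
  refine hmain.congr' ?_
  filter_upwards [eventually_ge_atTop D.R] with r hR
  have hr0 : 0 < r := D.hR.trans_le hR
  have hal := D.al_pos r hR
  have hc := D.c_pos r hR
  have e15 : (n : ℝ) - 1 = 15 := by rw [hn']; norm_num
  have hrho : (bgO hn D hp).rho r = D.rho r := by
    unfold Bg.rho Vale.Agent.S9.Data.rho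
    rw [e15]; rfl
  show _ = 2 * D.lam r * (bgO hn D hp).rho r / ((n : ℝ) - 1) - 1
  rw [hrho]
  have hs : √(r ^ 2 * D.c r) = r * (D.c r) ^ ((1 / 2) : ℝ) := by
    rw [Real.sqrt_mul (by positivity), Real.sqrt_sq hr0.le, Real.sqrt_eq_rpow]
  have h1 : D.lam r = (11 / 2 * (D.c r) ^ (-(1 / 2) : ℝ) +
      2 * ((D.c r) ^ ((1 / 2) : ℝ) * (1 / D.al r))) / r := by
    unfold Vale.Agent.S9.Data.lam Vale.Agent.S9.Data.Yf Vale.Agent.S9.Data.Yb
    rw [hs, Real.rpow_neg hc.le]
    have : 0 < (D.c r) ^ ((1 / 2) : ℝ) := Real.rpow_pos_of_pos hc _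
    field_simp
  have h2 : D.rho r = r * ((D.al r) ^ (4 : ℝ) * (D.c r) ^ ((7 / 2) : ℝ)) ^ ((1 / 15) : ℝ) := by
    unfold Vale.Agent.S9.Data.rho
    rw [Vale.Agent.S9.ar_eq D hR]
    have e1 : √(D.c r ^ 7) = (D.c r) ^ ((7 / 2) : ℝ) := by
      rw [Real.sqrt_eq_rpow, ← Real.rpow_natCast, ← Real.rpow_mul hc.le]
      norm_num
    have e2 : D.al r ^ 4 = (D.al r) ^ (4 : ℝ) := by
      rw [← Real.rpow_natCast]; norm_num
    rw [e1, e2, Real.mul_rpow (by positivity) (by positivity)]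
    congr 1
    rw [← Real.rpow_natCast r 15, ← Real.rpow_mul hr0.le]
    norm_num
  rw [h1, h2, e15]
  field_simp

end Octonionic

end Vale.Agent.T4
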