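import Vale.Agent.P366.T4.Slice
import Vale.Agent.P366.T2.Calc

/-! T4: slices are covariant under changes of coordinates. -/

open MeasureTheory Metric Filter Topology Set
open scoped ContDiff Matrix

noncomputable section
namespace Vale.Agent.T4.C919
open Vale.Agent.T4 Vale.Agent.P366.Stmt Vale.Agent.P366.T2

variable {n : ℕ}

/-- the chain rule -/
lemma HP_comp {f : E n → ℝ} {χ : E n → E n} {x : E n} (hf : DifferentiableAt ℝ f (χ x))
    (hχ : ∀ k, DifferentiableAt ℝ (fun y => χ y k) x) (i : Fin n) :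
    HP i (fun y => f (χ y)) (∑ k, pd k f (χ x) * pd i (fun y => χ y k) x) x := by
  have h1 : DifferentiableAt ℝ χ x := by
    rw [differentiableAt_piLp]
    exact hχ
  have h2 := (hf.hasFDerivAt.comp x h1.hasFDerivAt).hasLineDerivAt
    (EuclideanSpace.single i (1 : ℝ))
  have e : (fderiv ℝ f (χ x) ∘L fderiv ℝ χ x) (EuclideanSpace.single i (1 : ℝ)) =
      ∑ k, pd k f (χ x) * pd i (fun y => χ y k) x := by
    have h3 : ∀ k, pd i (fun y => χ y k) x = (fderiv ℝ χ x (EuclideanSpace.single i 1)) k := by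
      intro k
      have h4 : HasFDerivAt (fun y => χ y k)
          ((EuclideanSpace.proj (𝕜 := ℝ) k : E n →L[ℝ] ℝ) ∘L fderiv ℝ χ x) x :=
        (EuclideanSpace.proj (𝕜 := ℝ) k : E n →L[ℝ] ℝ).hasFDerivAt.comp x h1.hasFDerivAt
      exact (h4.hasLineDerivAt (EuclideanSpace.single i (1 : ℝ))).lineDeriv
    have h5 : ∀ k, pd k f (χ x) = fderiv ℝ f (χ x) (EuclideanSpace.single k 1) := fun k =>
      (hf.hasFDerivAt.hasLineDerivAt (EuclideanSpace.single k (1 : ℝ))).lineDeriv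
    have h6 : fderiv ℝ χ x (EuclideanSpace.single i 1) =
        ∑ k, pd i (fun y => χ y k) x • (EuclideanSpace.single k (1 : ℝ) : E n) := by
      ext j
      simp [h3, Pi.single_apply]
    simp only [ContinuousLinearMap.comp_apply]
    rw [h6, map_sum]
    refine Finset.sum_congr rfl fun k _ => ?_
    rw [map_smul, h5 k, smul_eq_mul, mul_comm]
  rw [e] at h2
  exact h2

lemma bl_left {m : ℕ} (T : Fin m → Fin m → ℝ) (P : Fin m → Fin n → ℝ) (u : Fin n → ℝ)
    (V : Fin m → ℝ) : ∑ a, ∑ b, T a b * (∑ k, P a k * u k) * V b =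
    ∑ k, (∑ a, ∑ b, T a b * P a k * V b) * u k := by
  simp only [Finset.mul_sum, Finset.sum_mul]
  rw [Finset.sum_comm (s := (Finset.univ : Finset (Fin n)))]
  refine Finset.sum_congr rfl fun a _ => ?_
  rw [Finset.sum_comm (s := (Finset.univ : Finset (Fin n)))]
  exact Finset.sum_congr rfl fun b _ => Finset.sum_congr rfl fun k _ => by ring

lemma bl_right {m : ℕ} (T : Fin m → Fin m → ℝ) (P : Fin m → Fin n → ℝ) (u : Fin n → ℝ)
    (U : Fin m → ℝ) : ∑ a, ∑ b, T a b * U a * (∑ k, P b k * u k) =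
    ∑ k, (∑ a, ∑ b, T a b * U a * P b k) * u k := by
  simp only [Finset.mul_sum, Finset.sum_mul]
  rw [Finset.sum_comm (s := (Finset.univ : Finset (Fin n)))]
  refine Finset.sum_congr rfl fun a _ => ?_
  rw [Finset.sum_comm (s := (Finset.univ : Finset (Fin n)))]
  exact Finset.sum_congr rfl fun b _ => Finset.sum_congr rfl fun k _ => by ring

lemma bl_both {m : ℕ} (T : Fin m → Fin m → ℝ) (P : Fin m → Fin n → ℝ) (u v : Fin n → ℝ) :
    ∑ a, ∑ b, T a b * (∑ k, P a k * u k) * (∑ l, P b l * v l) =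
    ∑ k, ∑ l, (∑ a, ∑ b, T a b * P a k * P b l) * u k * v l := by
  rw [bl_left]
  refine Finset.sum_congr rfl fun k _ => ?_
  rw [bl_right, Finset.sum_mul]
  exact Finset.sum_congr rfl fun l _ => by ring

lemma bl_right2 {m : ℕ} (T : Fin m → Fin m → ℝ) (S : Fin m → Fin n → Fin n → ℝ)
    (u v : Fin n → ℝ) (U : Fin m → ℝ) :
    ∑ a, ∑ b, T a b * U a * (∑ k, ∑ l, S b k l * u k * v l) =
    ∑ k, ∑ l, (∑ a, ∑ b, T a b * U a * S b k l) * u k * v l := by
  have e : ∀ b, ∑ k, ∑ l, S b k l * u k * v l = ∑ k, (∑ l, S b k l * v l) * u k := by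
    intro b
    refine Finset.sum_congr rfl fun k _ => ?_
    rw [Finset.sum_mul]
    exact Finset.sum_congr rfl fun l _ => by ring
  simp only [e]
  rw [bl_right T (fun b k => ∑ l, S b k l * v l)]
  refine Finset.sum_congr rfl fun k _ => ?_
  rw [bl_right T (fun b l => S b k l), Finset.sum_mul]
  exact Finset.sum_congr rfl fun l _ => by ring

/-- **Slices are covariant.** -/
theorem isSlice_cov {M : ℝ} {g K g' K' : Field n} {U V : Set (E n)} (hU : IsOpen U)
    (hV : IsOpen V) {χ : E n → E n} (hχ : ∀ k, ContDiffOn ℝ ∞ (fun y => χ y k) U)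
    (hm : MapsTo χ U V) (hi : InjOn χ U)
    (hg : ∀ x ∈ U, ∀ i j, g x i j = ∑ k, ∑ l, g' (χ x) k l * pd i (fun y => χ y k) x *
      pd j (fun y => χ y l) x)
    (hK : ∀ x ∈ U, ∀ i j, K x i j = ∑ k, ∑ l, K' (χ x) k l * pd i (fun y => χ y k) x *
      pd j (fun y => χ y l) x)
    (h : IsSlice M g' K' V) : IsSlice M g K U := by
  obtain ⟨Φ, N, hΦ, hinj, hx⟩ := h
  have hχs : ContDiffOn ℝ ∞ χ U := by
    rw [contDiffOn_piLp]
    exact hχ
  have hχd : ∀ x ∈ U, ∀ k, DifferentiableAt ℝ (fun y => χ y k) x := fun x hx k =>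
    ((hχ k).contDiffAt (hU.mem_nhds hx)).differentiableAt (by simp)
  have hΦd : ∀ y ∈ V, ∀ a, DifferentiableAt ℝ (Φ a) y := fun y hy a =>
    ((hΦ a).contDiffAt (hV.mem_nhds hy)).differentiableAt (by simp)
  have hpds : ∀ (f : E n → ℝ) (W : Set (E n)), IsOpen W → ContDiffOn ℝ ∞ f W → ∀ k,
      ContDiffOn ℝ ∞ (pd k f) W := by
    intro f W hW hf k
    have h1 : ContDiffOn ℝ ∞ (fun y => fderiv ℝ f y (EuclideanSpace.single k 1)) W :=
      (((contDiffOn_infty_iff_fderiv_of_isOpen hW).1 hf).2).clm_apply contDiffOn_const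
    refine h1.congr fun y hy => ?_
    have hd : DifferentiableAt ℝ f y := (hf.contDiffAt (hW.mem_nhds hy)).differentiableAt (by simp)
    exact (hd.hasFDerivAt.hasLineDerivAt (EuclideanSpace.single k (1 : ℝ))).lineDeriv
  have hΦd2 : ∀ y ∈ V, ∀ k a, DifferentiableAt ℝ (pd k (Φ a)) y := fun y hy k a =>
    ((hpds _ V hV (hΦ a) k).contDiffAt (hV.mem_nhds hy)).differentiableAt (by simp)
  have hχd2 : ∀ x ∈ U, ∀ j k, DifferentiableAt ℝ (pd j (fun y => χ y k)) x := fun x hx j k =>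
    ((hpds _ U hU (hχ k) j).contDiffAt (hU.mem_nhds hx)).differentiableAt (by simp)
  -- first derivatives
  have h1 : ∀ x ∈ U, ∀ a i, pd i (fun y => Φ a (χ y)) x =
      ∑ k, pd k (Φ a) (χ x) * pd i (fun y => χ y k) x := fun x hx a i =>
    (HP_comp (hΦd _ (hm hx) a) (hχd x hx) i).pd
  -- second derivatives
  have h2 : ∀ x ∈ U, ∀ a i j, pd i (pd j (fun y => Φ a (χ y))) x =
      (∑ k, ∑ l, pd k (pd l (Φ a)) (χ x) * pd i (fun y => χ y k) x * pd j (fun y => χ y l) x) +
        ∑ l, pd l (Φ a) (χ x) * pd i (pd j (fun y => χ y l)) x := by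
    intro x hx a i j
    have hev : pd j (fun y => Φ a (χ y)) =ᶠ[𝓝 x] fun y =>
        ∑ l, pd l (Φ a) (χ y) * pd j (fun z => χ z l) y := by
      filter_upwards [hU.mem_nhds hx] with y hy
      exact h1 y hy a j
    have h3 := HP.sum (k := i) (x := x) Finset.univ
      (f := fun l y => pd l (Φ a) (χ y) * pd j (fun z => χ z l) y) (d := fun l =>
        (∑ k, pd k (pd l (Φ a)) (χ x) * pd i (fun y => χ y k) x) * pd j (fun z => χ z l) x +
          pd l (Φ a) (χ x) * pd i (pd j (fun z => χ z l)) x)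
      (fun l _ => (HP_comp (hΦd2 _ (hm hx) l a) (hχd x hx) i).mul (HP.of_diff (hχd2 x hx j l)))
    rw [(h3.congr hev).pd, Finset.sum_add_distrib]
    congr 1
    rw [Finset.sum_comm]
    refine Finset.sum_congr rfl fun l _ => ?_
    rw [Finset.sum_mul]
  refine ⟨fun a x => Φ a (χ x), fun a x => N a (χ x), fun a => (hΦ a).comp hχs hm,
    fun x hx y hy hxy => hi hx hy (hinj (hm hx) (hm hy) hxy), fun x hxU => ?_⟩
  obtain ⟨p1, p2, p3, p4, p5, p6, p7⟩ := hx (χ x) (hm hxU)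
  have hpt : toPt (fun a x => Φ a (χ x)) x = toPt Φ (χ x) := rfl
  rw [hpt]
  refine ⟨p1, p2, p3, fun i j => ?_, p5, fun i => ?_, fun i j => ?_⟩
  · rw [hg x hxU i j]
    simp only [h1 x hxU]
    rw [bl_both (tang M (toPt Φ (χ x))) (fun a k => pd k (Φ a) (χ x))]
    exact Finset.sum_congr rfl fun k _ => Finset.sum_congr rfl fun l _ => by rw [p4]
  · simp only [h1 x hxU]
    rw [bl_right (tang M (toPt Φ (χ x))) (fun a k => pd k (Φ a) (χ x))]
    refine Finset.sum_eq_zero fun k _ => ?_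
    rw [p6 k, zero_mul]
  · rw [hK x hxU i j]
    simp only [h1 x hxU, h2 x hxU]
    have e1 : ∀ b, (∑ k, ∑ l, pd k (pd l (Φ b)) (χ x) * pd i (fun y => χ y k) x *
        pd j (fun y => χ y l) x) + ∑ l, pd l (Φ b) (χ x) * pd i (pd j (fun y => χ y l)) x +
        ∑ c, ∑ d, chr (tang M) b c d (toPt Φ (χ x)) *
          (∑ k, pd k (Φ c) (χ x) * pd i (fun y => χ y k) x) *
          (∑ k, pd k (Φ d) (χ x) * pd j (fun y => χ y k) x) =
        (∑ k, ∑ l, (pd k (pd l (Φ b)) (χ x) + ∑ c, ∑ d, chr (tang M) b c d (toPt Φ (χ x)) *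
          pd k (Φ c) (χ x) * pd l (Φ d) (χ x)) * pd i (fun y => χ y k) x *
        pd j (fun y => χ y l) x) +
        ∑ l, pd l (Φ b) (χ x) * pd i (pd j (fun y => χ y l)) x := by
      intro b
      rw [bl_both (fun c d => chr (tang M) b c d (toPt Φ (χ x))) (fun a k => pd k (Φ a) (χ x)),
        add_right_comm]
      congr 1
      rw [← Finset.sum_add_distrib]
      refine Finset.sum_congr rfl fun k _ => ?_
      rw [← Finset.sum_add_distrib]
      exact Finset.sum_congr rfl fun l _ => by ring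
    simp only [e1, mul_add, Finset.sum_add_distrib]
    rw [bl_right2 (tang M (toPt Φ (χ x))) (fun b k l => pd k (pd l (Φ b)) (χ x) +
      ∑ c, ∑ d, chr (tang M) b c d (toPt Φ (χ x)) * pd k (Φ c) (χ x) * pd l (Φ d) (χ x)),
      bl_right (tang M (toPt Φ (χ x))) (fun a k => pd k (Φ a) (χ x))]
    have e2 : ∑ k, (∑ a, ∑ b, tang M (toPt Φ (χ x)) a b * N a (χ x) * pd k (Φ b) (χ x)) *
        pd i (pd j (fun y => χ y k)) x = 0 :=
      Finset.sum_eq_zero fun k _ => by rw [p6 k, zero_mul]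
    rw [e2, add_zero, ← Finset.sum_neg_distrib]
    refine Finset.sum_congr rfl fun k _ => ?_
    rw [← Finset.sum_neg_distrib]
    refine Finset.sum_congr rfl fun l _ => ?_
    rw [p7 k l]
    ring

end Vale.Agent.T4.C919
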