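import Vale.Agent.P366.T4.Basic
import Vale.Agent.P366.T2.U1.Inv765

/-! T4: the background of a metric for which the radial direction is orthogonal to the spheres. -/

open MeasureTheory Metric Filter Topology Set
open scoped ContDiff ENNReal Matrix

noncomputable section
namespace Vale.Agent.T4
open Vale.Agent.P366.Stmt
open Vale.Agent.U1 (InvariantUnder)

variable {n : ℕ}

/-- the part of `g` tangential to the centred spheres (if they are orthogonal to `x`) -/
def tanP (g : Field n) : Field n := fun x i j => g x i j - rad g x * nx i x * nx j x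

/-- a cut-off function -/
def cut (R r : ℝ) : ℝ := Real.smoothTransition ((r - R / 2) / (R / 2))

lemma cut_one {R r : ℝ} (hR : 0 < R) (hr : R ≤ r) : cut R r = 1 := by
  unfold cut
  refine Real.smoothTransition.one_of_one_le ?_
  rw [le_div_iff₀ (by positivity)]
  linarith

lemma cut_zero {R r : ℝ} (hR : 0 < R) (hr : r ≤ R / 2) : cut R r = 0 := by
  unfold cut
  refine Real.smoothTransition.zero_of_nonpos ?_
  exact div_nonpos_of_nonpos_of_nonneg (by linarith) (by positivity)

lemma cut_smooth (R : ℝ) : ContDiff ℝ ∞ (cut R) := by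
  unfold cut
  exact Real.smoothTransition.contDiff.comp ((contDiff_id.sub contDiff_const).div_const _)

/-- the background -/
def bgF (R : ℝ) (g : Field n) : Field n := fun x i j =>
  cut R (len x) * (tanP g x i j + nx i x * nx j x) + (1 - cut R (len x)) * (if i = j then 1 else 0)

lemma bgF_smooth {R : ℝ} (hR : 0 < R) {g : Field n} (hg : ∀ i j, Smooth (fun x => g x i j))
    (i j : Fin n) : Smooth (fun x => bgF R g x i j) := by
  refine contDiff_iff_contDiffAt.2 fun x => ?_
  by_cases hx : x = 0
  · -- near the origin the cut-off vanishes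
    have hev : (fun y => bgF R g y i j) =ᶠ[𝓝 x] fun _ => if i = j then (1 : ℝ) else 0 := by
      have h1 : ∀ᶠ y : E n in 𝓝 x, len y < R / 2 := by
        have : Continuous (len : E n → ℝ) := continuous_norm
        refine this.continuousAt.eventually (gt_mem_nhds ?_)
        rw [hx]
        simp only [len, norm_zero]
        positivity
      filter_upwards [h1] with y hy
      unfold bgF
      rw [cut_zero hR hy.le]
      ring
    exact contDiffAt_const.congr_of_eventuallyEq hev
  · have h1 : ContDiffAt ℝ ∞ (fun y => cut R (len y)) x :=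
      (cut_smooth R).contDiffAt.comp x (contDiffAt_len hx)
    have h2 : ContDiffAt ℝ ∞ (fun y => tanP g y i j + nx i y * nx j y) x := by
      unfold tanP
      exact ((hg i j).contDiffAt.sub (((contDiffAt_rad hg hx).mul (contDiffAt_nx i hx)).mul
        (contDiffAt_nx j hx))).add ((contDiffAt_nx i hx).mul (contDiffAt_nx j hx))
    unfold bgF
    exact (h1.mul h2).add ((contDiffAt_const.sub h1).mul contDiffAt_const)

lemma bgF_eq {R : ℝ} (hR : 0 < R) {g : Field n} {x : E n} (hx : R ≤ len x) (i j : Fin n) :
    bgF R g x i j = g x i j - (rad g x - 1) * nx i x * nx j x := by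
  unfold bgF tanP
  rw [cut_one hR hx]
  ring

lemma bgF_symm {R : ℝ} {g : Field n} (hs : ∀ x i j, g x i j = g x j i) (x : E n)
    (i j : Fin n) : bgF R g x i j = bgF R g x j i := by
  unfold bgF tanP
  rw [hs x i j]
  simp only [eq_comm (a := i) (b := j)]
  ring

/-- `g = G + (p - 1) dr²` -/
theorem lapse_bgF {R : ℝ} (hR : 0 < R) {g : Field n} (hg : ∀ i j, Smooth (fun x => g x i j))
    (hs : ∀ x i j, g x i j = g x j i) (hpos : ∀ x, R ≤ len x → (mat g x).PosDef)
    (hperp : ∀ x, R ≤ len x → ∀ i, ∑ j, g x i j * nx j x = rad g x * nx i x) :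
    Lapse (bgF R g) g R := by
  have hrad : ∀ x, R ≤ len x → 0 < rad g x := by
    intro x hx
    have hx0 := ne_zero_of_len hR hx
    have hne : (fun i => nx i x) ≠ 0 := by
      intro h0
      have := sum_nx_mul hx0
      have h1 : ∀ i, nx i x = 0 := fun i => congrFun h0 i
      simp [h1] at this
    have h1 := (hpos x hx).dotProduct_mulVec_pos hne
    simp only [dotProduct, Matrix.mulVec, Pi.star_apply, star_trivial, Finset.mul_sum] at h1
    refine h1.trans_le (le_of_eq ?_)
    unfold rad mat
    exact Finset.sum_congr rfl fun i _ => Finset.sum_congr rfl fun j _ => by ring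
  have hunit : ∀ x, R ≤ len x → ∀ i, ∑ j, bgF R g x i j * nx j x = nx i x := by
    intro x hx i
    have hx0 := ne_zero_of_len hR hx
    have e : ∀ j, bgF R g x i j * nx j x =
        g x i j * nx j x - (rad g x - 1) * nx i x * (nx j x * nx j x) := fun j => by
      rw [bgF_eq hR hx]; ring
    simp only [e, Finset.sum_sub_distrib, ← Finset.mul_sum, sum_nx_mul hx0, hperp x hx]
    ring
  refine ⟨hR, bgF_smooth hR hg, hg, fun x _ i j => bgF_symm hs x i j, ?_, ?_, hrad, ?_⟩
  · -- positive definite
    intro x hx
    have hx0 := ne_zero_of_len hR hx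
    have hH : (mat (bgF R g) x).IsHermitian := by
      ext i j
      exact bgF_symm hs x j i
    refine Matrix.PosDef.of_dotProduct_mulVec_pos hH fun v hv => ?_
    -- decomposition of `v`
    set a := ∑ i, nx i x * v i with ha
    set u : Fin n → ℝ := fun i => v i - a * nx i x with hu
    have hgu : ∑ i, ∑ j, g x i j * u i * u j = ∑ i, ∑ j, g x i j * v i * v j - rad g x * a ^ 2 := by
      have e1 : ∀ i j, g x i j * u i * u j = g x i j * v i * v j -
          a * (v i * (g x i j * nx j x)) - a * (v j * (g x j i * nx i x)) +
          a ^ 2 * (nx i x * (g x i j * nx j x)) := by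
        intro i j
        rw [hs x j i]
        simp only [hu]
        ring
      simp only [e1, Finset.sum_sub_distrib, Finset.sum_add_distrib]
      have e2 : ∑ i, ∑ j, a * (v i * (g x i j * nx j x)) = rad g x * a ^ 2 := by
        simp only [← Finset.mul_sum, hperp x hx]
        have : ∀ i, v i * (rad g x * nx i x) = rad g x * (nx i x * v i) := fun i => by ring
        simp only [this, ← Finset.mul_sum]
        rw [← ha]; ring
      have e3 : ∑ i, ∑ j, a * (v j * (g x j i * nx i x)) = rad g x * a ^ 2 := by
        rw [Finset.sum_comm]; exact e2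
      have e4 : ∑ i, ∑ j, a ^ 2 * (nx i x * (g x i j * nx j x)) = rad g x * a ^ 2 := by
        simp only [← Finset.mul_sum, hperp x hx]
        have : ∀ i, nx i x * (rad g x * nx i x) = rad g x * (nx i x * nx i x) := fun i => by ring
        simp only [this, ← Finset.mul_sum, sum_nx_mul hx0]
        ring
      rw [e2, e3, e4]; ring
    have hval : star v ⬝ᵥ (mat (bgF R g) x *ᵥ v) = ∑ i, ∑ j, g x i j * u i * u j + a ^ 2 := by
      rw [hgu]
      simp only [dotProduct, Matrix.mulVec, Pi.star_apply, star_trivial, Finset.mul_sum, mat]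
      have e1 : ∀ i j, v i * (bgF R g x i j * v j) = g x i j * v i * v j -
          (rad g x - 1) * ((nx i x * v i) * (nx j x * v j)) := by
        intro i j
        rw [bgF_eq hR hx]; ring
      simp only [e1, Finset.sum_sub_distrib, ← Finset.mul_sum]
      rw [← Finset.sum_mul, ← ha]
      ring
    rw [hval]
    by_cases hu0 : u = 0
    · have ha0 : a ≠ 0 := by
        intro h0
        apply hv
        funext i
        have := congrFun hu0 i
        simp only [hu, h0, zero_mul, sub_zero, Pi.zero_apply] at this
        exact this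
      have e1 : ∑ i, ∑ j, g x i j * u i * u j = 0 := by simp [hu0]
      rw [e1, zero_add]
      positivity
    · have h1 := (hpos x hx).dotProduct_mulVec_pos hu0
      simp only [dotProduct, Matrix.mulVec, Pi.star_apply, star_trivial, Finset.mul_sum, mat] at h1
      have e1 : ∑ i, ∑ j, g x i j * u i * u j = ∑ i, ∑ j, u i * (g x i j * u j) :=
        Finset.sum_congr rfl fun i _ => Finset.sum_congr rfl fun j _ => by ring
      rw [e1]
      positivity
  · intro x hx i
    have hx0 := ne_zero_of_len hR hx
    have h1 : ∑ j, bgF R g x i j * x j = (∑ j, bgF R g x i j * nx j x) * len x := by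
      rw [Finset.sum_mul]
      exact Finset.sum_congr rfl fun j _ => by rw [mul_assoc, nx_mul_len hx0]
    rw [h1, hunit x hx, nx_mul_len hx0]
  · intro x hx i j
    rw [bgF_eq hR hx]; ring

/-- the background is invariant -/
theorem inv_bgF {R : ℝ} (hR : 0 < R) {g : Field n} {Γ : Matrix (Fin n) (Fin n) ℝ → Prop}
    (hΓ : ∀ A, Γ A → Aᵀ * A = 1) (hinv : InvariantUnder Γ R (tanP g)) :
    InvariantUnder Γ R (bgF R g) := by
  intro A hA x y hx hy i j
  have hx0 := ne_zero_of_len hR hx
  have hAA : ∀ i j, ∑ k, A k i * A k j = if i = j then 1 else 0 := by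
    intro i j
    have := congrFun (congrFun (hΓ A hA) i) j
    rw [Matrix.mul_apply, Matrix.one_apply] at this
    exact this
  have hlen : len y = len x := by
    have h1 : len y ^ 2 = len x ^ 2 := by
      rw [len_sq, len_sq]
      have e1 : ∀ i, y i ^ 2 = ∑ j, ∑ l, A i j * A i l * (x j * x l) := by
        intro i
        rw [hy i, sq, Finset.sum_mul_sum]
        exact Finset.sum_congr rfl fun j _ => Finset.sum_congr rfl fun l _ => by ring
      simp only [e1]
      rw [Finset.sum_comm]
      refine Finset.sum_congr rfl fun j _ => ?_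
      rw [Finset.sum_comm]
      simp only [← Finset.sum_mul, hAA]
      simp [sq]
    exact (pow_left_inj₀ (norm_nonneg _) (norm_nonneg _) two_ne_zero).1 h1
  have hyR : R ≤ len y := by rw [hlen]; exact hx
  have hny : ∀ k, nx k y = ∑ j, A k j * nx j x := by
    intro k
    unfold nx
    rw [hlen, hy k, Finset.sum_div]
    exact Finset.sum_congr rfl fun j _ => by ring
  have hAn : ∀ i, ∑ k, A k i * nx k y = nx i x := by
    intro i
    simp only [hny, Finset.mul_sum]
    rw [Finset.sum_comm]
    have : ∀ j, ∑ k, A k i * (A k j * nx j x) = (∑ k, A k i * A k j) * nx j x := by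
      intro j
      rw [Finset.sum_mul]
      exact Finset.sum_congr rfl fun k _ => by ring
    simp only [this, hAA]
    simp
  have h1 := hinv A hA x y hx hy i j
  have e1 : ∀ k l, A k i * bgF R g y k l * A l j =
      A k i * tanP g y k l * A l j + (A k i * nx k y) * (A l j * nx l y) := by
    intro k l
    rw [bgF_eq hR hyR]
    unfold tanP
    ring
  simp only [e1, Finset.sum_add_distrib, h1, ← Finset.mul_sum, ← Finset.sum_mul, hAn]
  rw [bgF_eq hR hx]
  unfold tanP
  ring

end Vale.Agent.T4
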