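import Vale.Agent.P366.T2.MomX68
import Vale.Agent.P366.T2.A765.SCStmt
import Vale.Agent.P366.T2.Mono2

/-!
T4: data whose metric is `g = G + (p - 1) dr²`, `G = dr² + h(r)` a homogeneous background with unit
lapse, `p = p(x)` an arbitrary positive function, `K` arbitrary with `√p tr_S K` radial.
-/

open MeasureTheory Metric Filter Topology Set
open scoped ContDiff ENNReal

noncomputable section
namespace Vale.Agent.T4
open Vale.Agent.P366.Stmt Vale.Agent.P366.T2

variable {n : ℕ}

/-- components of `x / |x|` -/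
def nx (i : Fin n) (x : E n) : ℝ := x i / len x

/-- the radial component `T(x, x) / |x| ^ 2` of a tensor field -/
def rad (T : Field n) (x : E n) : ℝ := ∑ i, ∑ j, T x i j * nx i x * nx j x

/-- the radial row `T(x, ·) / |x|` -/
def row (T : Field n) (i : Fin n) (x : E n) : ℝ := ∑ j, T x i j * nx j x

/-- the inverse of the tangential part of `G` (for `G` with unit lapse) -/
def Sm (G : Field n) (i j : Fin n) (x : E n) : ℝ := up G i j x - nx i x * nx j x

/-- radial derivative -/
def dN (h : E n → ℝ) (x : E n) : ℝ := ∑ i, nx i x * pd i h x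

/-- mean curvature of the centred spheres with respect to `G` -/
def H1 (G : Field n) (x : E n) : ℝ := ((n : ℝ) - 1) / len x + ∑ i, nx i x * Lg G i x

/-- second fundamental form of the centred spheres with respect to `G` -/
def IIf (G : Field n) : Field n := fun x i j =>
  dN (fun y => G y i j) x / 2 + (G x i j - nx i x * nx j x) / len x

/-- tangential trace -/
def trT (G A : Field n) (x : E n) : ℝ := ∑ i, ∑ j, Sm G i j x * A x i j

/-- tangential contraction of two tensor fields -/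
def ctr (G A B : Field n) (x : E n) : ℝ :=
  ∑ i, ∑ j, ∑ k, ∑ l, Sm G i k x * Sm G j l x * A x i j * B x k l

/-- tangential contraction of two covectors -/
def S2 (G : Field n) (u w : Fin n → E n → ℝ) (x : E n) : ℝ :=
  ∑ k, ∑ l, Sm G k l x * u k x * w l x

/-- `∂ₖ (Sᵏˡ Zₗ)` -/
def DS (G : Field n) (Z : Fin n → E n → ℝ) (x : E n) : ℝ :=
  ∑ k, pd k (fun y => ∑ l, Sm G k l y * Z l y) x

/-- logarithm of the lapse `√p` of `g` -/
def lf (g : Field n) (x : E n) : ℝ := Real.log (rad g x) / 2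

/-- the gradient of the logarithm of the lapse -/
def glf (g : Field n) (l : Fin n) (x : E n) : ℝ := pd l (lf g) x

/-- `g = G + (p - 1) dr²` on `R ≤ |x|`, where `G` has unit lapse and no shift. -/
structure Lapse (G g : Field n) (R : ℝ) : Prop where
  hR : 0 < R
  Gs : ∀ i j, Smooth (fun x => G x i j)
  gs : ∀ i j, Smooth (fun x => g x i j)
  symm : ∀ x, R ≤ len x → ∀ i j, G x i j = G x j i
  pos : ∀ x, R ≤ len x → (mat G x).PosDef
  unit : ∀ x, R ≤ len x → ∀ i, ∑ j, G x i j * x j = x i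
  ppos : ∀ x, R ≤ len x → 0 < rad g x
  eq : ∀ x, R ≤ len x → ∀ i j, g x i j = G x i j + (rad g x - 1) * nx i x * nx j x

/-- A homogeneous background, reduced to functions of the radius: mean curvature `H`, `|II|²`,
scalar curvature `Rh`, area `ar` (divided by `ω`) of the leaves, and the weight `lam` with its
gradient data. -/
structure Bg (n : ℕ) where
  R : ℝ
  H : ℝ → ℝ
  II2 : ℝ → ℝ
  Rh : ℝ → ℝ
  ar : ℝ → ℝ
  lam : ℝ → ℝ
  L2 : ℝ → ℝ
  IT : ℝ → ℝ
  hR : 0 < R
  ar_pos : ∀ r, R ≤ r → 0 < ar r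
  lam_pos : ∀ r, R ≤ r → 0 < lam r
  H_diff : ∀ r, R ≤ r → DifferentiableAt ℝ H r
  ar_deriv : ∀ r, R ≤ r → HasDerivAt ar (ar r * H r) r
  lam_deriv : ∀ r, R ≤ r → HasDerivAt lam (-IT r) r
  hU : ∀ r, R ≤ r → ∀ y, 0 ≤ II2 r - 2 * y * IT r + y ^ 2 * L2 r
  hL : ∀ r, R ≤ r → lam r ^ 2 ≤ ((n : ℝ) - 1) * L2 r
  hJ : ∀ r, R ≤ r → Rh r / 4 + L2 r ≤ lam r ^ 2

/-- area radius -/
def Bg.rho (B : Bg n) (r : ℝ) : ℝ := B.ar r ^ (1 / ((n : ℝ) - 1))

/-- The density and its derivative agree with those of the background. -/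
structure Bg.Fits0 (B : Bg n) (G : Field n) : Prop where
  hdet : ∀ x, B.R ≤ len x → len x ^ (n - 1) * √(mat G x).det = B.ar (len x)
  hL : ∀ x, B.R < len x → ∀ i, Lg G i x = (B.H (len x) - ((n : ℝ) - 1) / len x) * nx i x

/-- `G` realizes the background `B` on `B.R < |x|`. -/
structure Bg.Fits (B : Bg n) (G : Field n) : Prop extends B.Fits0 G where
  hII : ∀ x, B.R < len x → ctr G (IIf G) (IIf G) x = B.II2 (len x)
  hRh : ∀ x, B.R < len x →
    scal G x + B.II2 (len x) + B.H (len x) ^ 2 + 2 * deriv B.H (len x) = B.Rh (len x)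

end Vale.Agent.T4
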