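import Vale.Agent.P366.T2.E68t

/-! T4, block E, part a: the limit of the mass function, abstract form. -/

open Filter Topology Asymptotics Set

noncomputable section
namespace Vale.Agent.T4
open Vale.Agent.P366.T2.E68

lemma exp_taylor : (fun x : ℝ => Real.exp x - 1 - x) =O[𝓝 0] fun x => x * x := by
  have h1 : ∀ᶠ x : ℝ in 𝓝 0, HasDerivAt Real.exp (Real.exp x) x :=
    Eventually.of_forall fun x => Real.hasDerivAt_exp x
  have h3 := taylor2 h1 (Real.differentiable_exp 0)
  simpa using h3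

/-- The limit of the mass function of a background with an averaged lapse, abstract form. -/
theorem mass_abs2 {N q m : ℝ} (hN : 0 < N) (hq0 : 0 < q) (hq : N - 1 < 2 * q)
    {ℓ y V a w k ρ H lam κ M : ℝ → ℝ}
    (hl : O1 q ℓ) (hy : O1 q y) (ha : O1 q a) (hV : O2 q fun r => V r - 1 + a r)
    (hw : O2 q fun r => w r - 1) (hk : O1 q k)
    (hE : Tendsto (fun r : ℝ => r ^ (N - 1) * (N * a r - 2 * ℓ r - 2 * y r)) atTop
      (𝓝 (2 * N * m)))
    (hρ : ∀ᶠ r in atTop, ρ r = r * Real.exp (ℓ r / N))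
    (hH : ∀ᶠ r in atTop, H r = (N + y r) / r)
    (hlam : ∀ᶠ r in atTop, 2 * lam r * ρ r / N = w r)
    (hκ : ∀ᶠ r in atTop, r * κ r = k r)
    (hM : ∀ᶠ r in atTop, M r = ρ r ^ (N - 1) * (1 - V r * (H r ^ 2 - κ r ^ 2) / (4 * lam r ^ 2))) :
    Tendsto M atTop (𝓝 (2 * m)) ∧ ∀ᶠ r in atTop, |κ r| < H r := by
  -- first order facts
  have hl0 := hl.tendsto hq0
  have hy0 := hy.tendsto hq0
  have ha0 := ha.tendsto hq0
  have hk0 := hk.tendsto hq0
  have hw1 : Tendsto w atTop (𝓝 1) := by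
    have := ((hw.o1 hq0).tendsto hq0).add_const 1
    simpa using this
  have hV1 : Tendsto V atTop (𝓝 1) := by
    have h1 := (((hV.o1 hq0).sub ha).tendsto hq0).add_const 1
    have e : (fun r => V r - 1 + a r - a r + 1) = V := by funext r; ring
    rw [e] at h1
    simpa using h1
  -- `exp (2 ℓ / N)`
  have hl2 : O1 q fun r => 2 / N * ℓ r := hl.cmul _
  have he : O2 q fun r => Real.exp (2 / N * ℓ r) - 1 - 2 / N * ℓ r :=
    (exp_taylor.comp_tendsto (hl2.tendsto hq0)).trans (hl2.mul hl2)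
  have he1 : Tendsto (fun r => Real.exp (2 / N * ℓ r)) atTop (𝓝 1) := by
    have := (Real.continuous_exp.tendsto 0).comp (hl2.tendsto hq0)
    simpa [Function.comp_def] using this
  have he0 : O0 fun r => Real.exp (2 / N * ℓ r) := O0.of_tendsto he1
  -- `V exp`
  have hVe : O2 q fun r => V r * Real.exp (2 / N * ℓ r) - (1 - a r + 2 / N * ℓ r) := by
    have e1 := he0.mul2 hV
    have e2 : O2 q fun r => (1 - a r) * (Real.exp (2 / N * ℓ r) - 1 - 2 / N * ℓ r) :=
      O0.mul2 (O0.of_tendsto (c := 1) (by simpa using ha0.const_sub 1)) he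
    have e3 : O2 q fun r => -(1 : ℝ) * (a r * (2 / N * ℓ r)) := (ha.mul hl2).cmul _
    refine ((e1.add e2).add e3).congr' (Eventually.of_forall fun r => ?_)
    ring
  have hVe1 : Tendsto (fun r => V r * Real.exp (2 / N * ℓ r)) atTop (𝓝 1) := by
    simpa using hV1.mul he1
  -- the numerator
  have hZ : O2 q fun r => N ^ 2 * w r ^ 2 - V r * Real.exp (2 / N * ℓ r) *
      ((N + y r) ^ 2 - k r ^ 2) - N * (N * a r - 2 * ℓ r - 2 * y r) := by
    have e1 : O2 q fun r => (N ^ 2 * (w r + 1)) * (w r - 1) :=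
      O0.mul2 (O0.of_tendsto ((hw1.add_const 1).const_mul (N ^ 2))) hw
    have e2 : O2 q fun r => -((N + y r) ^ 2) * (V r * Real.exp (2 / N * ℓ r) -
        (1 - a r + 2 / N * ℓ r)) :=
      O0.mul2 (O0.of_tendsto (((hy0.const_add N).pow 2).neg)) hVe
    have e3 : O2 q fun r => (V r * Real.exp (2 / N * ℓ r)) * (k r * k r) :=
      O0.mul2 (O0.of_tendsto hVe1) (hk.mul hk)
    have e4 : O2 q fun r => -(1 : ℝ) * (y r * y r) := (hy.mul hy).cmul _
    have e5 : O2 q fun r => (2 * N + y r) * (y r * (a r - 2 / N * ℓ r)) :=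
      O0.mul2 (O0.of_tendsto (hy0.const_add (2 * N))) (hy.mul (ha.sub hl2))
    refine ((((e1.add e2).add e3).add e4).add e5).congr' (Eventually.of_forall fun r => ?_)
    field_simp
    ring
  have hlim0 : Tendsto (fun r : ℝ => r ^ (N - 1) *
      (N ^ 2 * w r ^ 2 - V r * Real.exp (2 / N * ℓ r) *
      ((N + y r) ^ 2 - k r ^ 2) - N * (N * a r - 2 * ℓ r - 2 * y r))) atTop (𝓝 0) := by
    have h1 := IsBigO.mul (isBigO_refl (fun r : ℝ => r ^ (N - 1)) atTop) hZ
    refine h1.trans_tendsto ?_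
    have h2 : Tendsto (fun r : ℝ => r ^ (-(2 * q - (N - 1)))) atTop (𝓝 0) :=
      tendsto_rpow_neg_atTop (by linarith)
    refine h2.congr' ?_
    filter_upwards [eventually_gt_atTop 0] with r hr
    rw [← Real.rpow_add hr, ← Real.rpow_add hr]
    congr 1
    ring
  have hlim1 : Tendsto (fun r : ℝ => r ^ (N - 1) *
      (N ^ 2 * w r ^ 2 - V r * Real.exp (2 / N * ℓ r) * ((N + y r) ^ 2 - k r ^ 2))) atTop
      (𝓝 (2 * N ^ 2 * m)) := by
    have h1 := hlim0.add (hE.const_mul N)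
    have e : 0 + N * (2 * N * m) = 2 * N ^ 2 * m := by ring
    rw [e] at h1
    refine h1.congr fun r => ?_
    ring
  have hden : Tendsto (fun r => N ^ 2 * w r ^ 2) atTop (𝓝 (N ^ 2)) := by
    have h1 := (hw1.pow 2).const_mul (N ^ 2)
    simpa using h1
  have hexp : Tendsto (fun r => Real.exp (ℓ r / N) ^ (N - 1)) atTop (𝓝 1) := by
    have h1 := (Real.continuous_exp.tendsto 0).comp (by simpa using hl0.div_const N :
      Tendsto (fun r => ℓ r / N) atTop (𝓝 0))
    have h2 := h1.rpow_const (p := N - 1) (Or.inl (by simp))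
    simpa [Function.comp_def] using h2
  constructor
  · have h2 := (hexp.mul hlim1).div hden (by positivity)
    have e : 1 * (2 * N ^ 2 * m) / N ^ 2 = 2 * m := by field_simp
    rw [e] at h2
    refine h2.congr' ?_
    filter_upwards [hM, hρ, hH, hlam, hκ, hden.eventually_ne (show N ^ 2 ≠ 0 by positivity),
      eventually_gt_atTop 0] with r hM hρ hH hlam hκ hne hr
    simp only [Pi.div_apply, Pi.mul_apply]
    have hw0 : w r ≠ 0 := by
      intro h0
      apply hne
      rw [h0]; ring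
    have hρ0 : 0 < ρ r := by rw [hρ]; positivity
    have hl0 : lam r ≠ 0 := by
      intro h0
      apply hw0
      rw [← hlam, h0]; ring
    have e1 : ρ r ^ (N - 1) = r ^ (N - 1) * Real.exp (ℓ r / N) ^ (N - 1) := by
      rw [hρ, Real.mul_rpow hr.le (Real.exp_pos _).le]
    have e2 : Real.exp (2 / N * ℓ r) = Real.exp (ℓ r / N) ^ 2 := by
      rw [← Real.exp_nat_mul]
      congr 1
      push_cast
      ring
    rw [hM, e1, e2, hH, ← hlam, ← hκ]
    have e3 : Real.exp (ℓ r / N) = ρ r / r := by rw [hρ]; field_simp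
    rw [e3]
    set P : ℝ := (ρ r / r) ^ (N - 1) with hP
    set Q : ℝ := r ^ (N - 1) with hQ
    have e4 : (N ^ 2 * (2 * lam r * ρ r / N) ^ 2 - V r * (ρ r / r) ^ 2 *
        ((N + y r) ^ 2 - (r * κ r) ^ 2)) / (N ^ 2 * (2 * lam r * ρ r / N) ^ 2) =
        1 - V r * (((N + y r) / r) ^ 2 - κ r ^ 2) / (4 * lam r ^ 2) := by
      field_simp
      ring
    rw [← e4]
    ring
  · have h1 : Tendsto (fun r => |k r|) atTop (𝓝 0) := by simpa using hk0.abs
    have h2 : Tendsto (fun r => N + y r) atTop (𝓝 N) := by simpa using hy0.const_add N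
    have h3 := h1.eventually_lt h2 hN
    filter_upwards [h3, hH, hκ, eventually_gt_atTop 0] with r h3 hH hκ hr
    rw [hH, lt_div_iff₀ hr, mul_comm, ← abs_of_pos hr, ← abs_mul, abs_of_pos hr, hκ]
    exact h3

end Vale.Agent.T4
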