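import Vale.Agent.P366.T4.Basic
import Vale.Agent.P366.T1.A919e

/-! T4, block E, part b: decay of the background and of the lapse. -/

open MeasureTheory Metric Filter Topology Set
open scoped ContDiff ENNReal

noncomputable section
namespace Vale.Agent.T4
open Vale.Agent.P366.Stmt Vale.Agent.P366.T2
open Vale.Agent.P366.T1.A919 (far far_iff far_of far_gt far_nhds O O_iff O_of_bigO O_const O_zero
  O_of_le O_inv_mat)

variable {n : ℕ} {G g K : Field n} {R q : ℝ}

lemma O_nx (i : Fin n) : O 0 (nx i) := Vale.Agent.P366.T1.A919.O_Nc i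

/-- decay of a metric and its first derivatives -/
structure Dec (g : Field n) (q : ℝ) : Prop where
  g0 : ∀ i j, O q (fun x => g x i j - if i = j then 1 else 0)
  g1 : ∀ i j k, O (q + 1) (pd k fun x => g x i j)

lemma far_ne : ∀ᶠ x in far n, x ≠ 0 := by
  filter_upwards [far_gt (n := n) 0] with x hx
  exact norm_pos_iff.mp hx

lemma O_inv_len : O 1 (fun x : E n => 1 / len x) := by
  refine O.of_bound (C := 1) ?_
  filter_upwards [far_gt (n := n) 0] with x hx
  unfold len
  rw [Real.rpow_neg hx.le, Real.rpow_one, one_mul, abs_of_pos (by positivity), one_div]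

/-- derivative of the unit radial field -/
def dnx (k i : Fin n) (x : E n) : ℝ := ((if i = k then 1 else 0) - nx i x * nx k x) / len x

lemma O_dnx (k i : Fin n) : O 1 (dnx k i) := by
  have h1 : O 1 (fun x : E n => ((if i = k then 1 else 0) - nx i x * nx k x) * (1 / len x)) :=
    O.mul' ((O_const (if i = k then 1 else 0)).sub ((O_nx i).mul' (O_nx k) (by linarith)))
      O_inv_len (by linarith)
  refine h1.congr (Eventually.of_forall fun x => ?_)
  unfold dnx; ring

lemma sum_nx_dnx {x : E n} (hx : x ≠ 0) (k : Fin n) : ∑ i, nx i x * dnx k i x = 0 := by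
  have e : ∀ i, nx i x * dnx k i x =
      (nx i x * (if i = k then 1 else 0) - (nx i x * nx i x) * nx k x) / len x := by
    intro i; unfold dnx; ring
  simp only [e, ← Finset.sum_div, Finset.sum_sub_distrib, ← Finset.sum_mul, sum_nx_mul hx]
  simp

lemma sum_dnx {x : E n} (hx : x ≠ 0) : ∑ k, dnx k k x = ((n : ℝ) - 1) / len x := by
  unfold dnx
  simp only [if_true, ← Finset.sum_div, Finset.sum_sub_distrib, sum_nx_mul hx]
  simp

/-- the derivative of the radial component -/
def drad (g : Field n) (k : Fin n) (x : E n) : ℝ :=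
  ∑ i, ∑ j, (pd k (fun y => g y i j) x * (nx i x * nx j x) +
    (g x i j - if i = j then 1 else 0) * (dnx k i x * nx j x + nx i x * dnx k j x))

lemma rad_sub (g : Field n) {x : E n} (hx : x ≠ 0) :
    rad g x = 1 + ∑ i, ∑ j, (g x i j - if i = j then 1 else 0) * (nx i x * nx j x) := by
  have e1 : ∑ i, ∑ j, (if i = j then (1 : ℝ) else 0) * (nx i x * nx j x) = 1 := by
    simp only [ite_mul, one_mul, zero_mul, Finset.sum_ite_eq, Finset.mem_univ, if_true]
    exact sum_nx_mul hx
  have e2 : ∀ i j, (g x i j - if i = j then 1 else 0) * (nx i x * nx j x) =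
      g x i j * nx i x * nx j x - (if i = j then 1 else 0) * (nx i x * nx j x) := by
    intro i j; ring
  simp only [e2, Finset.sum_sub_distrib, e1]
  unfold rad
  ring

lemma HP_rad (hg : ∀ i j, Smooth (fun x => g x i j)) {x : E n} (hx : x ≠ 0) (k : Fin n) :
    HP k (rad g) (drad g k x) x := by
  have h1 : ∀ i j, HP k (fun y => (g y i j - if i = j then 1 else 0) * (nx i y * nx j y))
      (pd k (fun y => g y i j) x * (nx i x * nx j x) +
        (g x i j - if i = j then 1 else 0) * (dnx k i x * nx j x + nx i x * dnx k j x)) x := by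
    intro i j
    have a1 : HP k (fun y => g y i j) (pd k (fun y => g y i j) x) x :=
      HP.of_diff ((hg i j).differentiable (by simp) x)
    have a2 := (a1.sub (HP.const k (if i = j then 1 else 0) x)).mul
      ((HP_nx hx k i).mul (HP_nx hx k j))
    rw [sub_zero] at a2
    exact a2
  have h2 := (HP.const k 1 x).add (HP.sum Finset.univ fun i _ => HP.sum Finset.univ fun j _ =>
    h1 i j)
  rw [zero_add] at h2
  refine HP.congr h2 ?_
  filter_upwards [isOpen_ne.mem_nhds hx] with y hy
  exact rad_sub g hy

lemma Dec.p0 (D : Dec g q) : O q (fun x => rad g x - 1) := by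
  have h1 : O q (fun x => ∑ i, ∑ j, (g x i j - if i = j then 1 else 0) * (nx i x * nx j x)) :=
    O.sum fun i _ => O.sum fun j _ => (D.g0 i j).mul' ((O_nx i).mul' (O_nx j) le_rfl)
      (by linarith)
  refine h1.congr ?_
  filter_upwards [far_ne (n := n)] with x hx
  rw [rad_sub g hx]; ring

lemma Dec.p1' (D : Dec g q) (k : Fin n) : O (q + 1) (drad g k) := by
  refine O.sum fun i _ => O.sum fun j _ => ?_
  refine O.add ((D.g1 i j k).mul' ((O_nx i).mul' (O_nx j) le_rfl) (by linarith)) ?_
  refine (D.g0 i j).mul' (q := 1) (O.add ?_ ?_) le_rfl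
  · exact (O_dnx k i).mul' (O_nx j) (by linarith)
  · exact (O_nx i).mul' (O_dnx k j) (by linarith)

namespace Lapse

variable (h : Lapse G g R)
include h

lemma G_eq {x : E n} (hx : R ≤ len x) (i j : Fin n) :
    G x i j = g x i j - (rad g x - 1) * (nx i x * nx j x) := by
  rw [h.eq x hx i j]; ring

lemma G_near {x : E n} (hx : R < len x) (i j : Fin n) : (fun y => G y i j) =ᶠ[𝓝 x]
    fun y => g y i j - (rad g y - 1) * (nx i y * nx j y) := by
  filter_upwards [(isOpen_out R).mem_nhds hx] with y hy
  exact h.G_eq (le_of_lt hy) i j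

lemma pdG {x : E n} (hx : R < len x) (i j k : Fin n) : pd k (fun y => G y i j) x =
    pd k (fun y => g y i j) x - (drad g k x * (nx i x * nx j x) +
      (rad g x - 1) * (dnx k i x * nx j x + nx i x * dnx k j x)) := by
  have hx0 := h.ne_zero hx.le
  have a1 : HP k (fun y => g y i j) (pd k (fun y => g y i j) x) x :=
    HP.of_diff ((h.gs i j).differentiable (by simp) x)
  have a2 := ((HP_rad h.gs hx0 k).sub (HP.const k 1 x)).mul ((HP_nx hx0 k i).mul (HP_nx hx0 k j))
  rw [sub_zero] at a2
  exact (HP.congr (a1.sub a2) (h.G_near hx i j)).pd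

omit h in
lemma far_out : ∀ᶠ x in far n, R < len x := far_gt R

lemma dec (D : Dec g q) : Dec G q := by
  constructor
  · intro i j
    have h1 : O q (fun x => (g x i j - if i = j then 1 else 0) - (rad g x - 1) *
        (nx i x * nx j x)) :=
      (D.g0 i j).sub (D.p0.mul' ((O_nx i).mul' (O_nx j) le_rfl) (by linarith))
    refine h1.congr ?_
    filter_upwards [(far_out (n := n) (R := R))] with x hx
    rw [h.G_eq hx.le i j]; ring
  · intro i j k
    have h1 : O (q + 1) (fun x => pd k (fun y => g y i j) x - (drad g k x * (nx i x * nx j x) +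
        (rad g x - 1) * (dnx k i x * nx j x + nx i x * dnx k j x))) := by
      refine (D.g1 i j k).sub (O.add ?_ ?_)
      · exact (D.p1' k).mul' ((O_nx i).mul' (O_nx j) le_rfl) (by linarith)
      · refine D.p0.mul' (q := 1) (O.add ?_ ?_) le_rfl
        · exact (O_dnx k i).mul' (O_nx j) (by linarith)
        · exact (O_nx i).mul' (O_dnx k j) (by linarith)
    refine h1.congr ?_
    filter_upwards [(far_out (n := n) (R := R))] with x hx
    exact (h.pdG hx i j k).symm

lemma up0 (hq : 0 < q) (D : Dec g q) (i j : Fin n) :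
    O q (fun x => up G i j x - if i = j then 1 else 0) := by
  refine O_inv_mat hq (g := fun x => mat G x) ?_ (h.dec D).g0 i j
  filter_upwards [(far_out (n := n) (R := R))] with x hx
  exact h.det_ne hx.le

/-- the trace of the background -/
lemma HP_trG {x : E n} (k : Fin n) :
    HP k (fun y => ∑ i, G y i i) (∑ i, pd k (fun y => G y i i) x) x :=
  HP.sum Finset.univ fun i _ => HP.of_diff ((h.Gs i i).differentiable (by simp) x)

/-- `H - (n - 1) / r` and the radial derivative of the trace -/
lemma H_tr (hq : 0 < q) (D : Dec g q) {B : Bg n} (hB : B.Fits G) :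
    O (q + q + 1) (fun x => (B.H (len x) - ((n : ℝ) - 1) / len x) -
      1 / 2 * dN (fun y => ∑ i, G y i i) x) := by
  have h1 : O (q + q + 1) (fun x => 1 / 2 * ∑ i, nx i x * ∑ k, ∑ l,
      (up G k l x - if k = l then 1 else 0) * pd i (fun y => G y k l) x) := by
    refine O.const_mul _ (O.sum fun i _ => ?_)
    refine (O_nx i).mul' (q := q + q + 1) (O.sum fun k _ => O.sum fun l _ => ?_) (by linarith)
    exact (h.up0 hq D k l).mul' ((h.dec D).g1 k l i) (by linarith)
  refine h1.congr ?_
  filter_upwards [far_gt (n := n) B.R, far_ne (n := n)] with x hx hx0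
  have e1 : ∑ i, nx i x * Lg G i x = B.H (len x) - ((n : ℝ) - 1) / len x := by
    have : ∀ i, nx i x * Lg G i x = (B.H (len x) - ((n : ℝ) - 1) / len x) * (nx i x * nx i x) := by
      intro i; rw [hB.hL x hx i]; ring
    simp only [this, ← Finset.mul_sum, sum_nx_mul hx0, mul_one]
  rw [← e1]
  unfold dN
  simp only [(h.HP_trG _).pd]
  unfold Lg
  simp only [Finset.mul_sum, ← Finset.sum_sub_distrib]
  refine Finset.sum_congr rfl fun i _ => Finset.sum_congr rfl fun k _ => ?_
  have e2 : 1 / 2 * (nx i x * pd i (fun y => G y k k) x) =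
      ∑ l, 1 / 2 * (nx i x * ((if k = l then 1 else 0) * pd i (fun y => G y k l) x)) := by
    simp
  rw [e2, ← Finset.sum_sub_distrib]
  refine Finset.sum_congr rfl fun l _ => ?_
  ring

end Lapse

end Vale.Agent.T4
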