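import Vale.Agent.P366.T4.E919b

/-! T4, block E, part c: the energy density and the volume density of the background. -/

open MeasureTheory Metric Filter Topology Set
open scoped ContDiff ENNReal

noncomputable section
namespace Vale.Agent.T4
open Vale.Agent.P366.Stmt Vale.Agent.P366.T2
open Vale.Agent.P366.T1.A919 (far far_iff far_of far_gt far_nhds O O_iff O_of_bigO O_const O_zero
  O_of_le O_inv_mat tail_bound)

variable {n : ℕ} {G g K : Field n} {R q : ℝ}

/-- the energy density of the coordinate spheres -/
def eden (g : Field n) (x : E n) : ℝ :=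
  ∑ i, (∑ j, (pd j (fun y => g y i j) x - pd i (fun y => g y j j) x)) / 2 * (x i / len x)

/-- the trace of the background -/
def trG (G : Field n) (y : E n) : ℝ := ∑ i, G y i i

namespace Lapse

variable (h : Lapse G g R)
include h

/-- the divergence of the background -/
lemma sum_pdG {x : E n} (hx : R < len x) :
    ∑ i, ∑ j, nx i x * pd j (fun y => G y i j) x = ((n : ℝ) - trG G x) / len x := by
  have hx0 := h.ne_zero hx.le
  have h1 : ∀ j, ∑ i, (dnx j i x * G x i j + nx i x * pd j (fun y => G y i j) x) =
      dnx j j x := by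
    intro j
    have a1 : HP j (fun y => ∑ i, nx i y * G y i j)
        (∑ i, (dnx j i x * G x i j + nx i x * pd j (fun y => G y i j) x)) x :=
      HP.sum Finset.univ fun i _ => (HP_nx hx0 j i).mul
        (HP.of_diff ((h.Gs i j).differentiable (by simp) x))
    have a2 : HP j (fun y => ∑ i, nx i y * G y i j) (dnx j j x) x := by
      refine HP.congr (HP_nx hx0 j j) ?_
      filter_upwards [(isOpen_out R).mem_nhds hx] with y hy
      exact h.nx_G (le_of_lt hy) j
    exact a1.pd.symm.trans a2.pd
  have h2 : ∑ j, ∑ i, dnx j i x * G x i j = (trG G x - 1) / len x := by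
    have e1 : ∀ j i, dnx j i x * G x i j =
        ((if i = j then G x i j else 0) - nx j x * (nx i x * G x i j)) / len x := by
      intro j i
      unfold dnx
      split_ifs <;> ring
    simp only [e1, ← Finset.sum_div, Finset.sum_sub_distrib, ← Finset.mul_sum,
      h.nx_G hx.le, sum_nx_mul hx0]
    simp [trG]
  have h3 : ∑ j, ∑ i, (dnx j i x * G x i j + nx i x * pd j (fun y => G y i j) x) =
      ((n : ℝ) - 1) / len x := by
    simp only [h1]
    exact sum_dnx hx0
  simp only [Finset.sum_add_distrib] at h3
  rw [h2] at h3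
  rw [Finset.sum_comm]
  have h4 : ∑ j, ∑ i, nx i x * pd j (fun y => G y i j) x =
      ((n : ℝ) - 1) / len x - (trG G x - 1) / len x := by linarith
  rw [h4]
  ring

/-- **the energy density** -/
lemma eden_eq {x : E n} (hx : R < len x) : 2 * len x * eden g x =
    ((n : ℝ) - 1) * (rad g x - 1) - (trG G x - n) - len x * dN (trG G) x := by
  have hx0 := h.ne_zero hx.le
  have hl := len_ne hx0
  have hpd : ∀ i j k, pd k (fun y => g y i j) x = pd k (fun y => G y i j) x +
      (drad g k x * (nx i x * nx j x) +
      (rad g x - 1) * (dnx k i x * nx j x + nx i x * dnx k j x)) := by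
    intro i j k
    rw [h.pdG hx i j k]; ring
  have hN := sum_nx_mul hx0
  -- the four sums
  have s1 : ∑ i, ∑ j, nx i x * (drad g j x * (nx i x * nx j x)) = ∑ j, nx j x * drad g j x := by
    have : ∀ i, ∑ j, nx i x * (drad g j x * (nx i x * nx j x)) =
        (nx i x * nx i x) * ∑ j, nx j x * drad g j x := by
      intro i
      rw [Finset.mul_sum]
      exact Finset.sum_congr rfl fun j _ => by ring
    simp only [this, ← Finset.sum_mul, hN, one_mul]
  have s2 : ∑ i, ∑ j, nx i x * (drad g i x * (nx j x * nx j x)) = ∑ j, nx j x * drad g j x := by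
    have : ∀ i, ∑ j, nx i x * (drad g i x * (nx j x * nx j x)) = nx i x * drad g i x := by
      intro i
      rw [← mul_one (nx i x * drad g i x), ← hN, Finset.mul_sum]
      exact Finset.sum_congr rfl fun j _ => by ring
    simp only [this]
  have s3 : ∑ i, ∑ j, nx i x * (dnx j i x * nx j x) = 0 := by
    rw [Finset.sum_comm]
    have : ∀ j, ∑ i, nx i x * (dnx j i x * nx j x) = nx j x * ∑ i, nx i x * dnx j i x := by
      intro j
      rw [Finset.mul_sum]
      exact Finset.sum_congr rfl fun i _ => by ring
    simp only [this, sum_nx_dnx hx0, mul_zero, Finset.sum_const_zero]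
  have s4 : ∑ i, ∑ j, nx i x * (nx i x * dnx j j x) = ((n : ℝ) - 1) / len x := by
    have : ∀ i, ∑ j, nx i x * (nx i x * dnx j j x) = (nx i x * nx i x) * ∑ j, dnx j j x := by
      intro i
      rw [Finset.mul_sum]
      exact Finset.sum_congr rfl fun j _ => by ring
    simp only [this, ← Finset.sum_mul, hN, one_mul]
    exact sum_dnx hx0
  have s5 : ∑ i, ∑ j, nx i x * (dnx i j x * nx j x + nx j x * dnx i j x) = 0 := by
    have : ∀ i, ∑ j, nx i x * (dnx i j x * nx j x + nx j x * dnx i j x) =
        2 * nx i x * ∑ j, nx j x * dnx i j x := by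
      intro i
      rw [Finset.mul_sum]
      exact Finset.sum_congr rfl fun j _ => by ring
    simp only [this, sum_nx_dnx hx0, mul_zero, Finset.sum_const_zero]
  have s6 : ∑ i, ∑ j, nx i x * pd i (fun y => G y j j) x = dN (trG G) x := by
    unfold dN trG
    simp only [(h.HP_trG _).pd, Finset.mul_sum]
  have s0 := h.sum_pdG hx
  have e1 : 2 * eden g x = ∑ i, ∑ j, nx i x * (pd j (fun y => g y i j) x -
      pd i (fun y => g y j j) x) := by
    unfold eden
    rw [Finset.mul_sum]
    refine Finset.sum_congr rfl fun i _ => ?_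
    rw [← Finset.mul_sum]
    unfold nx
    ring
  have e2 : ∀ i j, nx i x * (pd j (fun y => g y i j) x - pd i (fun y => g y j j) x) =
      nx i x * pd j (fun y => G y i j) x - nx i x * pd i (fun y => G y j j) x +
      nx i x * (drad g j x * (nx i x * nx j x)) - nx i x * (drad g i x * (nx j x * nx j x)) +
      (rad g x - 1) * (nx i x * (dnx j i x * nx j x)) +
      (rad g x - 1) * (nx i x * (nx i x * dnx j j x)) -
      (rad g x - 1) * (nx i x * (dnx i j x * nx j x + nx j x * dnx i j x)) := by
    intro i j
    rw [hpd i j j, hpd j j i]; ring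
  have e3 : 2 * eden g x = ((n : ℝ) - trG G x) / len x - dN (trG G) x +
      (rad g x - 1) * (((n : ℝ) - 1) / len x) := by
    rw [e1]
    simp only [e2, Finset.sum_add_distrib, Finset.sum_sub_distrib, ← Finset.mul_sum]
    simp only [Finset.sum_add_distrib, ← Finset.mul_sum] at s0 s1 s2 s3 s4 s5 s6
    rw [s0, s1, s2, s3, s4, s5, s6]
    ring
  have e4 : 2 * len x * eden g x = len x * (2 * eden g x) := by ring
  rw [e4, e3]
  field_simp
  ring

end Lapse

end Vale.Agent.T4
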