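import Vale.Agent.P366.T4.E919a
import Vale.Agent.P366.T4.E919c
import Vale.Agent.P366.T4.Avg

/-! T4, block E, part d: the volume density of the background, by integration along rays. -/

open MeasureTheory Metric Filter Topology Set Asymptotics
open scoped ContDiff ENNReal

noncomputable section
namespace Vale.Agent.T4
open Vale.Agent.P366.Stmt Vale.Agent.P366.T2
open Vale.Agent.P366.T1.A919 (far far_iff far_of far_gt far_nhds O O_iff O_of_bigO O_const O_zero
  O_of_le O_inv_mat tail_bound)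
open Vale.Agent.P366.T2.E68 (O1 O2 O0)
open Vale.Agent.P366 (norm_smul_sph)

variable {n : ℕ} {G g K : Field n} {R q : ℝ}

/-- logarithm of the volume density -/
def Bg.ld (B : Bg n) (r : ℝ) : ℝ := Real.log (B.ar r / r ^ (n - 1))

lemma Bg.ld_hasDerivAt (hn : 1 ≤ n) (B : Bg n) {r : ℝ} (hr : B.R < r) :
    HasDerivAt B.ld (B.H r - ((n : ℝ) - 1) / r) r := by
  have hr0 : 0 < r := B.hR.trans hr
  have ha := B.ar_pos r hr.le
  have h1 : HasDerivAt (fun s => Real.log (B.ar s) - ((n - 1 : ℕ) : ℝ) * Real.log s)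
      (B.ar r * B.H r / B.ar r - ((n - 1 : ℕ) : ℝ) * r⁻¹) r :=
    ((B.ar_deriv r hr.le).log ha.ne').sub ((Real.hasDerivAt_log hr0.ne').const_mul _)
  have h2 : B.ld =ᶠ[𝓝 r] fun s => Real.log (B.ar s) - ((n - 1 : ℕ) : ℝ) * Real.log s := by
    filter_upwards [isOpen_Ioi.mem_nhds hr] with s hs
    have hs0 : 0 < s := B.hR.trans hs
    unfold Bg.ld
    rw [Real.log_div (B.ar_pos s (le_of_lt hs)).ne' (by positivity), Real.log_pow]
  refine (h1.congr_of_eventuallyEq h2).congr_deriv ?_
  rw [mul_div_cancel_left₀ _ ha.ne', Nat.cast_sub hn]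
  push_cast
  ring

lemma far_ray (θ : sphere (0 : E n) 1) : Tendsto (fun s : ℝ => s • (θ : E n)) atTop (far n) := by
  unfold far
  rw [tendsto_comap_iff]
  refine tendsto_id.congr' ?_
  filter_upwards [eventually_ge_atTop 0] with s hs
  simp [norm_smul_sph hs θ]

lemma O_len_mul {p r : ℝ} {f : E n → ℝ} (hf : O p f) (hr : r ≤ p - 1) :
    O r (fun x => len x * f x) := by
  have h1 : O (-1) (fun x : E n => len x) := by
    refine O.of_bound (C := 1) (far_of 0 fun x hx => ?_)
    unfold len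
    rw [neg_neg, Real.rpow_one, one_mul, abs_norm]
  exact h1.mul' hf (by linarith)

/-- radial functions -/
lemma O1_of_O (hn : 1 ≤ n) {p : ℝ} {f : ℝ → ℝ} (hf : O p (fun x : E n => f (len x))) :
    f =O[atTop] fun r : ℝ => r ^ (-p) := by
  have h1 : (0 : ℕ) < n := hn
  let θ : sphere (0 : E n) 1 := ⟨EuclideanSpace.single ⟨0, h1⟩ 1, by simp⟩
  have h2 := hf.comp_tendsto (far_ray θ)
  refine IsBigO.congr' h2 ?_ ?_
  · filter_upwards [eventually_ge_atTop 0] with s hs
    simp only [Function.comp, len, norm_smul_sph hs θ]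
  · filter_upwards [eventually_ge_atTop 0] with s hs
    simp only [Function.comp, norm_smul_sph hs θ]

lemma O_of_O1 {p : ℝ} {f : ℝ → ℝ} (hf : f =O[atTop] fun r : ℝ => r ^ (-p)) :
    O p (fun x : E n => f (len x)) :=
  hf.comp_tendsto Vale.Agent.P366.T1.A919.far_norm

lemma O2_iff {p : ℝ} {f : ℝ → ℝ} : O2 p f ↔ f =O[atTop] fun r : ℝ => r ^ (-(p + p)) := by
  have h : (fun r : ℝ => r ^ (-p) * r ^ (-p)) =ᶠ[atTop] fun r : ℝ => r ^ (-(p + p)) := by
    filter_upwards [eventually_gt_atTop 0] with r hr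
    rw [← Real.rpow_add hr]
    congr 1
    ring
  constructor
  · intro h1
    exact IsBigO.congr' h1 EventuallyEq.rfl h
  · intro h1
    exact IsBigO.congr' h1 EventuallyEq.rfl h.symm

namespace Lapse

variable (h : Lapse G g R)
include h

lemma smooth_trG : Smooth (trG G) := by
  unfold trG Smooth
  exact ContDiff.sum fun i _ => h.Gs i i

lemma trG0 (D : Dec g q) : O q (fun x => trG G x - n) := by
  have h1 : O q (fun x => ∑ i, (G x i i - if i = i then 1 else 0)) :=
    O.sum fun i _ => (h.dec D).g0 i i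
  refine h1.congr (Eventually.of_forall fun x => ?_)
  unfold trG
  simp [Finset.sum_sub_distrib]

lemma dN_trG (D : Dec g q) : O (q + 1) (dN (trG G)) := by
  have h1 : O (q + 1) (fun x => ∑ i, nx i x * ∑ k, pd i (fun y => G y k k) x) :=
    O.sum fun i _ => (O_nx i).mul' (O.sum fun k _ => (h.dec D).g1 k k i) (by linarith)
  refine h1.congr (Eventually.of_forall fun x => ?_)
  unfold dN trG
  simp only [(h.HP_trG _).pd]

lemma ray_tr (θ : sphere (0 : E n) 1) {s : ℝ} (hs : 0 < s) :
    HasDerivAt (fun s : ℝ => trG G (s • (θ : E n))) (dN (trG G) (s • (θ : E n))) s := by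
  have h1 : DifferentiableAt ℝ (trG G) (s • (θ : E n)) :=
    h.smooth_trG.differentiable (by simp) _
  have h2 : HasDerivAt (fun s : ℝ => s • (θ : E n)) (θ : E n) s := by
    have := (hasDerivAt_id s).smul_const (θ : E n)
    simpa using this
  have h3 := h1.hasFDerivAt.comp_hasDerivAt s h2
  rw [fderiv_nx le_rfl ((h.smooth_trG.of_le (by simp)).contDiffOn) hs θ] at h3
  exact h3

lemma det_lim (hq : 0 < q) (D : Dec g q) (θ : sphere (0 : E n) 1) :
    Tendsto (fun s : ℝ => (mat G (s • (θ : E n))).det) atTop (𝓝 1) := by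
  have h1 : Tendsto (fun s : ℝ => mat G (s • (θ : E n))) atTop
      (𝓝 (1 : Matrix (Fin n) (Fin n) ℝ)) := by
    refine tendsto_pi_nhds.2 fun i => tendsto_pi_nhds.2 fun j => ?_
    have h2 := (((h.dec D).g0 i j).tendsto hq).comp (far_ray θ)
    have h3 := h2.add_const (if i = j then (1 : ℝ) else 0)
    rw [zero_add] at h3
    rw [Matrix.one_apply]
    refine h3.congr fun s => ?_
    simp [mat]
  have h4 := (Continuous.matrix_det continuous_id).tendsto (1 : Matrix (Fin n) (Fin n) ℝ)
  have h5 := h4.comp h1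
  simpa [Function.comp_def] using h5

lemma ld_lim (hq : 0 < q) (D : Dec g q) {B : Bg n} (hB : B.Fits G) (θ : sphere (0 : E n) 1) :
    Tendsto B.ld atTop (𝓝 0) := by
  have h1 := h.det_lim hq D θ
  have h2 : Tendsto (fun s : ℝ => Real.log (√(mat G (s • (θ : E n))).det)) atTop (𝓝 0) := by
    have := (Real.continuousAt_log (x := √1) (by simp)).tendsto.comp (h1.sqrt)
    simpa [Function.comp_def] using this
  refine h2.congr' ?_
  filter_upwards [eventually_ge_atTop B.R, eventually_gt_atTop 0] with s hs hs0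
  have h3 := hB.hdet (s • (θ : E n)) (by unfold len; rw [norm_smul_sph hs0.le]; exact hs)
  unfold len at h3
  rw [norm_smul_sph hs0.le] at h3
  unfold Bg.ld
  rw [← h3]
  congr 1
  field_simp

/-- **the volume density of the background** -/
lemma ld_tr (hn : 1 ≤ n) (hq : 0 < q) (D : Dec g q) {B : Bg n} (hB : B.Fits G) :
    O (q + q) (fun x => B.ld (len x) - 1 / 2 * (trG G x - n)) := by
  have h1 := h.H_tr hq D hB
  obtain ⟨C, R0, hC, hR0, hb⟩ := O_iff.mp h1
  refine O.of_bound (C := C / (q + q)) ?_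
  refine far_of (max R0 B.R) fun x hx => ?_
  have hx1 : R0 < ‖x‖ := (le_max_left _ _).trans_lt hx
  have hx2 : B.R < ‖x‖ := (le_max_right _ _).trans_lt hx
  have hx0 : 0 < ‖x‖ := by linarith
  let θ : sphere (0 : E n) 1 := ⟨‖x‖⁻¹ • x, by
    rw [mem_sphere_zero_iff_norm, norm_smul, norm_inv, norm_norm, inv_mul_cancel₀ hx0.ne']⟩
  have hθ : ‖x‖ • (θ : E n) = x := by
    show ‖x‖ • (‖x‖⁻¹ • x) = x
    rw [smul_inv_smul₀ hx0.ne']
  have key := tail_bound (φ := fun s => B.ld s - 1 / 2 * (trG G (s • (θ : E n)) - n))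
    (φ' := fun s => (B.H s - ((n : ℝ) - 1) / s) - 1 / 2 * dN (trG G) (s • (θ : E n)))
    (ρ := ‖x‖) (B := C) (q := q + q) hx0 (by linarith) ?_ ?_ ?_
  · simp only [hθ] at key
    exact key
  · intro s hs
    have hs1 : B.R < s := hx2.trans_le hs
    have hs0 : 0 < s := hx0.trans_le hs
    have a1 := (((h.ray_tr θ hs0).sub_const (n : ℝ))).const_mul (1 / 2)
    exact (B.ld_hasDerivAt hn hs1).sub a1
  · intro s hs
    have hs0 : 0 < s := hx0.trans_le hs
    have a1 := hb (s • (θ : E n)) (by rw [norm_smul_sph hs0.le]; exact hx1.trans_le hs)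
    unfold len at a1
    rw [norm_smul_sph hs0.le] at a1
    exact a1
  · have a1 := h.ld_lim hq D hB θ
    have a2 := (((h.trG0 D).tendsto hq).comp (far_ray θ)).const_mul (1 / 2)
    have a3 := a1.sub a2
    simpa [Function.comp_def] using a3

lemma ld0 (hn : 1 ≤ n) (hq : 0 < q) (D : Dec g q) {B : Bg n} (hB : B.Fits G) :
    O q (fun x : E n => B.ld (len x)) := by
  have h1 : O q (fun x => (B.ld (len x) - 1 / 2 * (trG G x - n)) + 1 / 2 * (trG G x - n)) :=
    ((h.ld_tr hn hq D hB).mono (by linarith)).add ((h.trG0 D).const_mul _)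
  exact h1.congr (Eventually.of_forall fun x => by ring)

/-- `y = r H - (n - 1)` -/
lemma yy_tr (hq : 0 < q) (D : Dec g q) {B : Bg n} (hB : B.Fits G) :
    O (q + q) (fun x => (len x * B.H (len x) - ((n : ℝ) - 1)) -
      1 / 2 * (len x * dN (trG G) x)) := by
  have h1 := O_len_mul (r := q + q) (h.H_tr hq D hB) (by linarith)
  refine h1.congr ?_
  filter_upwards [far_gt (n := n) 0] with x hx
  have hl : len x ≠ 0 := hx.ne'
  unfold trG
  field_simp

lemma yy0 (hq : 0 < q) (D : Dec g q) {B : Bg n} (hB : B.Fits G) :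
    O q (fun x : E n => len x * B.H (len x) - ((n : ℝ) - 1)) := by
  have h1 : O q (fun x : E n => len x * dN (trG G) x) :=
    O_len_mul (r := q) (h.dN_trG D) (by linarith)
  have h2 : O q (fun x => ((len x * B.H (len x) - ((n : ℝ) - 1)) -
      1 / 2 * (len x * dN (trG G) x)) + 1 / 2 * (len x * dN (trG G) x)) :=
    ((h.yy_tr hq D hB).mono (by linarith)).add (h1.const_mul _)
  exact h2.congr (Eventually.of_forall fun x => by ring)

/-- the mean curvature part of the second fundamental form -/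
lemma trK0 (hq : 0 < q) (D : Dec g q) (hK : ∀ i j, O (q + 1) (fun x => K x i j)) :
    O (q + 1) (trT G K) := by
  have h1 : O (q + 1) (fun x => ∑ i, ∑ j, (up G i j x - nx i x * nx j x) * K x i j) := by
    refine O.sum fun i _ => O.sum fun j _ => ?_
    refine O.mul' (p := 0) (O.sub ?_ ((O_nx i).mul' (O_nx j) (by linarith))) (hK i j)
      (by linarith)
    exact (h.up0 hq D i j).bdd hq.le
  exact h1.congr (Eventually.of_forall fun x => rfl)

end Lapse

end Vale.Agent.T4
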