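import Vale.Agent.P366.T4.E919d

/-! T4, block E: the limit of the mass function. -/

open MeasureTheory Metric Filter Topology Set Asymptotics
open scoped ContDiff ENNReal

noncomputable section
namespace Vale.Agent.T4
open Vale.Agent.P366.Stmt Vale.Agent.P366.T2
open Vale.Agent.P366.T1.A919 (far far_iff far_of far_gt far_nhds O O_iff O_of_bigO O_const O_zero
  O_of_le O_inv_mat tail_bound)
open Vale.Agent.P366.T2.E68 (O1 O2 O0)
open Vale.Agent.P366 (sphI sphM av norm_smul_sph integrable_sph isOpen_outside sphI_congr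
  sphI_add sphI_sub sphI_const_mul sphI_const omega_pos')

variable {n : ℕ} {G g K : Field n} {R q : ℝ}

/-- averages of decaying functions -/
lemma av_O [Nontrivial (E n)] {p : ℝ} {f : E n → ℝ} (hf : O p f) :
    (fun r => av f r) =O[atTop] fun r : ℝ => r ^ (-p) := by
  obtain ⟨C, R, hC, hR, hb⟩ := O_iff.mp hf
  have hω : 0 < Vale.Agent.P366.omega n := omega_pos'
  refine IsBigO.of_bound C ?_
  filter_upwards [eventually_gt_atTop R] with r hr
  have hr0 : 0 < r := by linarith
  unfold av sphI
  rw [norm_div, Real.norm_of_nonneg hω.le, div_le_iff₀ hω, Real.norm_eq_abs (r ^ (-p)),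
    abs_of_nonneg (Real.rpow_nonneg hr0.le _)]
  refine norm_integral_le_of_norm_le_const (Eventually.of_forall fun θ => ?_)
  have h1 := hb (r • (θ : E n)) (by rw [norm_smul_sph hr0.le]; exact hr)
  rw [norm_smul_sph hr0.le] at h1
  exact h1

lemma cont_pd {f : E n → ℝ} (hf : Smooth f) (k : Fin n) : Continuous (pd k f) := by
  have h1 : pd k f = fun x => fderiv ℝ f x (EuclideanSpace.single k (1 : ℝ)) := by
    funext x
    exact ((hf.differentiable (by simp)) x).lineDeriv_eq_fderiv
  rw [h1]
  exact (ContDiff.continuous_fderiv hf (by simp)).clm_apply continuous_const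

lemma cont_nx (i : Fin n) {b : ℝ} (hb : 0 ≤ b) : ContinuousOn (nx i) {x : E n | b < ‖x‖} := by
  intro x hx
  have hx0 : x ≠ 0 := by
    rintro rfl
    simp only [mem_ofPred_eq, norm_zero] at hx
    linarith
  exact (contDiffAt_nx (m := 0) i hx0).continuousAt.continuousWithinAt

lemma cont_eden (hg : ∀ i j, Smooth (fun x => g x i j)) {b : ℝ} (hb : 0 ≤ b) :
    ContinuousOn (eden g) {x : E n | b < ‖x‖} := by
  unfold eden
  refine continuousOn_finsetSum _ fun i _ => ContinuousOn.mul ?_ (cont_nx i hb)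
  refine ContinuousOn.div_const (continuousOn_finsetSum _ fun j _ => ?_) _
  exact ((cont_pd (hg i j) j).sub (cont_pd (hg j j) i)).continuousOn

lemma cont_rad (hg : ∀ i j, Smooth (fun x => g x i j)) {b : ℝ} (hb : 0 ≤ b) :
    ContinuousOn (rad g) {x : E n | b < ‖x‖} := by
  intro x hx
  have hx0 : x ≠ 0 := by
    rintro rfl
    simp only [mem_ofPred_eq, norm_zero] at hx
    linarith
  exact (contDiffAt_rad hg hx0).continuousAt.continuousWithinAt

/-- the five decay conditions of `IsAF` of order `q` -/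
def AFq (X : Exterior n) (q : ℝ) : Prop := ∀ i j k l,
    BigO q (fun x => X.g x i j - if i = j then 1 else 0) ∧
    BigO (q + 1) (pd k fun x => X.g x i j) ∧
    BigO (q + 1 + 1) (pd l (pd k fun x => X.g x i j)) ∧
    BigO (q + 1) (fun x => X.K x i j) ∧
    BigO (q + 1 + 1) (pd k fun x => X.K x i j)

/-- **Block E.** -/
theorem mass_lim (hn : 3 ≤ n) {X : Exterior n} {B : Bg n} (h : Lapse G X.g B.R) (hB : B.Fits G)
    (hq : (n : ℝ) / 2 - 1 < q) (hAF : AFq X q) {m : ℝ} (hm : X.IsEnergy m)
    (hlam : O2 q fun r => 2 * B.lam r * B.rho r / ((n : ℝ) - 1) - 1) {κ : ℝ → ℝ}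
    (hκ : ∀ x, B.R ≤ len x → √(rad X.g x) * trT G X.K x = κ (len x)) :
    Tendsto (fun r => B.rho r ^ ((n : ℝ) - 2) *
      (1 - Vav X.g r * (B.H r ^ 2 - κ r ^ 2) / (4 * B.lam r ^ 2))) atTop (𝓝 (2 * m)) ∧
    ∀ᶠ r in atTop, |κ r| < B.H r := by
  have hn3 : (3 : ℝ) ≤ n := by exact_mod_cast hn
  have hn1 : 1 ≤ n := by omega
  have : Nonempty (Fin n) := ⟨⟨0, by omega⟩⟩
  have : Nontrivial (E n) := inferInstance
  have hq0 : 0 < q := by linarith
  have hω : 0 < Vale.Agent.P366.omega n := omega_pos'
  have i0 : Fin n := ⟨0, by omega⟩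
  have D : Dec X.g q := ⟨fun i j => O_of_bigO (hAF i j i0 i0).1,
    fun i j k => O_of_bigO (hAF i j k i0).2.1⟩
  have hK : ∀ i j, O (q + 1) (fun x => X.K x i j) := fun i j =>
    O_of_bigO (hAF i j i0 i0).2.2.2.1
  set N : ℝ := (n : ℝ) - 1 with hN
  have hN0 : 0 < N := by linarith
  -- the functions
  have hl : O1 q B.ld := O1_of_O hn1 (h.ld0 hn1 hq0 D hB)
  have hy : O1 q (fun r => r * B.H r - N) := O1_of_O hn1 (h.yy0 hq0 D hB)
  have ha : O1 q (fun r => av (fun x => rad X.g x - 1) r) := av_O D.p0
  -- the average of `1 / p`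
  have hvi : O q (fun x => (rad X.g x)⁻¹ - 1) := D.p0.inv hq0
  have hcr : ContinuousOn (fun x => rad X.g x - 1) {x : E n | B.R < ‖x‖} :=
    (cont_rad h.gs h.hR.le).sub continuousOn_const
  have hV : O2 q fun r => Vav X.g r - 1 + av (fun x => rad X.g x - 1) r := by
    rw [O2_iff]
    have h1 : O (q + q) (fun x => (rad X.g x - 1) * (rad X.g x - 1) * (rad X.g x)⁻¹) :=
      (D.p0.mul D.p0).mul' (hvi.bdd hq0.le) (by linarith)
    have h2 : O (q + q) (fun x => (1 / rad X.g x - 1) + (rad X.g x - 1)) := by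
      refine h1.congr ?_
      filter_upwards [far_gt (n := n) B.R] with x hx
      have := (h.ppos x hx.le).ne'
      field_simp
      ring
    refine (av_O h2).congr' ?_ EventuallyEq.rfl
    filter_upwards [eventually_gt_atTop B.R] with r hr
    have hcv : ContinuousOn (fun x => 1 / rad X.g x) {x : E n | B.R < ‖x‖} :=
      h.contDiffOn_v.continuousOn
    have e1 := sphI_add (u := fun x => 1 / rad X.g x - 1) (v := fun x => rad X.g x - 1)
      h.hR.le hr (hcv.sub continuousOn_const) hcr
    have e2 := sphI_sub (u := fun x => 1 / rad X.g x) (v := fun _ => (1 : ℝ))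
      h.hR.le hr hcv continuousOn_const
    unfold Vav av
    rw [e1, e2, sphI_const]
    field_simp
  -- the trace of `K`
  have hk : O1 q (fun r => r * κ r) := by
    refine O1_of_O hn1 (O_len_mul (p := q + 1) (f := fun x : E n => κ (len x)) ?_ (by linarith))
    have h1 : O (q + 1) (fun x => √(rad X.g x) * trT G X.K x) :=
      ((D.p0.sqrt).bdd hq0.le).mul' (h.trK0 hq0 D hK) (by linarith)
    refine h1.congr ?_
    filter_upwards [far_gt (n := n) B.R] with x hx
    exact hκ x hx.le
  -- the energy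
  have hF : O (q + q) (fun x => 2 * len x * eden X.g x - N * (rad X.g x - 1) +
      (2 * B.ld (len x) + 2 * (len x * B.H (len x) - N))) := by
    have h1 : O (q + q) (fun x => 2 * (B.ld (len x) - 1 / 2 * (trG G x - n)) +
        2 * ((len x * B.H (len x) - N) - 1 / 2 * (len x * dN (trG G) x))) :=
      ((h.ld_tr hn1 hq0 D hB).const_mul 2).add ((h.yy_tr hq0 D hB).const_mul 2)
    refine h1.congr ?_
    filter_upwards [far_gt (n := n) B.R] with x hx
    rw [h.eden_eq hx]
    ring
  have hFav : (fun r => r * (2 * av (eden X.g) r) - N * av (fun x => rad X.g x - 1) r +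
      (2 * B.ld r + 2 * (r * B.H r - N))) =O[atTop] fun r : ℝ => r ^ (-(q + q)) := by
    refine (av_O hF).congr' ?_ EventuallyEq.rfl
    filter_upwards [eventually_gt_atTop B.R] with r hr
    have hr0 : 0 < r := h.hR.trans hr
    have e1 : sphI (fun x => 2 * len x * eden X.g x - N * (rad X.g x - 1) +
        (2 * B.ld (len x) + 2 * (len x * B.H (len x) - N))) r =
        sphI (fun x => 2 * r * eden X.g x - N * (rad X.g x - 1) +
        (2 * B.ld r + 2 * (r * B.H r - N))) r :=
      sphI_congr hr0.le fun x hx => by unfold len; rw [hx]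
    have hce := cont_eden h.gs h.hR.le
    have e2 := sphI_add (u := fun x => 2 * r * eden X.g x - N * (rad X.g x - 1))
      (v := fun _ => 2 * B.ld r + 2 * (r * B.H r - N)) h.hR.le hr
      ((continuousOn_const.mul hce).sub (continuousOn_const.mul hcr)) continuousOn_const
    have e3 := sphI_sub (u := fun x => 2 * r * eden X.g x) (v := fun x => N * (rad X.g x - 1))
      h.hR.le hr (continuousOn_const.mul hce) (continuousOn_const.mul hcr)
    unfold av
    rw [e1, e2, e3, sphI_const, sphI_const_mul, sphI_const_mul]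
    field_simp
  have hflx : Tendsto (fun r : ℝ => r ^ (N - 1) * (r * (2 * av (eden X.g) r))) atTop
      (𝓝 (2 * N * m)) := by
    refine (hm.const_mul (2 * N)).congr' ?_
    filter_upwards [eventually_gt_atTop 0] with r hr
    rw [Vale.Agent.P366.flx_eq]
    have e1 : Vale.Agent.P366.sphInt r (fun x => ∑ i, (∑ j, (pd j (fun y => X.g y i j) x -
        pd i (fun y => X.g y j j) x)) / 2 * (x i / ‖x‖)) = r ^ (n - 1) * sphI (eden X.g) r := rfl
    rw [e1]
    unfold av
    have e2 : r ^ (n - 1) = r ^ (N - 1) * r := by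
      rw [← Real.rpow_natCast, ← Real.rpow_add_one hr.ne']
      congr 1
      rw [Nat.cast_sub hn1, hN]
      push_cast
      ring
    rw [e2, ← hN]
    field_simp
  have hE : Tendsto (fun r : ℝ => r ^ (N - 1) * (N * av (fun x => rad X.g x - 1) r -
      2 * B.ld r - 2 * (r * B.H r - N))) atTop (𝓝 (2 * N * m)) := by
    have h1 : Tendsto (fun r : ℝ => r ^ (N - 1) * (r * (2 * av (eden X.g) r) -
        N * av (fun x => rad X.g x - 1) r + (2 * B.ld r + 2 * (r * B.H r - N)))) atTop
        (𝓝 0) := by
      have h2 := IsBigO.mul (isBigO_refl (fun r : ℝ => r ^ (N - 1)) atTop) hFav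
      refine h2.trans_tendsto ?_
      have h3 : Tendsto (fun r : ℝ => r ^ (-(2 * q - (N - 1)))) atTop (𝓝 0) :=
        tendsto_rpow_neg_atTop (by linarith)
      refine h3.congr' ?_
      filter_upwards [eventually_gt_atTop 0] with r hr
      rw [← Real.rpow_add hr]
      congr 1
      ring
    have h4 := hflx.sub h1
    rw [sub_zero] at h4
    refine h4.congr fun r => ?_
    ring
  refine mass_abs2 (N := N) (q := q) (m := m) (ℓ := B.ld) (y := fun r => r * B.H r - N)
    (V := Vav X.g) (a := fun r => av (fun x => rad X.g x - 1) r)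
    (w := fun r => 2 * B.lam r * B.rho r / N) (k := fun r => r * κ r) (ρ := B.rho) (H := B.H)
    (lam := B.lam) (κ := κ) hN0 hq0 (by linarith) hl hy ha hV hlam hk hE ?_ ?_
    (Eventually.of_forall fun r => rfl) (Eventually.of_forall fun r => rfl) ?_
  · filter_upwards [eventually_ge_atTop B.R, eventually_gt_atTop 0] with r hr hr0
    have har := B.ar_pos r hr
    have e1 : B.ar r = Real.exp (B.ld r) * r ^ N := by
      unfold Bg.ld
      rw [Real.exp_log (by positivity)]
      have e2 : r ^ N = r ^ (n - 1) := by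
        rw [← Real.rpow_natCast]
        congr 1
        rw [Nat.cast_sub hn1, hN]
        push_cast
        ring
      rw [e2]
      field_simp
    unfold Bg.rho
    rw [e1, Real.mul_rpow (Real.exp_pos _).le (by positivity), ← Real.rpow_mul hr0.le,
      ← Real.exp_mul]
    have e3 : N * (1 / ((n : ℝ) - 1)) = 1 := by
      rw [← hN]; field_simp
    rw [e3, Real.rpow_one, mul_comm]
    congr 2
    rw [← hN]; ring
  · filter_upwards [eventually_gt_atTop 0] with r hr
    field_simp
    ring
  · refine Eventually.of_forall fun r => ?_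
    have e : N - 1 = (n : ℝ) - 2 := by rw [hN]; ring
    rw [e]

end Vale.Agent.T4
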