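import Vale.Agent.P366.T4.B4m

/-! T4: the round background, first derivatives and scalar curvature. -/

open MeasureTheory Metric Filter Topology Set
open scoped ContDiff ENNReal Matrix

noncomputable section
namespace Vale.Agent.T4
open Vale.Agent.P366.Stmt Vale.Agent.P366.T2

variable {n : ℕ}

/-- the projection orthogonal to `x` -/
def Pj (i j : Fin n) (x : E n) : ℝ := (if i = j then 1 else 0) - nx i x * nx j x

lemma Pj_symm (i j : Fin n) (x : E n) : Pj i j x = Pj j i x := by
  unfold Pj
  simp only [eq_comm (a := i) (b := j)]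
  ring

section

variable {x : E n} (hx : x ≠ 0)
include hx

lemma Pj_nx (i : Fin n) : ∑ j, Pj i j x * nx j x = 0 := by
  have h1 : ∀ j, Pj i j x * nx j x = (if i = j then nx j x else 0) - nx i x * (nx j x * nx j x) := by
    intro j
    unfold Pj
    split_ifs <;> ring
  simp only [h1, Finset.sum_sub_distrib, ← Finset.mul_sum, sum_nx_mul hx]
  simp

lemma nx_Pj (j : Fin n) : ∑ i, nx i x * Pj i j x = 0 := by
  rw [← Pj_nx hx j]
  exact Finset.sum_congr rfl fun i _ => by rw [Pj_symm i j]; ring

lemma Pj_Pj (i k : Fin n) : ∑ j, Pj i j x * Pj j k x = Pj i k x := by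
  have h1 : ∀ j, Pj i j x * Pj j k x = (if i = j then Pj j k x else 0) -
      nx i x * (nx j x * Pj j k x) := by
    intro j
    conv_lhs => unfold Pj
    unfold Pj
    split_ifs <;> ring
  simp only [h1, Finset.sum_sub_distrib, ← Finset.mul_sum, nx_Pj hx]
  simp

lemma Pj_tr : ∑ i, Pj i i x = (n : ℝ) - 1 := by
  have h1 : ∀ i : Fin n, Pj i i x = 1 - nx i x * nx i x := fun i => by simp [Pj]
  simp only [h1, Finset.sum_sub_distrib, sum_nx_mul hx]
  simp

lemma Pj_HP (k i j : Fin n) :
    HP k (Pj i j) (-(1 / len x) * (Pj i k x * nx j x + nx i x * Pj j k x)) x := by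
  have h1 := (HP.const k (if i = j then (1 : ℝ) else 0) x).sub
    ((HP_nx hx k i).mul (HP_nx hx k j))
  have e : (0 : ℝ) - (((if i = k then 1 else 0) - nx i x * nx k x) / len x * nx j x +
      nx i x * (((if j = k then 1 else 0) - nx j x * nx k x) / len x)) =
      -(1 / len x) * (Pj i k x * nx j x + nx i x * Pj j k x) := by
    unfold Pj
    ring
  rw [e] at h1
  exact h1

end

/-- `G` is the round background with `a` -/
structure Round (a : ℝ → ℝ) (R : ℝ) (G : Field n) : Prop where
  hR : 0 < R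
  sm : ContDiff ℝ ∞ a
  pos : ∀ r, R ≤ r → 0 < a r
  Gs : ∀ i j, Smooth (fun x => G x i j)
  eq : ∀ x, R ≤ len x → ∀ i j, G x i j = a (len x) * Pj i j x + nx i x * nx j x

lemma hd1 {f : ℝ → ℝ} (hf : ContDiff ℝ ∞ f) (r : ℝ) : HasDerivAt f (deriv f r) r :=
  ((hf.differentiable (by norm_num)) r).hasDerivAt

lemma hd2 {f : ℝ → ℝ} (hf : ContDiff ℝ ∞ f) (r : ℝ) : HasDerivAt (deriv f) (deriv (deriv f) r) r := by
  exact hd1 (contDiff_infty_iff_deriv.1 hf).2 r

namespace Round

variable {a : ℝ → ℝ} {R : ℝ} {G : Field n} (h : Round a R G) {x : E n}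
include h

lemma ne0 (hx : R ≤ len x) : x ≠ 0 := ne_zero_of_len h.hR hx

lemma lpos (hx : R ≤ len x) : 0 < len x := h.hR.trans_le hx

lemma nhd (hx : R < len x) : ∀ᶠ y in 𝓝 x, R ≤ len y := by
  filter_upwards [(isOpen_out R).mem_nhds hx] with y hy
  exact le_of_lt hy

lemma symm (hx : R ≤ len x) (i j : Fin n) : G x i j = G x j i := by
  rw [h.eq x hx, h.eq x hx, Pj_symm]
  ring

lemma mul_inv (hx : R ≤ len x) : mat G x * Matrix.of (fun i j => 1 / a (len x) * Pj i j x +
    nx i x * nx j x) = 1 := by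
  have hx0 := h.ne0 hx
  have ha := (h.pos _ hx).ne'
  ext i k
  rw [Matrix.mul_apply, Matrix.one_apply]
  have h1 : ∀ j, mat G x i j * Matrix.of (fun i j => 1 / a (len x) * Pj i j x +
      nx i x * nx j x) j k = Pj i j x * Pj j k x + a (len x) * nx k x * (Pj i j x * nx j x) +
      1 / a (len x) * nx i x * (nx j x * Pj j k x) + nx i x * nx k x * (nx j x * nx j x) := by
    intro j
    rw [Matrix.of_apply, show mat G x i j = G x i j from rfl, h.eq x hx]
    field_simp
    ring
  simp only [h1, Finset.sum_add_distrib, ← Finset.mul_sum, Pj_Pj hx0, Pj_nx hx0, nx_Pj hx0,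
    sum_nx_mul hx0]
  unfold Pj
  ring

lemma up_eq (hx : R ≤ len x) (i j : Fin n) :
    up G i j x = 1 / a (len x) * Pj i j x + nx i x * nx j x := by
  unfold up
  rw [Matrix.inv_eq_right_inv (h.mul_inv hx)]
  rfl

lemma det_ne (hx : R ≤ len x) : (mat G x).det ≠ 0 := by
  have h1 := congrArg Matrix.det (h.mul_inv hx)
  rw [Matrix.det_mul, Matrix.det_one] at h1
  exact left_ne_zero_of_mul_eq_one h1

lemma G_HP (hx : R < len x) (m i j : Fin n) : HP m (fun y => G y i j)
    (deriv a (len x) * (nx m x * Pj i j x) + (1 - a (len x)) / len x *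
      (Pj i m x * nx j x + nx i x * Pj j m x)) x := by
  have hx0 := h.ne0 hx.le
  have hr := (h.lpos hx.le).ne'
  have h1 := ((HP.radial hx0 (hd1 h.sm (len x)) m).mul (Pj_HP hx0 m i j)).add
    ((HP_nx hx0 m i).mul (HP_nx hx0 m j))
  have h2 : (fun y => G y i j) =ᶠ[𝓝 x] fun y => a (len y) * Pj i j y + nx i y * nx j y := by
    filter_upwards [h.nhd hx] with y hy
    exact h.eq y hy i j
  have h3 := h1.congr h2
  have e : deriv a (len x) / len x * x m * Pj i j x +
      a (len x) * (-(1 / len x) * (Pj i m x * nx j x + nx i x * Pj j m x)) +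
      (((if i = m then 1 else 0) - nx i x * nx m x) / len x * nx j x +
        nx i x * (((if j = m then 1 else 0) - nx j x * nx m x) / len x)) =
      deriv a (len x) * (nx m x * Pj i j x) + (1 - a (len x)) / len x *
      (Pj i m x * nx j x + nx i x * Pj j m x) := by
    unfold Pj nx
    field_simp
    ring
  rw [e] at h3
  exact h3

lemma U_HP (hx : R < len x) (m i j : Fin n) : HP m (up G i j)
    (-(deriv a (len x) / a (len x) ^ 2) * (nx m x * Pj i j x) + (1 - 1 / a (len x)) / len x *
      (Pj i m x * nx j x + nx i x * Pj j m x)) x := by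
  have hx0 := h.ne0 hx.le
  have hr := (h.lpos hx.le).ne'
  have ha := (h.pos _ hx.le).ne'
  have hu : HasDerivAt (fun r => 1 / a r) (-(deriv a (len x) / a (len x) ^ 2)) (len x) := by
    have := (hasDerivAt_const (len x) (1 : ℝ)).div (hd1 h.sm (len x)) ha
    refine this.congr_deriv ?_
    ring
  have h1 := ((HP.radial hx0 hu m).mul (Pj_HP hx0 m i j)).add
    ((HP_nx hx0 m i).mul (HP_nx hx0 m j))
  have h2 : (up G i j) =ᶠ[𝓝 x] fun y => 1 / a (len y) * Pj i j y + nx i y * nx j y := by
    filter_upwards [h.nhd hx] with y hy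
    exact h.up_eq hy i j
  have h3 := h1.congr h2
  have e : -(deriv a (len x) / a (len x) ^ 2) / len x * x m * Pj i j x +
      1 / a (len x) * (-(1 / len x) * (Pj i m x * nx j x + nx i x * Pj j m x)) +
      (((if i = m then 1 else 0) - nx i x * nx m x) / len x * nx j x +
        nx i x * (((if j = m then 1 else 0) - nx j x * nx m x) / len x)) =
      -(deriv a (len x) / a (len x) ^ 2) * (nx m x * Pj i j x) + (1 - 1 / a (len x)) / len x *
      (Pj i m x * nx j x + nx i x * Pj j m x) := by
    unfold Pj nx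
    field_simp
    ring
  rw [e] at h3
  exact h3

/-- contraction with the inverse metric -/
lemma U_con (hx : R ≤ len x) (f k : ℝ) :
    ∑ i, ∑ j, up G i j x * (f * (nx i x * nx j x) + k * Pj i j x) =
      f + k * (((n : ℝ) - 1) / a (len x)) := by
  have hx0 := h.ne0 hx
  have h1 : ∀ i j, up G i j x * (f * (nx i x * nx j x) + k * Pj i j x) =
      f / a (len x) * nx i x * (Pj i j x * nx j x) + k / a (len x) * (Pj i j x * Pj j i x) +
      f * (nx i x * nx i x) * (nx j x * nx j x) + k * nx j x * (nx i x * Pj i j x) := by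
    intro i j
    rw [h.up_eq hx, Pj_symm j i]
    ring
  simp only [h1, Finset.sum_add_distrib, ← Finset.mul_sum, Pj_nx hx0, Pj_Pj hx0, sum_nx_mul hx0,
    Pj_tr hx0]
  rw [Finset.sum_comm]
  simp only [← Finset.mul_sum, nx_Pj hx0, mul_zero, Finset.sum_const_zero, mul_one,
    sum_nx_mul hx0]
  ring

lemma L_eq (hx : R < len x) (m : Fin n) :
    Lg G m x = ((n : ℝ) - 1) * deriv a (len x) / (2 * a (len x)) * nx m x := by
  have hx0 := h.ne0 hx.le
  have ha := (h.pos _ hx.le).ne'
  unfold Lg
  have h1 : ∀ i j, up G i j x * pd m (fun y => G y i j) x =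
      deriv a (len x) * nx m x / a (len x) * (Pj i j x * Pj j i x) +
      (1 - a (len x)) / len x / a (len x) * Pj i m x * (Pj i j x * nx j x) +
      (1 - a (len x)) / len x / a (len x) * nx i x * (Pj i j x * Pj j m x) +
      deriv a (len x) * nx m x * nx i x * (Pj i j x * nx j x) +
      (1 - a (len x)) / len x * (nx i x * Pj i m x) * (nx j x * nx j x) +
      (1 - a (len x)) / len x * (nx i x * nx i x) * (nx j x * Pj j m x) := by
    intro i j
    rw [h.up_eq hx.le, (h.G_HP hx m i j).pd, Pj_symm j i]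
    ring
  simp only [h1, Finset.sum_add_distrib, ← Finset.mul_sum, Pj_nx hx0, Pj_Pj hx0, sum_nx_mul hx0,
    Pj_tr hx0, nx_Pj hx0, mul_zero, mul_one, add_zero]
  have h2 : ∑ i, (1 - a (len x)) / len x / a (len x) * nx i x * Pj i m x = 0 := by
    have e : ∀ i, (1 - a (len x)) / len x / a (len x) * nx i x * Pj i m x =
        (1 - a (len x)) / len x / a (len x) * (nx i x * Pj i m x) := fun i => by ring
    simp only [e, ← Finset.mul_sum, nx_Pj hx0, mul_zero]
  rw [h2]
  simp only [add_zero]
  field_simp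

end Round

end Vale.Agent.T4
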