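import Vale.Agent.P366.T4.Slice
import Vale.Agent.P366.T4.Basic

/-! T4: the Christoffel symbols of the Schwarzschild–Tangherlini metric. -/

open MeasureTheory Metric Filter Topology Set
open scoped ContDiff Matrix

noncomputable section
namespace Vale.Agent.T4
open Vale.Agent.P366.Stmt Vale.Agent.P366.T2

variable {n : ℕ}

/-- `f` as a function of the radius -/
def phi (n : ℕ) (M r : ℝ) : ℝ := 1 - 2 * M / r ^ (n - 2)

/-- `(1 / f - 1) / r²` -/
def wf (n : ℕ) (M r : ℝ) : ℝ := (1 / phi n M r - 1) / r ^ 2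

lemma stF_eq (M : ℝ) (y : E n) : stF M y = phi n M (len y) := rfl

lemma phi_hasDerivAt (M : ℝ) {r : ℝ} (hr : r ≠ 0) :
    HasDerivAt (phi n M) (deriv (phi n M) r) r := by
  have : DifferentiableAt ℝ (phi n M) r := by
    unfold phi
    have : r ^ (n - 2) ≠ 0 := pow_ne_zero _ hr
    fun_prop (disch := assumption)
  exact this.hasDerivAt

lemma deriv_phi (M : ℝ) {r : ℝ} (hr : r ≠ 0) :
    deriv (phi n M) r = 2 * M * ((n - 2 : ℕ) : ℝ) / (r ^ (n - 2) * r) := by
  have h1 : HasDerivAt (fun r : ℝ => r ^ (n - 2)) (((n - 2 : ℕ) : ℝ) * r ^ (n - 2 - 1)) r :=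
    hasDerivAt_pow _ _
  have h0 : r ^ (n - 2) ≠ 0 := pow_ne_zero _ hr
  have h2 := ((hasDerivAt_const r (2 * M)).fun_div h1 h0).const_sub 1
  have h3 : HasDerivAt (phi n M) _ r := h2
  rw [h3.deriv]
  rcases Nat.eq_zero_or_pos (n - 2) with h4 | h4
  · rw [h4]; simp
  · have e : r ^ (n - 2) = r ^ (n - 2 - 1) * r := by
      rw [← pow_succ]; congr 1; omega
    have h5 : r ^ (n - 2 - 1) ≠ 0 := pow_ne_zero _ hr
    rw [e]
    field_simp
    ring

lemma wf_hasDerivAt (M : ℝ) {r : ℝ} (hr : r ≠ 0) (hp : phi n M r ≠ 0) :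
    HasDerivAt (wf n M) (-(deriv (phi n M) r) / (phi n M r ^ 2 * r ^ 2) -
      2 * (1 / phi n M r - 1) / r ^ 3) r := by
  have h1 := ((hasDerivAt_const r (1 : ℝ)).fun_div (phi_hasDerivAt (n := n) M hr) hp).sub_const 1
  have h2 : HasDerivAt (fun r : ℝ => r ^ 2) (2 * r) r := by simpa using hasDerivAt_pow 2 r
  have h3 := h1.fun_div h2 (pow_ne_zero 2 hr)
  have h4 : HasDerivAt (wf n M) _ r := h3
  refine h4.congr_deriv ?_
  field_simp
  ring

lemma tang_00 (M : ℝ) (z : E (n + 1)) : tang M z 0 0 = -stF M (spc z) := rfl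
lemma tang_0s (M : ℝ) (z : E (n + 1)) (j : Fin n) : tang M z 0 j.succ = 0 := rfl
lemma tang_s0 (M : ℝ) (z : E (n + 1)) (i : Fin n) : tang M z i.succ 0 = 0 := rfl
lemma tang_ss (M : ℝ) (z : E (n + 1)) (i j : Fin n) : tang M z i.succ j.succ =
    (if i = j then 1 else 0) + wf n M (len (spc z)) * (spc z i * spc z j) := by
  have : tang M z i.succ j.succ = (if i = j then (1 : ℝ) else 0) +
      (1 / stF M (spc z) - 1) * (spc z i * spc z j / len (spc z) ^ 2) := rfl
  rw [this, stF_eq]
  unfold wf
  ring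

lemma tang_symm (M : ℝ) (z : E (n + 1)) (a b : Fin (n + 1)) : tang M z a b = tang M z b a := by
  refine Fin.cases ?_ (fun i => ?_) a
  · refine Fin.cases rfl (fun j => ?_) b
    rw [tang_0s, tang_s0]
  · refine Fin.cases ?_ (fun j => ?_) b
    · rw [tang_0s, tang_s0]
    · rw [tang_ss, tang_ss]
      simp only [eq_comm (a := i) (b := j)]
      ring

/-- the inverse -/
def tangInv (M : ℝ) (z : E (n + 1)) : Matrix (Fin (n + 1)) (Fin (n + 1)) ℝ :=
  Matrix.of (Fin.cons (Fin.cons (-1 / stF M (spc z)) fun _ => 0) fun i : Fin n =>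
    Fin.cons 0 fun j : Fin n => (if i = j then (1 : ℝ) else 0) +
      (stF M (spc z) - 1) * (spc z i * spc z j / len (spc z) ^ 2))

lemma tang_mul_inv (M : ℝ) {z : E (n + 1)} (h0 : len (spc z) ≠ 0) (hf : stF M (spc z) ≠ 0) :
    mat (tang M) z * tangInv M z = 1 := by
  have hlen : ∑ k, spc z k * spc z k = len (spc z) ^ 2 := by
    rw [len_sq]
    exact Finset.sum_congr rfl fun k _ => by ring
  have i00 : tangInv M z 0 0 = -1 / stF M (spc z) := rfl
  have i0s : ∀ j : Fin n, tangInv M z 0 j.succ = 0 := fun _ => rfl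
  have is0 : ∀ j : Fin n, tangInv M z j.succ 0 = 0 := fun _ => rfl
  have iss : ∀ i j : Fin n, tangInv M z i.succ j.succ = (if i = j then (1 : ℝ) else 0) +
      (stF M (spc z) - 1) * (spc z i * spc z j / len (spc z) ^ 2) := fun _ _ => rfl
  have m : ∀ a b, mat (tang M) z a b = tang M z a b := fun _ _ => rfl
  ext a b
  rw [Matrix.mul_apply, Fin.sum_univ_succ, Matrix.one_apply]
  refine Fin.cases ?_ (fun i => ?_) a
  · refine Fin.cases ?_ (fun j => ?_) b
    · simp only [m, tang_00, i00, tang_0s, zero_mul, Finset.sum_const_zero, add_zero, if_true]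
      field_simp
    · simp only [m, tang_00, i0s, tang_0s, zero_mul, mul_zero, Finset.sum_const_zero, add_zero]
      rw [if_neg (Fin.succ_ne_zero j).symm]
  · refine Fin.cases ?_ (fun j => ?_) b
    · simp only [m, tang_s0, zero_mul, is0, mul_zero, Finset.sum_const_zero, add_zero]
      rw [if_neg (Fin.succ_ne_zero i)]
    · simp only [m, tang_s0, zero_mul, iss, tang_ss, zero_add, Fin.succ_inj]
      have e : ∀ k, ((if i = k then (1 : ℝ) else 0) + wf n M (len (spc z)) * (spc z i * spc z k)) *
          ((if k = j then 1 else 0) + (stF M (spc z) - 1) *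
            (spc z k * spc z j / len (spc z) ^ 2)) =
          (if i = k then (if k = j then 1 else 0) else 0) +
          (if i = k then (stF M (spc z) - 1) * (spc z k * spc z j / len (spc z) ^ 2) else 0) +
          (if k = j then wf n M (len (spc z)) * (spc z i * spc z k) else 0) +
          wf n M (len (spc z)) * spc z i * ((stF M (spc z) - 1) * spc z j / len (spc z) ^ 2) *
            (spc z k * spc z k) := by
        intro k
        split_ifs <;> ring
      simp only [e, Finset.sum_add_distrib, Finset.sum_ite_eq, Finset.sum_ite_eq',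
        Finset.mem_univ, if_true, ← Finset.mul_sum, hlen]
      unfold wf
      rw [← stF_eq]
      field_simp
      ring

lemma tang_up (M : ℝ) {z : E (n + 1)} (h0 : len (spc z) ≠ 0) (hf : stF M (spc z) ≠ 0)
    (a l : Fin (n + 1)) : ∑ b, tang M z a b * up (tang M) b l z = if a = l then 1 else 0 := by
  have h1 : (mat (tang M) z)⁻¹ = tangInv M z := Matrix.inv_eq_right_inv (tang_mul_inv M h0 hf)
  have h2 := congrFun (congrFun (tang_mul_inv M h0 hf) a) l
  rw [Matrix.mul_apply, Matrix.one_apply] at h2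
  rw [← h2]
  refine Finset.sum_congr rfl fun b _ => ?_
  unfold up
  rw [h1]
  rfl

/-- Christoffel symbols of the first kind -/
lemma tang_chr (M : ℝ) {z : E (n + 1)} (h0 : len (spc z) ≠ 0) (hf : stF M (spc z) ≠ 0)
    (a c d : Fin (n + 1)) : ∑ b, tang M z a b * chr (tang M) b c d z =
      (pd c (fun y => tang M y d a) z + pd d (fun y => tang M y c a) z -
        pd a (fun y => tang M y c d) z) / 2 := by
  unfold chr
  have e : ∀ b, tang M z a b * ((∑ l, up (tang M) b l z * (pd c (fun y => tang M y d l) z +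
      pd d (fun y => tang M y c l) z - pd l (fun y => tang M y c d) z)) / 2) =
      ∑ l, tang M z a b * up (tang M) b l z * ((pd c (fun y => tang M y d l) z +
      pd d (fun y => tang M y c l) z - pd l (fun y => tang M y c d) z) / 2) := by
    intro b
    rw [Finset.sum_div, Finset.mul_sum]
    exact Finset.sum_congr rfl fun l _ => by ring
  simp only [e]
  rw [Finset.sum_comm]
  simp only [← Finset.sum_mul, tang_up M h0 hf]
  simp

/-! ### derivatives -/

lemma spc_add (z : E (n + 1)) (t : ℝ) (k : Fin n) :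
    spc (z + t • EuclideanSpace.single k.succ (1 : ℝ)) =
      spc z + t • EuclideanSpace.single k (1 : ℝ) := by
  ext i
  simp [spc]

lemma spc_add0 (z : E (n + 1)) (t : ℝ) :
    spc (z + t • EuclideanSpace.single 0 (1 : ℝ)) = spc z := by
  ext i
  simp [spc]

lemma HP_spc {F : E n → ℝ} {z : E (n + 1)} {k : Fin n} {d : ℝ} (h : HP k F d (spc z)) :
    HP k.succ (fun y => F (spc y)) d z := by
  unfold HP HasLineDerivAt at *
  simp only [spc_add]
  exact h

lemma HP_spc0 (F : E n → ℝ) (z : E (n + 1)) : HP 0 (fun y => F (spc y)) 0 z := by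
  unfold HP HasLineDerivAt
  simp only [spc_add0]
  exact hasDerivAt_const _ _

/-- partial derivatives of the metric -/
def dT (n : ℕ) (M : ℝ) (z : E (n + 1)) (c a b : Fin (n + 1)) : ℝ := pd c (fun y => tang M y a b) z

lemma dT_0 (M : ℝ) (z : E (n + 1)) (a b : Fin (n + 1)) : dT n M z 0 a b = 0 := by
  unfold dT
  refine Fin.cases ?_ (fun i => ?_) a
  · refine Fin.cases ?_ (fun j => ?_) b
    · simp only [tang_00]
      exact (HP_spc0 (fun y => -stF M y) z).pd
    · simp only [tang_0s]
      exact (HP.const 0 (0 : ℝ) z).pd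
  · refine Fin.cases ?_ (fun j => ?_) b
    · simp only [tang_s0]
      exact (HP.const 0 (0 : ℝ) z).pd
    · simp only [tang_ss]
      exact (HP_spc0 (fun y => (if i = j then 1 else 0) + wf n M (len y) * (y i * y j)) z).pd

lemma dT_00 (M : ℝ) {z : E (n + 1)} (h0 : spc z ≠ 0) (k : Fin n) : dT n M z k.succ 0 0 =
    -(deriv (phi n M) (len (spc z)) / len (spc z) * spc z k) := by
  unfold dT
  simp only [tang_00]
  have h1 := (HP.radial h0 (phi_hasDerivAt (n := n) M (len_ne h0)) k).neg
  exact (HP_spc (F := fun y => -stF M y) h1).pd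

lemma dT_0s (M : ℝ) (z : E (n + 1)) (k : Fin n) (j : Fin n) : dT n M z k.succ 0 j.succ = 0 := by
  unfold dT
  simp only [tang_0s]
  exact (HP.const _ (0 : ℝ) z).pd

lemma dT_s0 (M : ℝ) (z : E (n + 1)) (k : Fin n) (j : Fin n) : dT n M z k.succ j.succ 0 = 0 := by
  unfold dT
  simp only [tang_s0]
  exact (HP.const _ (0 : ℝ) z).pd

lemma dT_ss (M : ℝ) {z : E (n + 1)} (h0 : spc z ≠ 0) (hf : stF M (spc z) ≠ 0) (k i j : Fin n) :
    dT n M z k.succ i.succ j.succ =
      deriv (wf n M) (len (spc z)) / len (spc z) * spc z k * (spc z i * spc z j) +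
      wf n M (len (spc z)) * ((if i = k then 1 else 0) * spc z j +
        spc z i * (if j = k then 1 else 0)) := by
  unfold dT
  simp only [tang_ss]
  have hw := (wf_hasDerivAt (n := n) M (len_ne h0) hf).differentiableAt.hasDerivAt
  have h1 := (HP.const k (if i = j then (1 : ℝ) else 0) (spc z)).add
    ((HP.radial h0 hw k).mul ((HP.coord k i (spc z)).mul (HP.coord k j (spc z))))
  have h2 := (HP_spc (F := fun y => (if i = j then (1 : ℝ) else 0) +
    wf n M (len y) * (y i * y j)) h1).pd
  rw [h2]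
  ring

/-- Euclidean product of the spatial parts of two vectors -/
def dsp (X Y : Fin (n + 1) → ℝ) : ℝ := ∑ i : Fin n, X i.succ * Y i.succ

/-- Euclidean product with the position -/
def dy (z : E (n + 1)) (X : Fin (n + 1) → ℝ) : ℝ := ∑ i : Fin n, spc z i * X i.succ

lemma dT_contract (M : ℝ) {z : E (n + 1)} (h0 : spc z ≠ 0) (hf : stF M (spc z) ≠ 0)
    (X Y N : Fin (n + 1) → ℝ) :
    ∑ c, ∑ a, ∑ b, dT n M z c a b * X c * Y a * N b =
      -(deriv (phi n M) (len (spc z)) / len (spc z)) * dy z X * Y 0 * N 0 +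
      deriv (wf n M) (len (spc z)) / len (spc z) * dy z X * dy z Y * dy z N +
      wf n M (len (spc z)) * (dsp X Y * dy z N + dsp X N * dy z Y) := by
  rw [Fin.sum_univ_succ]
  simp only [dT_0, zero_mul, Finset.sum_const_zero, zero_add]
  have e1 : ∀ k : Fin n, ∑ a, ∑ b, dT n M z k.succ a b * X k.succ * Y a * N b =
      -(deriv (phi n M) (len (spc z)) / len (spc z)) * Y 0 * N 0 * (spc z k * X k.succ) +
      (deriv (wf n M) (len (spc z)) / len (spc z) * dy z Y * dy z N * (spc z k * X k.succ) +
      wf n M (len (spc z)) * dy z N * (X k.succ * Y k.succ) +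
      wf n M (len (spc z)) * dy z Y * (X k.succ * N k.succ)) := by
    intro k
    rw [Fin.sum_univ_succ]
    congr 1
    · rw [Fin.sum_univ_succ]
      simp only [dT_00 M h0, dT_0s, zero_mul, Finset.sum_const_zero, add_zero]
      ring
    · have e2 : ∀ i : Fin n, ∑ b, dT n M z k.succ i.succ b * X k.succ * Y i.succ * N b =
          deriv (wf n M) (len (spc z)) / len (spc z) * dy z N * (spc z k * X k.succ) *
            (spc z i * Y i.succ) +
          wf n M (len (spc z)) * dy z N * X k.succ * (if i = k then Y i.succ else 0) +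
          wf n M (len (spc z)) * (X k.succ * N k.succ) * (spc z i * Y i.succ) := by
        intro i
        rw [Fin.sum_univ_succ]
        simp only [dT_s0, zero_mul, zero_add, dT_ss M h0 hf]
        have e3 : ∀ j : Fin n, (deriv (wf n M) (len (spc z)) / len (spc z) * spc z k *
            (spc z i * spc z j) + wf n M (len (spc z)) * ((if i = k then 1 else 0) * spc z j +
            spc z i * (if j = k then 1 else 0))) * X k.succ * Y i.succ * N j.succ =
            deriv (wf n M) (len (spc z)) / len (spc z) * (spc z k * X k.succ) *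
              (spc z i * Y i.succ) * (spc z j * N j.succ) +
            wf n M (len (spc z)) * X k.succ * (if i = k then Y i.succ else 0) *
              (spc z j * N j.succ) +
            wf n M (len (spc z)) * (spc z i * Y i.succ) * X k.succ *
              (if j = k then N j.succ else 0) := by
          intro j
          split_ifs <;> ring
        simp only [e3, Finset.sum_add_distrib, ← Finset.mul_sum, Finset.sum_ite_eq',
          Finset.mem_univ, if_true]
        unfold dy
        ring
      simp only [e2, Finset.sum_add_distrib, ← Finset.mul_sum, Finset.sum_ite_eq',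
        Finset.mem_univ, if_true]
      unfold dy
      ring
  simp only [e1, Finset.sum_add_distrib, ← Finset.mul_sum]
  unfold dsp dy
  ring

/-- **The contraction of the Christoffel symbols.** -/
theorem tang_hess (M : ℝ) {z : E (n + 1)} (h0 : spc z ≠ 0) (hf : stF M (spc z) ≠ 0)
    (N X Y : Fin (n + 1) → ℝ) :
    ∑ a, ∑ b, tang M z a b * N a * ∑ c, ∑ d, chr (tang M) b c d z * X c * Y d =
      -(deriv (phi n M) (len (spc z)) / (2 * len (spc z))) *
        (dy z X * Y 0 * N 0 + dy z Y * X 0 * N 0 - dy z N * X 0 * Y 0) +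
      deriv (wf n M) (len (spc z)) / (2 * len (spc z)) * (dy z X * dy z Y * dy z N) +
      wf n M (len (spc z)) * (dy z N * dsp X Y) := by
  have hl := len_ne h0
  have h1 : ∑ a, ∑ b, tang M z a b * N a * ∑ c, ∑ d, chr (tang M) b c d z * X c * Y d =
      ∑ a, ∑ c, ∑ d, (dT n M z c d a + dT n M z d c a - dT n M z a c d) / 2 *
        (N a * X c * Y d) := by
    refine Finset.sum_congr rfl fun a _ => ?_
    have e : ∀ b, tang M z a b * N a * ∑ c, ∑ d, chr (tang M) b c d z * X c * Y d =
        ∑ c, ∑ d, tang M z a b * chr (tang M) b c d z * (N a * X c * Y d) := by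
      intro b
      rw [Finset.mul_sum]
      refine Finset.sum_congr rfl fun c _ => ?_
      rw [Finset.mul_sum]
      exact Finset.sum_congr rfl fun d _ => by ring
    simp only [e]
    rw [Finset.sum_comm]
    refine Finset.sum_congr rfl fun c _ => ?_
    rw [Finset.sum_comm]
    refine Finset.sum_congr rfl fun d _ => ?_
    rw [← Finset.sum_mul, tang_chr M hl hf]
    rfl
  have h2 : ∑ a, ∑ c, ∑ d, (dT n M z c d a + dT n M z d c a - dT n M z a c d) / 2 *
      (N a * X c * Y d) = ((∑ c, ∑ a, ∑ b, dT n M z c a b * X c * Y a * N b) +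
        (∑ c, ∑ a, ∑ b, dT n M z c a b * Y c * X a * N b) -
        ∑ c, ∑ a, ∑ b, dT n M z c a b * N c * X a * Y b) / 2 := by
    have p1 : ∑ c, ∑ a, ∑ b, dT n M z c a b * X c * Y a * N b =
        ∑ a, ∑ c, ∑ d, dT n M z c d a * (N a * X c * Y d) := by
      rw [Finset.sum_comm (s := (Finset.univ : Finset (Fin (n + 1))))
        (f := fun a c => ∑ d, dT n M z c d a * (N a * X c * Y d))]
      refine Finset.sum_congr rfl fun c _ => ?_
      rw [Finset.sum_comm]
      exact Finset.sum_congr rfl fun a _ => Finset.sum_congr rfl fun d _ => by ring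
    have p2 : ∑ c, ∑ a, ∑ b, dT n M z c a b * Y c * X a * N b =
        ∑ a, ∑ c, ∑ d, dT n M z d c a * (N a * X c * Y d) := by
      have q : ∀ c, ∑ a, ∑ b, dT n M z c a b * Y c * X a * N b =
          ∑ b, ∑ a, dT n M z c a b * Y c * X a * N b := fun c => Finset.sum_comm
      simp only [q]
      rw [Finset.sum_comm]
      refine Finset.sum_congr rfl fun a _ => ?_
      rw [Finset.sum_comm]
      exact Finset.sum_congr rfl fun c _ => Finset.sum_congr rfl fun d _ => by ring
    have p3 : ∑ c, ∑ a, ∑ b, dT n M z c a b * N c * X a * Y b =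
        ∑ a, ∑ c, ∑ d, dT n M z a c d * (N a * X c * Y d) :=
      Finset.sum_congr rfl fun a _ => Finset.sum_congr rfl fun c _ =>
        Finset.sum_congr rfl fun d _ => by ring
    rw [p1, p2, p3, ← Finset.sum_add_distrib, ← Finset.sum_sub_distrib, Finset.sum_div]
    refine Finset.sum_congr rfl fun a _ => ?_
    rw [← Finset.sum_add_distrib, ← Finset.sum_sub_distrib, Finset.sum_div]
    refine Finset.sum_congr rfl fun c _ => ?_
    rw [← Finset.sum_add_distrib, ← Finset.sum_sub_distrib, Finset.sum_div]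
    exact Finset.sum_congr rfl fun d _ => by ring
  rw [h1, h2, dT_contract M h0 hf, dT_contract M h0 hf, dT_contract M h0 hf]
  have e1 : dsp Y X = dsp X Y := Finset.sum_congr rfl fun i _ => mul_comm _ _
  have e2 : dsp N X = dsp X N := Finset.sum_congr rfl fun i _ => mul_comm _ _
  have e3 : dsp N Y = dsp Y N := Finset.sum_congr rfl fun i _ => mul_comm _ _
  rw [e1, e2, e3]
  field_simp
  ring

/-- explicit form -/
theorem stChr (hn : 2 ≤ n) (M : ℝ) (z : E (n + 1)) (h0 : 0 < len (spc z))
    (hf : stF M (spc z) ≠ 0) (N X Y : Fin (n + 1) → ℝ) :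
    ∑ a, ∑ b, tang M z a b * N a * (∑ c, ∑ d, chr (tang M) b c d z * X c * Y d) =
    -(2 * M * ((n : ℝ) - 2) / len (spc z) ^ (n - 1) / (2 * len (spc z))) *
      ((∑ i, spc z i * X i.succ) * N 0 * Y 0 + (∑ i, spc z i * Y i.succ) * N 0 * X 0 -
        (∑ i, spc z i * N i.succ) * X 0 * Y 0) +
    (-(2 * M * ((n : ℝ) - 2) / len (spc z) ^ (n - 1)) / (stF M (spc z) ^ 2 * len (spc z) ^ 2) -
        2 * (1 / stF M (spc z) - 1) / len (spc z) ^ 3) / (2 * len (spc z)) *
      ((∑ i, spc z i * X i.succ) * (∑ i, spc z i * Y i.succ) * (∑ i, spc z i * N i.succ)) +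
    (1 / stF M (spc z) - 1) / len (spc z) ^ 2 *
      ((∑ i, spc z i * N i.succ) * (∑ i : Fin n, X i.succ * Y i.succ)) := by
  have hz0 : spc z ≠ 0 := by
    intro h1
    rw [h1] at h0
    simp [len] at h0
  have hl := h0.ne'
  have e1 : deriv (phi n M) (len (spc z)) = 2 * M * ((n : ℝ) - 2) / len (spc z) ^ (n - 1) := by
    rw [deriv_phi M hl, Nat.cast_sub hn, ← pow_succ]
    have : n - 2 + 1 = n - 1 := by omega
    rw [this]
    norm_num
  have e2 : deriv (wf n M) (len (spc z)) =
      -(2 * M * ((n : ℝ) - 2) / len (spc z) ^ (n - 1)) / (stF M (spc z) ^ 2 * len (spc z) ^ 2) -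
        2 * (1 / stF M (spc z) - 1) / len (spc z) ^ 3 := by
    rw [(wf_hasDerivAt M hl hf).deriv, e1, stF_eq]
  have e3 : wf n M (len (spc z)) = (1 / stF M (spc z) - 1) / len (spc z) ^ 2 := rfl
  rw [tang_hess M hz0 hf, e1, e2, e3]
  unfold dy dsp
  ring

end Vale.Agent.T4
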