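import Vale.Agent.P366.T4.Rigid
import Vale.Agent.P366.T4.R68
import Vale.Agent.P366.T4.TangChr

/-! T4, block R1: the embedding into Schwarzschild–Tangherlini, preparations. -/

open MeasureTheory Metric Filter Topology Set
open scoped ContDiff

noncomputable section
namespace Vale.Agent.T4
open Vale.Agent.P366.Stmt Vale.Agent.P366.T2

variable {n : ℕ}

/-- the bilinear form of the Schwarzschild–Tangherlini metric -/
lemma tang_sum (M : ℝ) (z : E (n + 1)) (U V : Fin (n + 1) → ℝ) :
    ∑ a, ∑ b, tang M z a b * U a * V b = -stF M (spc z) * (U 0 * V 0) +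
      ∑ i : Fin n, U i.succ * V i.succ + (1 / stF M (spc z) - 1) / len (spc z) ^ 2 *
        ((∑ i, spc z i * U i.succ) * ∑ i, spc z i * V i.succ) := by
  have h00 : tang M z 0 0 = -stF M (spc z) := rfl
  have h0s : ∀ i : Fin n, tang M z 0 i.succ = 0 := fun i => rfl
  have hs0 : ∀ i : Fin n, tang M z i.succ 0 = 0 := fun i => rfl
  have hss : ∀ i j : Fin n, tang M z i.succ j.succ = (if i = j then (1 : ℝ) else 0) +
      (1 / stF M (spc z) - 1) * (spc z i * spc z j / len (spc z) ^ 2) := fun i j => rfl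
  rw [Fin.sum_univ_succ]
  simp only [Fin.sum_univ_succ (n := n), h00, h0s, hs0, hss, zero_mul, Finset.sum_const_zero,
    add_zero, zero_add]
  have e : ∀ i : Fin n, ∑ j : Fin n, ((if i = j then (1 : ℝ) else 0) +
      (1 / stF M (spc z) - 1) * (spc z i * spc z j / len (spc z) ^ 2)) * U i.succ * V j.succ =
      U i.succ * V i.succ + (1 / stF M (spc z) - 1) / len (spc z) ^ 2 *
        (spc z i * U i.succ) * ∑ j, spc z j * V j.succ := by
    intro i
    have e2 : ∀ j : Fin n, ((if i = j then (1 : ℝ) else 0) +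
      (1 / stF M (spc z) - 1) * (spc z i * spc z j / len (spc z) ^ 2)) * U i.succ * V j.succ =
      (if i = j then U i.succ * V j.succ else 0) + (1 / stF M (spc z) - 1) / len (spc z) ^ 2 *
        (spc z i * U i.succ) * (spc z j * V j.succ) := by
      intro j
      split_ifs <;> ring
    simp only [e2, Finset.sum_add_distrib, ← Finset.mul_sum]
    simp
  simp only [e, Finset.sum_add_distrib, ← Finset.sum_mul, ← Finset.mul_sum]
  ring

/-- primitives of smooth functions on a half line -/
lemma exists_prim {R : ℝ} {F : ℝ → ℝ} (hF : ContDiffOn ℝ ∞ F (Ioi R)) :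
    ∃ T : ℝ → ℝ, ContDiffOn ℝ ∞ T (Ioi R) ∧ ∀ r, R < r → HasDerivAt T (F r) r := by
  have hc := hF.continuousOn
  have hd : ∀ r, R < r → HasDerivAt (fun u => ∫ x in (R + 1)..u, F x) (F r) r := by
    intro r hr
    refine intervalIntegral.integral_hasDerivAt_right ?_ ?_ (hc.continuousAt (Ioi_mem_nhds hr))
    · refine (hc.mono fun s hs => ?_).intervalIntegrable
      have h1 := (le_min (show R ≤ R + 1 by linarith) hr.le)
      have h2 : min (R + 1) r ≤ s := hs.1
      have h3 : R < min (R + 1) r := lt_min (by linarith) hr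
      exact h3.trans_le h2
    · exact hc.stronglyMeasurableAtFilter isOpen_Ioi r hr
  refine ⟨_, ?_, hd⟩
  rw [contDiffOn_infty_iff_deriv_of_isOpen isOpen_Ioi]
  refine ⟨fun r hr => (hd r hr).differentiableAt.differentiableWithinAt, ?_⟩
  exact hF.congr fun r hr => (hd r hr).deriv

lemma hd_on {R : ℝ} {f : ℝ → ℝ} (hf : ContDiffOn ℝ ∞ f (Ioi R)) {r : ℝ} (hr : R < r) :
    HasDerivAt f (deriv f r) r :=
  ((hf.contDiffAt (Ioi_mem_nhds hr)).differentiableAt (by simp)).hasDerivAt

lemma hd_on' {R : ℝ} {f : ℝ → ℝ} (hf : ContDiffOn ℝ ∞ f (Ioi R)) {r : ℝ} (hr : R < r) :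
    HasDerivAt (deriv f) (deriv (deriv f) r) r :=
  hd_on ((contDiffOn_infty_iff_deriv_of_isOpen isOpen_Ioi).1 hf).2 hr

lemma HPr {f : ℝ → ℝ} {f' : ℝ} {x : E n} (hx : x ≠ 0) (hf : HasDerivAt f f' (len x))
    (k : Fin n) : HP k (fun y => f (len y)) (f' * nx k x) x := by
  have h1 := HP.radial hx hf k
  have e : f' / len x * x k = f' * nx k x := by unfold nx; ring
  rwa [e] at h1

lemma HPnx {x : E n} (hx : x ≠ 0) (k i : Fin n) : HP k (nx i) (Pj i k x / len x) x := HP_nx hx k i

/-- the components of the embedding -/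
def emb (T rho : ℝ → ℝ) : Fin (n + 1) → E n → ℝ :=
  Fin.cons (fun x => T (len x)) fun i x => rho (len x) * nx i x

/-- the components of the unit normal -/
def nor (N0 u : ℝ → ℝ) : Fin (n + 1) → E n → ℝ :=
  Fin.cons (fun x => N0 (len x)) fun i x => u (len x) * nx i x

section

variable {R : ℝ} (hR : 0 < R) {T rho F : ℝ → ℝ} (hT : ∀ r, R < r → HasDerivAt T (F r) r)
  (hrho : ContDiffOn ℝ ∞ rho (Ioi R)) {x : E n} (hx : R < len x)
include hR hx

omit hR in
lemma nx_smooth_at (hR : 0 < R) (i : Fin n) : ContDiffAt ℝ ∞ (nx i) x :=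
  contDiffAt_nx i (ne_zero_of_len hR hx.le)

include hT in
lemma pd_emb0 (i : Fin n) : pd i (emb T rho 0) x = F (len x) * nx i x :=
  (HPr (ne_zero_of_len hR hx.le) (hT _ hx) i).pd

include hrho in
lemma pd_embs (i a : Fin n) : pd i (emb T rho a.succ) x =
    deriv rho (len x) * (nx i x * nx a x) + rho (len x) / len x * Pj a i x := by
  have hx0 := ne_zero_of_len hR hx.le
  have h1 := (HPr hx0 (hd_on hrho hx) i).mul (HPnx hx0 i a)
  have h2 : pd i (emb T rho a.succ) x = _ := h1.pd
  rw [h2]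
  ring

include hT in
lemma pd2_emb0 (hF : ContDiffOn ℝ ∞ F (Ioi R)) (i j : Fin n) :
    pd i (pd j (emb T rho 0)) x = deriv F (len x) * (nx i x * nx j x) +
      F (len x) / len x * Pj j i x := by
  have hx0 := ne_zero_of_len hR hx.le
  have hev : pd j (emb T rho 0) =ᶠ[𝓝 x] fun y => F (len y) * nx j y := by
    filter_upwards [(isOpen_out R).mem_nhds hx] with y hy
    exact pd_emb0 hR hT hy j
  have h1 := (HPr hx0 (hd_on hF hx) i).mul (HPnx hx0 i j)
  rw [(h1.congr hev).pd]
  ring

include hrho in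
lemma pd2_embs (i j a : Fin n) : pd i (pd j (emb T rho a.succ)) x =
    deriv (deriv rho) (len x) * (nx i x * (nx j x * nx a x)) +
      deriv rho (len x) / len x * (Pj j i x * nx a x + nx j x * Pj a i x) +
      (deriv rho (len x) / len x - rho (len x) / len x ^ 2) * (nx i x * Pj a j x) -
      rho (len x) / len x ^ 2 * (Pj a i x * nx j x + nx a x * Pj j i x) := by
  have hx0 := ne_zero_of_len hR hx.le
  have hl : len x ≠ 0 := (hR.trans hx).ne'
  have hev : pd j (emb T rho a.succ) =ᶠ[𝓝 x] fun y =>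
      deriv rho (len y) * (nx j y * nx a y) + rho (len y) / len y * Pj a j y := by
    filter_upwards [(isOpen_out R).mem_nhds hx] with y hy
    exact pd_embs hR hrho hy j a
  have hsg : HasDerivAt (fun r => rho r / r) (deriv rho (len x) / len x -
      rho (len x) / len x ^ 2) (len x) := by
    have := (hd_on hrho hx).div (hasDerivAt_id (len x)) hl
    refine this.congr_deriv ?_
    simp only [id]
    field_simp
  have h1 := ((HPr hx0 (hd_on' hrho hx) i).mul ((HPnx hx0 i j).mul (HPnx hx0 i a))).add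
    ((HPr hx0 hsg i).mul (Pj_HP hx0 i a j))
  rw [(h1.congr hev).pd]
  field_simp
  ring

end

end Vale.Agent.T4
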