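import Vale.Agent.P366.T4.Emb68a

/-! T4, block R1: spherically symmetric data with constant mass are slices of
Schwarzschild–Tangherlini. -/

open MeasureTheory Metric Filter Topology Set
open scoped ContDiff

noncomputable section
namespace Vale.Agent.T4
open Vale.Agent.P366.Stmt Vale.Agent.P366.T2

variable {n : ℕ}

section

variable {R : ℝ} (hR : 0 < R) {T rho F N0 u : ℝ → ℝ}
  (hrho : ContDiffOn ℝ ∞ rho (Ioi R)) {x : E n} (hx : R < len x)

lemma spc_emb (x : E n) (i : Fin n) : spc (toPt (emb T rho) x) i = rho (len x) * nx i x := rfl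

lemma nor_s (x : E n) (i : Fin n) : nor N0 u i.succ x = u (len x) * nx i x := rfl

lemma nor_0 (x : E n) : nor N0 u 0 x = N0 (len x) := rfl

include hR hx

lemma len_spc_emb (hρ : 0 < rho (len x)) : len (spc (toPt (emb T rho) x)) = rho (len x) := by
  have hx0 := ne_zero_of_len hR hx.le
  have h1 : len (spc (toPt (emb T rho) x)) ^ 2 = rho (len x) ^ 2 := by
    rw [len_sq]
    simp only [spc_emb, mul_pow, ← Finset.mul_sum, sum_nx_sq hx0, mul_one]
  have h2 : 0 ≤ len (spc (toPt (emb T rho) x)) := norm_nonneg _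
  exact (pow_left_inj₀ h2 hρ.le two_ne_zero).1 h1

lemma con_yN : ∑ a, spc (toPt (emb T rho) x) a * nor N0 u a.succ x =
    rho (len x) * u (len x) := by
  have hx0 := ne_zero_of_len hR hx.le
  have e : ∀ a : Fin n, spc (toPt (emb T rho) x) a * nor N0 u a.succ x =
      rho (len x) * u (len x) * (nx a x * nx a x) := by
    intro a; rw [spc_emb, nor_s]; ring
  simp only [e, ← Finset.mul_sum, sum_nx_mul hx0, mul_one]

lemma con_NN : ∑ a : Fin n, nor N0 u a.succ x * nor N0 u a.succ x = u (len x) ^ 2 := by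
  have hx0 := ne_zero_of_len hR hx.le
  have e : ∀ a : Fin n, nor N0 u a.succ x * nor N0 u a.succ x =
      u (len x) ^ 2 * (nx a x * nx a x) := by
    intro a; rw [nor_s]; ring
  simp only [e, ← Finset.mul_sum, sum_nx_mul hx0, mul_one]

include hrho

lemma con_n1 (j : Fin n) : ∑ a, nx a x * pd j (emb T rho a.succ) x =
    deriv rho (len x) * nx j x := by
  have hx0 := ne_zero_of_len hR hx.le
  have e : ∀ a : Fin n, nx a x * pd j (emb T rho a.succ) x =
      deriv rho (len x) * nx j x * (nx a x * nx a x) +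
        rho (len x) / len x * (nx a x * Pj a j x) := by
    intro a; rw [pd_embs hR hrho hx]; ring
  simp only [e, Finset.sum_add_distrib, ← Finset.mul_sum, sum_nx_mul hx0, nx_Pj hx0]
  ring

lemma con_n2 (i j : Fin n) : ∑ a, nx a x * pd i (pd j (emb T rho a.succ)) x =
    deriv (deriv rho) (len x) * (nx i x * nx j x) +
      (deriv rho (len x) / len x - rho (len x) / len x ^ 2) * Pj i j x := by
  have hx0 := ne_zero_of_len hR hx.le
  have e : ∀ a : Fin n, nx a x * pd i (pd j (emb T rho a.succ)) x =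
      (deriv (deriv rho) (len x) * (nx i x * nx j x) +
        (deriv rho (len x) / len x - rho (len x) / len x ^ 2) * Pj i j x) *
          (nx a x * nx a x) +
      (deriv rho (len x) / len x - rho (len x) / len x ^ 2) * nx j x * (nx a x * Pj a i x) +
      (deriv rho (len x) / len x - rho (len x) / len x ^ 2) * nx i x *
        (nx a x * Pj a j x) := by
    intro a; rw [pd2_embs hR hrho hx, Pj_symm j i]; ring
  simp only [e, Finset.sum_add_distrib, ← Finset.mul_sum, sum_nx_mul hx0, nx_Pj hx0]
  ring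

lemma con_11 (i j : Fin n) :
    ∑ a : Fin n, pd i (emb T rho a.succ) x * pd j (emb T rho a.succ) x =
    deriv rho (len x) ^ 2 * (nx i x * nx j x) + (rho (len x) / len x) ^ 2 * Pj i j x := by
  have hx0 := ne_zero_of_len hR hx.le
  have e : ∀ a : Fin n, pd i (emb T rho a.succ) x * pd j (emb T rho a.succ) x =
      deriv rho (len x) ^ 2 * (nx i x * nx j x) * (nx a x * nx a x) +
      deriv rho (len x) * (rho (len x) / len x) * nx i x * (nx a x * Pj a j x) +
      deriv rho (len x) * (rho (len x) / len x) * nx j x * (nx a x * Pj a i x) +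
      (rho (len x) / len x) ^ 2 * (Pj i a x * Pj a j x) := by
    intro a; rw [pd_embs hR hrho hx, pd_embs hR hrho hx, Pj_symm i a]; ring
  simp only [e, Finset.sum_add_distrib, ← Finset.mul_sum, sum_nx_mul hx0, nx_Pj hx0,
    Pj_Pj hx0]
  ring

lemma con_y1 (j : Fin n) : ∑ a, spc (toPt (emb T rho) x) a * pd j (emb T rho a.succ) x =
    rho (len x) * (deriv rho (len x) * nx j x) := by
  rw [← con_n1 (T := T) hR hrho hx j, Finset.mul_sum]
  exact Finset.sum_congr rfl fun a _ => by rw [spc_emb]; ring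

lemma con_N1 (j : Fin n) : ∑ a : Fin n, nor N0 u a.succ x * pd j (emb T rho a.succ) x =
    u (len x) * (deriv rho (len x) * nx j x) := by
  rw [← con_n1 (T := T) hR hrho hx j, Finset.mul_sum]
  exact Finset.sum_congr rfl fun a _ => by rw [nor_s]; ring

lemma con_y2 (i j : Fin n) :
    ∑ a, spc (toPt (emb T rho) x) a * pd i (pd j (emb T rho a.succ)) x =
    rho (len x) * (deriv (deriv rho) (len x) * (nx i x * nx j x) +
      (deriv rho (len x) / len x - rho (len x) / len x ^ 2) * Pj i j x) := by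
  rw [← con_n2 (T := T) hR hrho hx i j, Finset.mul_sum]
  exact Finset.sum_congr rfl fun a _ => by rw [spc_emb]; ring

lemma con_N2 (i j : Fin n) :
    ∑ a : Fin n, nor N0 u a.succ x * pd i (pd j (emb T rho a.succ)) x =
    u (len x) * (deriv (deriv rho) (len x) * (nx i x * nx j x) +
      (deriv rho (len x) / len x - rho (len x) / len x ^ 2) * Pj i j x) := by
  rw [← con_n2 (T := T) hR hrho hx i j, Finset.mul_sum]
  exact Finset.sum_congr rfl fun a _ => by rw [nor_s]; ring

end

/-! ### the algebra -/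

/-- the radial component of the second fundamental form -/
lemma alg_nn {f q p u up f1 pp qp kN : ℝ} (hf : f ≠ 0) (hq : q ≠ 0) (hp : p ≠ 0)
    (E1 : p ^ 2 - u ^ 2 * q ^ 2 = f * q ^ 2)
    (E2 : p * (pp * q - p * qp) - u * up * q ^ 3 = f1 * p * q ^ 3 / 2) (E3 : kN * p = up) :
    kN * q ^ 2 = f * (p / (q * f)) * ((up * q + u * qp) / f - u * q * (f1 * p) / f ^ 2) -
      u / f * pp + f1 * p * (p / (q * f)) * (u * q / f) - f1 * u * (u * q / f) ^ 2 / 2 +
      f1 * p ^ 2 * u / f ^ 2 / 2 := by
  have h1 : f * (p / (q * f)) * ((up * q + u * qp) / f - u * q * (f1 * p) / f ^ 2) -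
      u / f * pp + f1 * p * (p / (q * f)) * (u * q / f) - f1 * u * (u * q / f) ^ 2 / 2 +
      f1 * p ^ 2 * u / f ^ 2 / 2 = p * up / f + p * u * qp / (q * f) - u * pp / f +
        f1 * u * (p ^ 2 - u ^ 2 * q ^ 2) / (2 * f ^ 2) := by
    field_simp
    ring
  have h2 : f1 = 2 * (p * (pp * q - p * qp) - u * up * q ^ 3) / (p * q ^ 3) := by
    rw [E2]
    field_simp
  have h3 : p * up / f + p * u * qp / (q * f) - u * pp / f +
        f1 * u * (f * q ^ 2) / (2 * f ^ 2) = kN * (p ^ 2 - u ^ 2 * q ^ 2) / f := by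
    rw [h2, ← E3]
    field_simp
    ring
  rw [h1, E1, h3, E1]
  field_simp

/-- **Spherically symmetric data with constant mass are slices of
Schwarzschild–Tangherlini.** -/
theorem stEmb (hn : 2 ≤ n) : StEmb n := by
  intro R M hR rho q k kN hrho hqs hks hρ hρ' hq hf hH hkN g K hg hK
  -- the radial functions
  have hus : ContDiffOn ℝ ∞ (fun s => rho s * k s) (Ioi R) := hrho.mul hks
  obtain ⟨u, hu⟩ : ∃ u : ℝ → ℝ, u = fun s => rho s * k s := ⟨_, rfl⟩
  have hu' : ∀ r, u r = rho r * k r := fun r => by rw [hu]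
  rw [← hu] at hus
  simp only [← hu] at hkN
  simp only [← hu'] at hH
  obtain ⟨f, hfd⟩ : ∃ f : ℝ → ℝ, f = fun s => phi n M (rho s) := ⟨_, rfl⟩
  have hf' : ∀ r, f r = phi n M (rho r) := fun r => by rw [hfd]
  have hfpos : ∀ r, R < r → 0 < f r := fun r hr => by rw [hf']; exact hf r hr
  have hfs : ContDiffOn ℝ ∞ f (Ioi R) := by
    rw [hfd]
    unfold phi
    exact contDiffOn_const.sub (contDiffOn_const.div (hrho.pow _)
      fun r hr => pow_ne_zero _ (hρ r hr).ne')
  have hH' : ∀ r, R < r → (deriv rho r / q r) ^ 2 - u r ^ 2 = f r := fun r hr => by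
    rw [hf']; exact hH r hr
  have hFs : ContDiffOn ℝ ∞ (fun s => u s * q s / f s) (Ioi R) :=
    (hus.mul hqs).div hfs fun r hr => (hfpos r hr).ne'
  obtain ⟨T, hTs, hT⟩ := exists_prim hFs
  obtain ⟨N0, hN0⟩ : ∃ N0 : ℝ → ℝ, N0 = fun s => deriv rho s / (q s * f s) := ⟨_, rfl⟩
  have hN0' : ∀ r, N0 r = deriv rho r / (q r * f r) := fun r => by rw [hN0]
  -- smoothness
  have hmaps : MapsTo (len : E n → ℝ) {x | R < len x} (Ioi R) := fun x hx => hx
  have hlen : ContDiffOn ℝ ∞ (len : E n → ℝ) {x | R < len x} := fun x hx =>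
    (contDiffAt_len (ne_zero_of_len hR (le_of_lt hx))).contDiffWithinAt
  refine ⟨emb T rho, nor N0 u, ?_, ?_, ?_⟩
  · refine Fin.cases ?_ fun i => ?_
    · exact hTs.comp hlen hmaps
    · exact (hrho.comp hlen hmaps).mul fun x hx =>
        (contDiffAt_nx i (ne_zero_of_len hR (le_of_lt hx))).contDiffWithinAt
  · -- injectivity
    intro x hx y hy hxy
    have hx' : R < len x := hx
    have hy' : R < len y := hy
    have hx0 := ne_zero_of_len hR hx'.le
    have hy0 := ne_zero_of_len hR hy'.le
    have h1 : rho (len x) = rho (len y) := by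
      rw [← len_spc_emb (T := T) hR hx' (hρ _ hx'), ← len_spc_emb (T := T) hR hy' (hρ _ hy'), hxy]
    have hmono : StrictMonoOn rho (Ioi R) := by
      refine strictMonoOn_of_deriv_pos (convex_Ioi R) hrho.continuousOn fun r hr => ?_
      rw [interior_Ioi] at hr
      exact hρ' r hr
    have h2 : len x = len y := hmono.injOn hx' hy' h1
    ext i
    have h3 : spc (toPt (emb T rho) x) i = spc (toPt (emb T rho) y) i := by rw [hxy]
    rw [spc_emb, spc_emb, h1] at h3
    have h4 := mul_left_cancel₀ (hρ _ hy').ne' h3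
    rw [← nx_mul_len hx0 i, ← nx_mul_len hy0 i, h4, h2]
  intro x hx
  have hx' : R < len x := hx
  have hx0 := ne_zero_of_len hR hx'.le
  have hl := len_spc_emb (T := T) hR hx' (hρ _ hx')
  have hst : stF M (spc (toPt (emb T rho) x)) = f (len x) := by
    rw [stF_eq, hl, hf']
  have hρx := (hρ _ hx').ne'
  have hpx := (hρ' _ hx').ne'
  have hqx := (hq _ hx').ne'
  have hfx := (hfpos _ hx').ne'
  have hlx : len x ≠ 0 := (hR.trans hx').ne'
  have hFd : HasDerivAt (fun s => u s * q s / f s) (((deriv u (len x) * q (len x) +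
      u (len x) * deriv q (len x)) / f (len x)) - u (len x) * q (len x) *
        (deriv f (len x)) / f (len x) ^ 2) (len x) := by
    refine (((hd_on hus hx').mul (hd_on hqs hx')).div (hd_on hfs hx') hfx).congr_deriv ?_
    simp only [Pi.mul_apply]
    field_simp
  have hf1 : deriv f (len x) = 2 * M * ((n : ℝ) - 2) / rho (len x) ^ (n - 1) *
      deriv rho (len x) := by
    have h1 := (phi_hasDerivAt (n := n) M hρx).comp (len x) (hd_on hrho hx')
    have h2 : f = phi n M ∘ rho := hfd
    rw [h2, h1.deriv, deriv_phi M hρx, Nat.cast_sub hn, ← pow_succ]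
    have : n - 2 + 1 = n - 1 := by omega
    rw [this]
    norm_num
  have E1 : deriv rho (len x) ^ 2 - u (len x) ^ 2 * q (len x) ^ 2 =
      f (len x) * q (len x) ^ 2 := by
    rw [← hH' _ hx']
    field_simp
  have E2 : deriv rho (len x) * (deriv (deriv rho) (len x) * q (len x) -
      deriv rho (len x) * deriv q (len x)) - u (len x) * deriv u (len x) * q (len x) ^ 3 =
      2 * M * ((n : ℝ) - 2) / rho (len x) ^ (n - 1) * deriv rho (len x) *
        q (len x) ^ 3 / 2 := by
    have h1 := (((hd_on' hrho hx').div (hd_on hqs hx') hqx).pow 2).sub ((hd_on hus hx').pow 2)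
    have hev : f =ᶠ[𝓝 (len x)] ((deriv rho / q) ^ 2 - u ^ 2) := by
      filter_upwards [Ioi_mem_nhds hx'] with r hr
      exact (hH' r hr).symm
    have h2 := (h1.congr_of_eventuallyEq hev).deriv
    rw [hf1] at h2
    rw [h2]
    have e21 : (2 - 1 : ℕ) = 1 := rfl
    simp only [Pi.div_apply, e21, pow_one, Nat.cast_ofNat]
    field_simp
  refine ⟨by rw [hl]; exact hρ _ hx', by rw [hst]; exact hfpos _ hx', ?_, ?_, ?_, ?_, ?_⟩
  · rw [nor_0, hN0']
    exact div_pos (hρ' _ hx') (mul_pos (hq _ hx') (hfpos _ hx'))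
  · intro i j
    have h1 := tang_sum M (toPt (emb T rho) x) (fun a => pd i (emb T rho a) x)
      (fun a => pd j (emb T rho a) x)
    simp only [pd_emb0 hR hT hx', con_11 hR hrho hx', con_y1 hR hrho hx', hst, hl] at h1
    rw [h1, hg x hx' i j]
    have h2 : Pj i j x = (if i = j then 1 else 0) - nx i x * nx j x := rfl
    rw [h2]
    have h3 : q (len x) ^ 2 = -f (len x) * (u (len x) * q (len x) / f (len x)) ^ 2 +
        deriv rho (len x) ^ 2 / f (len x) := by
      have : deriv rho (len x) ^ 2 = u (len x) ^ 2 * q (len x) ^ 2 +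
        f (len x) * q (len x) ^ 2 := by linarith
      rw [this]
      field_simp
      ring
    rw [h3]
    field_simp
    ring
  · have h1 := tang_sum M (toPt (emb T rho) x) (fun a => nor N0 u a x) (fun a => nor N0 u a x)
    simp only [nor_0, con_NN hR hx', con_yN hR hx', hst, hl] at h1
    rw [h1, hN0']
    have : deriv rho (len x) ^ 2 = u (len x) ^ 2 * q (len x) ^ 2 +
        f (len x) * q (len x) ^ 2 := by linarith
    field_simp
    rw [this]
    ring
  · intro i
    have h1 := tang_sum M (toPt (emb T rho) x) (fun a => nor N0 u a x)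
      (fun a => pd i (emb T rho a) x)
    simp only [nor_0, pd_emb0 hR hT hx', con_N1 hR hrho hx', con_y1 hR hrho hx',
      con_yN hR hx', hst, hl] at h1
    rw [h1, hN0']
    field_simp
    ring
  · intro i j
    have h1 := tang_sum M (toPt (emb T rho) x) (fun a => nor N0 u a x)
      (fun a => pd i (pd j (emb T rho a)) x)
    simp only [nor_0, pd2_emb0 hR hT hx' hFs, con_N2 hR hrho hx', con_y2 hR hrho hx',
      con_yN hR hx', hst, hl] at h1
    have h2 := stChr hn M (toPt (emb T rho) x) (by rw [hl]; exact hρ _ hx')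
      (by rw [hst]; exact hfx) (fun a => nor N0 u a x) (fun a => pd i (emb T rho a) x)
      (fun a => pd j (emb T rho a) x)
    simp only [nor_0, pd_emb0 hR hT hx', con_11 hR hrho hx', con_y1 hR hrho hx',
      con_yN hR hx', hst, hl] at h2
    have h3 : ∑ a, ∑ b, tang M (toPt (emb T rho) x) a b * nor N0 u a x *
        (pd i (pd j (emb T rho b)) x + ∑ c, ∑ d, chr (tang M) b c d (toPt (emb T rho) x) *
          pd i (emb T rho c) x * pd j (emb T rho d) x) =
        (∑ a, ∑ b, tang M (toPt (emb T rho) x) a b * nor N0 u a x *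
          pd i (pd j (emb T rho b)) x) +
        ∑ a, ∑ b, tang M (toPt (emb T rho) x) a b * nor N0 u a x *
          (∑ c, ∑ d, chr (tang M) b c d (toPt (emb T rho) x) *
          pd i (emb T rho c) x * pd j (emb T rho d) x) := by
      simp only [← Finset.sum_add_distrib, mul_add]
    rw [h3, h1, h2, hK x hx' i j]
    have h4 : (if i = j then (1 : ℝ) else 0) - nx i x * nx j x = Pj i j x := rfl
    have h5 := alg_nn hfx hqx hpx E1 E2 (hkN _ hx')
    rw [h4, h5, hFd.deriv, hf1, Pj_symm j i, hN0']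
    have h6 : k (len x) * (rho (len x) / len x) ^ 2 = u (len x) * rho (len x) / len x ^ 2 := by
      rw [hu']; ring
    rw [h6]
    field_simp
    ring

end Vale.Agent.T4
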