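import Vale.Agent.P366.T4.TangChr

/-! T4: smooth primitives, smooth radial maps and injectivity for the embedding (block R1). -/

open MeasureTheory Metric Filter Topology Set
open scoped ContDiff Matrix

noncomputable section
namespace Vale.Agent.T4.E919
open Vale.Agent.P366.Stmt Vale.Agent.P366.T2

variable {n : ℕ}

/-- a smooth function on a half-line has a smooth primitive -/
theorem exists_prim {R : ℝ} {u : ℝ → ℝ} (hu : ContDiffOn ℝ ∞ u (Ioi R)) :
    ∃ T : ℝ → ℝ, ContDiffOn ℝ ∞ T (Ioi R) ∧ ∀ r, R < r → HasDerivAt T (u r) r := by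
  have hc : ContinuousOn u (Ioi R) := hu.continuousOn
  have hd : ∀ r, R < r → HasDerivAt (fun r => ∫ s in (R + 1)..r, u s) (u r) r := by
    intro r hr
    have hsub : uIcc (R + 1) r ⊆ Ioi R := by
      intro s hs
      rcases le_total (R + 1) r with h | h
      · rw [uIcc_of_le h] at hs
        exact lt_of_lt_of_le (by linarith) hs.1
      · rw [uIcc_of_ge h] at hs
        exact lt_of_lt_of_le hr hs.1
    refine intervalIntegral.integral_hasDerivAt_right ((hc.mono hsub).intervalIntegrable) ?_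
      (hc.continuousAt (Ioi_mem_nhds hr))
    exact (hc.stronglyMeasurableAtFilter isOpen_Ioi) r hr
  refine ⟨fun r => ∫ s in (R + 1)..r, u s, ?_, hd⟩
  refine (contDiffOn_infty_iff_deriv_of_isOpen isOpen_Ioi).2 ⟨?_, ?_⟩
  · intro r hr
    exact (hd r hr).differentiableAt.differentiableWithinAt
  · refine hu.congr fun r hr => (hd r hr).deriv

/-- radial functions are smooth -/
theorem contDiffOn_radial {R : ℝ} (hR : 0 ≤ R) {T : ℝ → ℝ} (hT : ContDiffOn ℝ ∞ T (Ioi R)) :
    ContDiffOn ℝ ∞ (fun x : E n => T (len x)) {x | R < len x} := by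
  have h1 : ContDiffOn ℝ ∞ (fun x : E n => len x) {x | R < len x} := by
    intro x hx
    have hx0 : x ≠ 0 := by
      rintro rfl
      have : R < len (0 : E n) := hx
      unfold len at this
      rw [norm_zero] at this
      linarith
    exact (contDiffAt_norm ℝ hx0).contDiffWithinAt
  exact hT.comp h1 fun x hx => hx

theorem contDiffOn_radial_coord {R : ℝ} (hR : 0 ≤ R) {h : ℝ → ℝ} (hh : ContDiffOn ℝ ∞ h (Ioi R))
    (i : Fin n) : ContDiffOn ℝ ∞ (fun x : E n => h (len x) * x i) {x | R < len x} := by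
  refine (contDiffOn_radial hR hh).mul ?_
  have : ContDiff ℝ ∞ (fun x : E n => x i) := by
    exact (EuclideanSpace.proj (𝕜 := ℝ) i : E n →L[ℝ] ℝ).contDiff
  exact this.contDiffOn

/-- the embedding of the radial slice -/
def emb (T rho : ℝ → ℝ) : Fin (n + 1) → E n → ℝ :=
  Fin.cons (fun x => T (len x)) fun i x => rho (len x) / len x * x i

lemma emb_zero (T rho : ℝ → ℝ) (x : E n) : emb T rho 0 x = T (len x) := rfl
lemma emb_succ (T rho : ℝ → ℝ) (i : Fin n) (x : E n) :
    emb T rho i.succ x = rho (len x) / len x * x i := rfl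

theorem emb_smooth {R : ℝ} (hR : 0 ≤ R) {T rho : ℝ → ℝ} (hT : ContDiffOn ℝ ∞ T (Ioi R))
    (hrho : ContDiffOn ℝ ∞ rho (Ioi R)) (a : Fin (n + 1)) :
    ContDiffOn ℝ ∞ (emb (n := n) T rho a) {x | R < len x} := by
  refine Fin.cases ?_ (fun i => ?_) a
  · exact contDiffOn_radial hR hT
  · have h1 : ContDiffOn ℝ ∞ (fun r : ℝ => rho r / r) (Ioi R) := by
      refine hrho.div contDiffOn_id fun r hr => ?_
      have : R < r := hr
      exact ne_of_gt (by simpa using (by linarith : (0:ℝ) < r))
    exact contDiffOn_radial_coord hR h1 i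

lemma spc_emb (T rho : ℝ → ℝ) (x : E n) :
    spc (toPt (emb T rho) x) = (rho (len x) / len x) • x := by
  ext i
  rfl

lemma len_spc_emb (T : ℝ → ℝ) {rho : ℝ → ℝ} {x : E n} (hx : 0 < len x)
    (hr : 0 < rho (len x)) : len (spc (toPt (emb T rho) x)) = rho (len x) := by
  rw [spc_emb]
  unfold len at *
  rw [norm_smul, Real.norm_eq_abs, abs_of_pos (div_pos hr hx)]
  field_simp

theorem emb_injOn {R : ℝ} (hR : 0 < R) {T rho : ℝ → ℝ} (hd : ∀ r, R < r → 0 < deriv rho r)
    (hp : ∀ r, R < r → 0 < rho r) :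
    InjOn (toPt (emb (n := n) T rho)) {x | R < len x} := by
  have hmono : StrictMonoOn rho (Ioi R) := by
    refine strictMonoOn_of_deriv_pos (convex_Ioi R) ?_ ?_
    · intro r hr
      exact (differentiableAt_of_deriv_ne_zero (hd r hr).ne').continuousAt.continuousWithinAt
    · rw [interior_Ioi]
      exact fun r hr => hd r hr
  intro x hx y hy hxy
  have hx' : R < len x := hx
  have hy' : R < len y := hy
  have h1 : len (spc (toPt (emb T rho) x)) = len (spc (toPt (emb T rho) y)) := by rw [hxy]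
  rw [len_spc_emb T (hR.trans hx') (hp _ hx'), len_spc_emb T (hR.trans hy') (hp _ hy')] at h1
  have h2 : len x = len y := hmono.injOn hx' hy' h1
  have h3 : spc (toPt (emb T rho) x) = spc (toPt (emb T rho) y) := by rw [hxy]
  rw [spc_emb, spc_emb, h2] at h3
  have h4 : rho (len y) / len y ≠ 0 := (div_pos (hp _ hy') (hR.trans hy')).ne'
  exact smul_right_injective _ h4 h3

end Vale.Agent.T4.E919
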