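import Vale.Agent.P366.T4.Key

/-! T4, equality case of the ODE argument. -/

open MeasureTheory Metric Filter Topology Set
open scoped ContDiff

noncomputable section
namespace Vale.Agent.T4
open Vale.Agent.P366.T2

variable {n : ℕ}

/-- **Equality in the monotonicity of the mass function.** -/
theorem mono_eq2 {N r0 C : ℝ} (hN : 1 < N) {c H Y Y' ρ R II2 lam L2 I : ℝ → ℝ}
    (hc : ∀ r, r0 < r → 0 < c r) (hH : ∀ r, r0 < r → 0 < H r)
    (hY : ∀ r, r0 < r → 0 ≤ Y r)
    (hρ : ∀ r, r0 ≤ r → 0 < ρ r) (hlam : ∀ r, r0 ≤ r → 0 < lam r)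
    (hρd : ∀ r, r0 < r → HasDerivAt ρ (ρ r * (c r * H r / N)) r)
    (hYd : ∀ r, r0 < r → HasDerivAt Y (Y' r) r)
    (hYle : ∀ r, r0 < r → Y' r ≤ c r * (H r * R r - H r * Y r - Y r / H r * II2 r))
    (hld : ∀ r, r0 < r → HasDerivAt lam (-(c r * I r)) r)
    (hU : ∀ r, r0 < r → 0 ≤ II2 r - 2 * (H r / lam r) * I r + (H r / lam r) ^ 2 * L2 r)
    (hL : ∀ r, r0 < r → lam r ^ 2 ≤ N * L2 r)
    (hJ : ∀ r, r0 < r → R r / 4 + L2 r ≤ lam r ^ 2) (hC : 0 < C)
    (hconst : ∀ r, r0 < r → ρ r ^ (N - 1) * (1 - Y r / (4 * lam r ^ 2)) = C) :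
    ∀ r, r0 < r → Y' r = c r * (H r * R r - H r * Y r - Y r / H r * II2 r) ∧
      lam r ^ 2 = N * L2 r ∧ R r / 4 + L2 r = lam r ^ 2 := by
  intro r hr
  have hN0 : 0 < N := by linarith
  set f : ℝ → ℝ := fun r => ρ r ^ (N - 1) * (1 - Y r / (4 * lam r ^ 2)) with hf
  have hlp := hlam r hr.le
  have hcr := hc r hr
  have hHr := hH r hr
  have hlr := hlam r hr.le
  have hρr := hρ r hr.le
  have hfd : HasDerivAt f
      ((ρ r * (c r * H r / N)) * (N - 1) * ρ r ^ (N - 1 - 1) * (1 - Y r / (4 * lam r ^ 2)) +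
        ρ r ^ (N - 1) * (0 - (Y' r * (4 * lam r ^ 2) -
          Y r * (4 * (2 * lam r ^ 1 * (-(c r * I r))))) /
            (4 * lam r ^ 2) ^ 2)) r := by
    have h1 : HasDerivAt (fun r => ρ r ^ (N - 1))
        ((ρ r * (c r * H r / N)) * (N - 1) * ρ r ^ (N - 1 - 1)) r :=
      (hρd r hr).rpow_const (Or.inl (hρ r hr.le).ne')
    have h2 : HasDerivAt (fun r => 4 * lam r ^ 2)
        (4 * (2 * lam r ^ 1 * (-(c r * I r)))) r := by
      have := ((hld r hr).pow 2).const_mul 4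
      simpa using this
    have h3 : HasDerivAt (fun r => Y r / (4 * lam r ^ 2))
        ((Y' r * (4 * lam r ^ 2) - Y r * (4 * (2 * lam r ^ 1 *
          (-(c r * I r))))) / (4 * lam r ^ 2) ^ 2) r :=
      (hYd r hr).div h2 (by positivity)
    exact h1.mul ((hasDerivAt_const r (1 : ℝ)).sub h3)
  have hfd0 : HasDerivAt f 0 r := by
    refine (hasDerivAt_const r C).congr_of_eventuallyEq ?_
    filter_upwards [Ioi_mem_nhds hr] with s hs using hconst s hs
  have hz := hfd.unique hfd0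
  set u : ℝ := Y r / (4 * lam r ^ 2) with hu
  have hρp : 0 < ρ r ^ (N - 1) := Real.rpow_pos_of_pos hρr _
  have hl2 : 0 < lam r ^ 2 := by positivity
  have hu1 : 0 < 1 - u := by
    have h1 : ρ r ^ (N - 1) * (1 - u) = C := hconst r hr
    by_contra hcon
    push Not at hcon
    have := mul_nonpos_of_nonneg_of_nonpos hρp.le hcon
    linarith
  have hu0 : 0 ≤ u := div_nonneg (hY r hr) (by positivity)
  have hYr : Y r = u * (4 * lam r ^ 2) := by
    simp only [hu]; field_simp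
  have hρ1 : ρ r * ρ r ^ (N - 1 - 1) = ρ r ^ (N - 1) := by
    conv_lhs => rw [← Real.rpow_one (ρ r)]
    rw [← Real.rpow_mul hρr.le, one_mul, ← Real.rpow_add hρr]
    congr 1; ring
  have e1 : (ρ r * (c r * H r / N)) * (N - 1) * ρ r ^ (N - 1 - 1) * (1 - u) =
      ρ r ^ (N - 1) * (c r * (H r * (1 - u) * (1 - 1 / N))) := by
    rw [← hρ1]; field_simp
  have e2 : (Y' r * (4 * lam r ^ 2) - Y r * (4 * (2 * lam r ^ 1 * (-(c r * I r))))) /
      (4 * lam r ^ 2) ^ 2 =
      Y' r / (4 * lam r ^ 2) + 2 * u * (c r * (I r / lam r)) := by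
    rw [hYr]; field_simp; ring
  rw [e1, e2, ← mul_add] at hz
  have hz' : c r * (H r * (1 - u) * (1 - 1 / N)) + (0 - (Y' r / (4 * lam r ^ 2) +
      2 * u * (c r * (I r / lam r)))) = 0 := by
    rcases mul_eq_zero.1 hz with h0 | h0
    · exact absurd h0 hρp.ne'
    · exact h0
  set A := c r * (H r * R r - H r * Y r - Y r / H r * II2 r) - Y' r with hA
  set Bq := H r * (lam r ^ 2 - (R r / 4 + L2 r)) with hB
  set Cq := u / H r * (II2 r - 2 * (H r / lam r) * I r + (H r / lam r) ^ 2 * L2 r) with hCq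
  set Dq := H r * (1 - u) * (L2 r / lam r ^ 2 - 1 / N) with hD
  have hA0 : 0 ≤ A := by have := hYle r hr; simp only [hA]; linarith
  have hB0 : 0 ≤ Bq := mul_nonneg hHr.le (by have := hJ r hr; linarith)
  have hC0 : 0 ≤ Cq := mul_nonneg (div_nonneg hu0 hHr.le) (hU r hr)
  have hD1 : 0 ≤ L2 r / lam r ^ 2 - 1 / N := by
    have h4 : 1 / N ≤ L2 r / lam r ^ 2 := by
      rw [div_le_div_iff₀ hN0 hl2]; linarith [hL r hr]
    linarith
  have hD0 : 0 ≤ Dq := mul_nonneg (mul_nonneg hHr.le hu1.le) hD1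
  have hsum : A / (4 * lam r ^ 2) + c r * (Bq / lam r ^ 2 + Cq + Dq) = 0 := by
    rw [← hz']
    simp only [hA, hB, hCq, hD]
    rw [hYr]
    field_simp
    ring
  have h1 : 0 ≤ A / (4 * lam r ^ 2) := by positivity
  have h2 : 0 ≤ c r * (Bq / lam r ^ 2) := by positivity
  have h3 : 0 ≤ c r * Cq := by positivity
  have h4 : 0 ≤ c r * Dq := by positivity
  have hsum' : A / (4 * lam r ^ 2) + c r * (Bq / lam r ^ 2) + c r * Cq + c r * Dq = 0 := by
    rw [← hsum]; ring
  have zA : A / (4 * lam r ^ 2) = 0 := by linarith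
  have zB : c r * (Bq / lam r ^ 2) = 0 := by linarith
  have zD : c r * Dq = 0 := by linarith
  have zA' : A = 0 := by
    rcases div_eq_zero_iff.1 zA with h0 | h0
    · exact h0
    · exact absurd h0 (by positivity)
  have zB' : Bq = 0 := by
    rcases mul_eq_zero.1 zB with h0 | h0
    · exact absurd h0 hcr.ne'
    · rcases div_eq_zero_iff.1 h0 with h5 | h5
      · exact h5
      · exact absurd h5 hl2.ne'
  have zD' : Dq = 0 := by
    rcases mul_eq_zero.1 zD with h0 | h0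
    · exact absurd h0 hcr.ne'
    · exact h0
  refine ⟨by linarith, ?_, ?_⟩
  · rcases mul_eq_zero.1 zD' with h0 | h0
    · exact absurd h0 (mul_pos hHr hu1).ne'
    · have h5 : L2 r / lam r ^ 2 = 1 / N := by linarith
      rw [div_eq_div_iff hl2.ne' hN0.ne'] at h5
      linarith
  · rcases mul_eq_zero.1 zB' with h0 | h0
    · exact absurd h0 hHr.ne'
    · linarith

namespace Bg

variable (B : Bg n)

/-- **Equality case of block D.** -/
theorem key_eq (hn : 3 ≤ n) {V V' kap : ℝ → ℝ} (hV : ∀ r, B.R ≤ r → 0 < V r)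
    (hVc : ContinuousOn V (Ici B.R)) (hVd : ∀ r, B.R < r → HasDerivAt V (V' r) r)
    (hkc : ContinuousOn kap (Ici B.R)) (hkd : ∀ r, B.R < r → DifferentiableAt ℝ kap r)
    (hY : ∀ r, B.R < r → |kap r| < B.H r →
      V' r * (B.H r ^ 2 - kap r ^ 2) + V r * (2 * B.H r * deriv B.H r - 2 * kap r * deriv kap r) ≤
        B.H r * B.Rh r - B.H r * (V r * (B.H r ^ 2 - kap r ^ 2)) -
          V r * (B.H r ^ 2 - kap r ^ 2) / B.H r * B.II2 r)
    (h0 : B.H B.R + kap B.R ≤ 0) (hinf : ∀ᶠ r in atTop, |kap r| < B.H r) {m : ℝ}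
    (hm : Tendsto (fun r => B.rho r ^ ((n : ℝ) - 2) *
      (1 - V r * (B.H r ^ 2 - kap r ^ 2) / (4 * B.lam r ^ 2))) atTop (𝓝 (2 * m)))
    (hA : ∀ r, B.R ≤ r → 2 * m ≤ B.rho r ^ ((n : ℝ) - 2))
    (hout : ∀ r, B.R < r → 0 < B.H r + kap r) :
    ∀ r, B.R < r → |kap r| < B.H r ∧
      B.rho r ^ ((n : ℝ) - 2) * (1 - V r * (B.H r ^ 2 - kap r ^ 2) / (4 * B.lam r ^ 2)) = 2 * m ∧
      V' r * (B.H r ^ 2 - kap r ^ 2) + V r * (2 * B.H r * deriv B.H r - 2 * kap r * deriv kap r) =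
        B.H r * B.Rh r - B.H r * (V r * (B.H r ^ 2 - kap r ^ 2)) -
          V r * (B.H r ^ 2 - kap r ^ 2) / B.H r * B.II2 r ∧
      B.lam r ^ 2 = ((n : ℝ) - 1) * B.L2 r ∧ B.Rh r / 4 + B.L2 r = B.lam r ^ 2 := by
  -- the last radius with `H ≤ |κ|`
  obtain ⟨R1, hR1⟩ := (eventually_atTop.1 hinf)
  set S : Set ℝ := {r | B.R ≤ r ∧ B.H r ≤ |kap r|} with hS
  have hHc : ContinuousOn B.H (Ici B.R) := fun r hr => (B.H_diff r hr).continuousAt.continuousWithinAt
  have hSc : IsClosed S := by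
    have h1 : ContinuousOn (fun r => |kap r| - B.H r) (Ici B.R) := hkc.abs.sub hHc
    have h2 := h1.preimage_isClosed_of_isClosed isClosed_Ici (isClosed_Ici (a := (0 : ℝ)))
    convert h2 using 1
    ext r
    simp only [hS, mem_ofPred_eq, mem_inter_iff, mem_Ici, mem_preimage, sub_nonneg]
  have hSne : S.Nonempty := ⟨B.R, le_rfl, by
    have := neg_le_abs (kap B.R)
    linarith⟩
  have hSb : BddAbove S := ⟨max B.R R1, fun r hr => by
    by_contra hlt
    push Not at hlt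
    have h1 := hR1 r ((le_max_right _ _).trans hlt.le)
    exact absurd hr.2 (not_le.2 h1)⟩
  set r0 := sSup S with hr0
  have hr0S : r0 ∈ S := hSc.csSup_mem hSne hSb
  have hgt : ∀ r, r0 < r → |kap r| < B.H r := by
    intro r hr
    by_contra hle
    push Not at hle
    exact absurd (le_csSup hSb ⟨hr0S.1.trans hr.le, hle⟩) (not_le.2 hr)
  have hR : ∀ r, r0 ≤ r → B.R ≤ r := fun r hr => hr0S.1.trans hr
  have hge : |kap r0| ≤ B.H r0 := by
    have hsub : Ioi r0 ⊆ Ici B.R := fun r hr => hR r (le_of_lt hr)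
    have h1 : Tendsto (fun r => |kap r|) (𝓝[>] r0) (𝓝 (|kap r0|)) :=
      ((hkc r0 hr0S.1).mono hsub).abs
    have h2 : Tendsto B.H (𝓝[>] r0) (𝓝 (B.H r0)) := (hHc r0 hr0S.1).mono hsub
    refine le_of_tendsto_of_tendsto h1 h2 ?_
    filter_upwards [self_mem_nhdsWithin] with r hr using (hgt r hr).le
  have heq : B.H r0 = |kap r0| := le_antisymm hr0S.2 hge
  have hn3 : (3 : ℝ) ≤ n := by exact_mod_cast hn
  have hN : 1 < (n : ℝ) - 1 := by linarith
  have hYd : ∀ r, r0 < r → HasDerivAt (fun r => V r * (B.H r ^ 2 - kap r ^ 2))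
      (V' r * (B.H r ^ 2 - kap r ^ 2) +
        V r * (2 * B.H r * deriv B.H r - 2 * kap r * deriv kap r)) r := by
    intro r hr
    have h1 := (B.H_diff r (hR r hr.le)).hasDerivAt
    have h2 := (hkd r (hr0S.1.trans_lt hr)).hasDerivAt
    refine ((hVd r (hr0S.1.trans_lt hr)).mul ((h1.pow 2).sub (h2.pow 2))).congr_deriv ?_
    simp
  have hYn : ∀ r, r0 < r → 0 ≤ V r * (B.H r ^ 2 - kap r ^ 2) := by
    intro r hr
    have h1 := hgt r hr
    have h2 : kap r ^ 2 ≤ B.H r ^ 2 := by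
      rw [← sq_abs (kap r)]
      exact pow_le_pow_left₀ (abs_nonneg _) h1.le 2
    exact mul_nonneg (hV r (hR r hr.le)).le (by linarith)
  obtain ⟨hmono, hbd⟩ := mono_main2 (N := (n : ℝ) - 1) (r0 := r0) hN (c := fun _ => 1) (H := B.H)
    (Y := fun r => V r * (B.H r ^ 2 - kap r ^ 2))
    (Y' := fun r => V' r * (B.H r ^ 2 - kap r ^ 2) +
      V r * (2 * B.H r * deriv B.H r - 2 * kap r * deriv kap r)) (ρ := B.rho) (R := B.Rh)
    (II2 := B.II2) (lam := B.lam) (L2 := B.L2) (I := B.IT)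
    (fun r hr => one_pos)
    (fun r hr => (abs_nonneg _).trans_lt (hgt r hr))
    (by rw [heq, sq_abs, sub_self, mul_zero])
    hYn
    ((hVc.mono fun r hr => hR r hr).mul
      (((hHc.mono fun r hr => hR r hr).pow 2).sub ((hkc.mono fun r hr => hR r hr).pow 2)))
    (fun r hr => (B.rho_hasDerivAt (hR r hr)).continuousAt.continuousWithinAt)
    (fun r hr => (B.lam_deriv r (hR r hr)).continuousAt.continuousWithinAt)
    (fun r hr => B.rho_pos (hR r hr))
    (fun r hr => B.lam_pos r (hR r hr))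
    (fun r hr => B.rho_hasDerivAt (hR r hr.le))
    hYd
    (fun r hr => by
      rw [one_mul]
      exact hY r (hr0S.1.trans_lt hr) (hgt r hr))
    (fun r hr => (B.lam_deriv r (hR r hr.le)).congr_deriv (by rw [one_mul]))
    (fun r hr => B.hU r (hR r hr.le) _)
    (fun r hr => B.hL r (hR r hr.le))
    (fun r hr => B.hJ r (hR r hr.le))
  have e : (n : ℝ) - 1 - 1 = (n : ℝ) - 2 := by ring
  rw [e] at hbd hmono
  have hle : B.rho r0 ^ ((n : ℝ) - 2) ≤ 2 * m := by
    refine ge_of_tendsto hm ?_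
    filter_upwards [eventually_ge_atTop r0] with r hr
    exact hbd r hr
  have heq0 : B.rho r0 ^ ((n : ℝ) - 2) = 2 * m := le_antisymm hle (hA r0 hr0S.1)
  -- `r0` is the inner radius
  have hr0R : r0 = B.R := by
    by_contra hne
    have hlt : B.R < r0 := lt_of_le_of_ne hr0S.1 (Ne.symm hne)
    have hmin : IsLocalMin B.rho r0 := by
      filter_upwards [Ioi_mem_nhds hlt] with r hr
      have h1 := hA r (le_of_lt hr)
      rw [← heq0] at h1
      exact (Real.rpow_le_rpow_iff (B.rho_pos hr0S.1).le (B.rho_pos (le_of_lt hr)).le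
        (by linarith)).1 h1
    have h1 := hmin.hasDerivAt_eq_zero (B.rho_hasDerivAt hr0S.1)
    have h2 : B.H r0 = 0 := by
      rcases mul_eq_zero.1 h1 with h3 | h3
      · exact absurd h3 (B.rho_pos hr0S.1).ne'
      · rcases div_eq_zero_iff.1 h3 with h4 | h4
        · linarith
        · exact absurd h4 (by linarith)
    have h3 : kap r0 = 0 := abs_eq_zero.1 (by rw [← heq, h2])
    have h4 := hout r0 hlt
    rw [h2, h3] at h4
    norm_num at h4
  -- the mass function is constant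
  have hconst : ∀ r, r0 < r → B.rho r ^ ((n : ℝ) - 2) *
      (1 - V r * (B.H r ^ 2 - kap r ^ 2) / (4 * B.lam r ^ 2)) = 2 * m := by
    intro r hr
    refine le_antisymm ?_ ?_
    · refine ge_of_tendsto hm ?_
      filter_upwards [eventually_ge_atTop r] with s hs
      exact hmono (mem_Ici.2 hr.le) (mem_Ici.2 (hr.le.trans hs)) hs
    · rw [← heq0]; exact hbd r hr.le
  have hC : 0 < 2 * m := by
    rw [← heq0]; exact Real.rpow_pos_of_pos (B.rho_pos hr0S.1) _
  intro r hr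
  have hr' : r0 < r := by rw [hr0R]; exact hr
  obtain ⟨h1, h2, h3⟩ := mono_eq2 (N := (n : ℝ) - 1) (r0 := r0) (C := 2 * m) hN
    (c := fun _ => 1) (H := B.H)
    (Y := fun r => V r * (B.H r ^ 2 - kap r ^ 2))
    (Y' := fun r => V' r * (B.H r ^ 2 - kap r ^ 2) +
      V r * (2 * B.H r * deriv B.H r - 2 * kap r * deriv kap r)) (ρ := B.rho) (R := B.Rh)
    (II2 := B.II2) (lam := B.lam) (L2 := B.L2) (I := B.IT)
    (fun r hr => one_pos)
    (fun r hr => (abs_nonneg _).trans_lt (hgt r hr))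
    hYn
    (fun r hr => B.rho_pos (hR r hr))
    (fun r hr => B.lam_pos r (hR r hr))
    (fun r hr => B.rho_hasDerivAt (hR r hr.le))
    hYd
    (fun r hr => by
      rw [one_mul]
      exact hY r (hr0S.1.trans_lt hr) (hgt r hr))
    (fun r hr => (B.lam_deriv r (hR r hr.le)).congr_deriv (by rw [one_mul]))
    (fun r hr => B.hU r (hR r hr.le) _)
    (fun r hr => B.hL r (hR r hr.le))
    (fun r hr => B.hJ r (hR r hr.le)) hC
    (fun r hr => by rw [e]; exact hconst r hr) r hr'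
  rw [one_mul] at h1
  exact ⟨hgt r hr', hconst r hr', h1, h2, h3⟩

end Bg

end Vale.Agent.T4
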