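import Vale.Agent.P366.T4.R3a92

/-! T4, the equality case for the quaternionic family. -/

open MeasureTheory Metric Filter Topology Set Matrix
open scoped ContDiff ENNReal Matrix ComplexOrder MatrixOrder

noncomputable section
namespace Vale.Agent.T4
open Vale.Agent.P366.Stmt Vale.Agent.P366.T2

variable {n : ℕ}

theorem trace_sq_zero {q s : Matrix (Fin 3) (Fin 3) ℝ} (hq : q.PosDef) (hs : sᵀ = s)
    (h0 : ((q⁻¹ * s) * (q⁻¹ * s)).trace = 0) : s = 0 := by
  have hqi : (q⁻¹).PosSemidef := hq.inv.posSemidef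
  obtain ⟨C, hC⟩ := CStarAlgebra.nonneg_iff_eq_star_mul_self.mp hqi.nonneg
  rw [star_eq_conjTranspose] at hC
  have h1 : ((q⁻¹ * s) * (q⁻¹ * s)).trace = ((C * s * Cᵀ) * (C * s * Cᵀ)).trace := by
    rw [hC]
    simp only [conjTranspose_eq_transpose_of_trivial]
    have : (C * s * Cᵀ) * (C * s * Cᵀ) = C * (s * Cᵀ * C * s * Cᵀ) := by
      simp only [Matrix.mul_assoc]
    rw [this, Matrix.trace_mul_comm]
    have : Cᵀ * C * s * (Cᵀ * C * s) = Cᵀ * (C * s * Cᵀ * C * s) := by
      simp only [Matrix.mul_assoc]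
    rw [this, Matrix.trace_mul_comm]
    have : C * s * Cᵀ * C * s * Cᵀ = C * (s * Cᵀ * C * s * Cᵀ) := by simp only [Matrix.mul_assoc]
    rw [this, Matrix.trace_mul_comm]
  rw [h1] at h0
  have hsym : (C * s * Cᵀ)ᵀ = C * s * Cᵀ := by
    rw [Matrix.transpose_mul, Matrix.transpose_mul, Matrix.transpose_transpose, hs,
      Matrix.mul_assoc]
  have h2 : ((C * s * Cᵀ) * (C * s * Cᵀ)).trace = ∑ i, ∑ j, (C * s * Cᵀ) i j ^ 2 := by
    simp only [trace, diag, Matrix.mul_apply (M := C * s * Cᵀ) (N := C * s * Cᵀ)]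
    refine Finset.sum_congr rfl fun i _ => Finset.sum_congr rfl fun j _ => ?_
    rw [sq, ← Matrix.transpose_apply (C * s * Cᵀ) i j, hsym]
  rw [h2] at h0
  have h3 : C * s * Cᵀ = 0 := by
    ext i j
    have h4 := (Finset.sum_eq_zero_iff_of_nonneg (fun i _ => Finset.sum_nonneg fun j _ =>
      sq_nonneg _)).1 h0 i (Finset.mem_univ i)
    have h5 := (Finset.sum_eq_zero_iff_of_nonneg (fun j _ => sq_nonneg _)).1 h4 j
      (Finset.mem_univ j)
    exact (pow_eq_zero_iff two_ne_zero).1 h5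
  have hdet : IsUnit C.det := by
    rw [isUnit_iff_ne_zero]
    intro hd
    have h4 := congrArg Matrix.det hC
    rw [Matrix.det_mul, hd, mul_zero] at h4
    exact hq.inv.det_pos.ne' h4
  have hdet' : IsUnit (Cᵀ).det := by rwa [Matrix.det_transpose]
  have h6 : C⁻¹ * (C * s * Cᵀ) * (Cᵀ)⁻¹ = s := by
    rw [Matrix.mul_assoc C s, Matrix.nonsing_inv_mul_cancel_left _ _ hdet,
      Matrix.mul_nonsing_inv_cancel_right _ _ hdet']
  rw [← h6, h3, Matrix.mul_zero, Matrix.zero_mul]

/-- In dimension four the horizontal space is trivial. -/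
theorem Pi_zero (Q : Quat n) (hn : n = 4) {x : E n} (hx : x ≠ 0) (i j : Fin n) :
    Q.Pi x i j = 0 := by
  have e : ∀ i j, B68.nt Q 1 0 (fun _ => 0) (fun _ => 0) (fun _ _ => 0) x i j = Q.Pi x i j := by
    intro i j; unfold B68.nt; simp
  have h1 := B68.nt_nt Q 1 0 (fun _ => 0) (fun _ => 0) (fun _ _ => 0) hx 1 0 (fun _ => 0)
    (fun _ => 0) (fun _ _ => 0)
  simp only [e] at h1
  have hs : ∀ i j, Q.Pi x i j = Q.Pi x j i := by
    intro i j
    unfold Quat.Pi
    simp only [eq_comm (a := i) (b := j), mul_comm (x i) (x j), mul_comm (Q.Y _ x i) (Q.Y _ x j)]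
  have h2 : ∑ i, ∑ j, Q.Pi x i j ^ 2 = 0 := by
    have e2 : ∀ i j, Q.Pi x i j ^ 2 = Q.Pi x i j * Q.Pi x j i := fun i j => by
      rw [hs j i, sq]
    simp only [e2, h1]
    have : (n : ℝ) = 4 := by exact_mod_cast hn
    simp [this]
  have h4 := (Finset.sum_eq_zero_iff_of_nonneg (fun i _ => Finset.sum_nonneg fun j _ =>
      sq_nonneg _)).1 h2 i (Finset.mem_univ i)
  have h5 := (Finset.sum_eq_zero_iff_of_nonneg (fun j _ => sq_nonneg _)).1 h4 j
      (Finset.mem_univ j)
  exact (pow_eq_zero_iff two_ne_zero).1 h5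

theorem bgQ_roundEq (hn : 4 ≤ n) {D : Data n} (hp : ∀ r, D.R ≤ r → D.p r = 1)
    {G K0 : Field n} (h : Fits D G K0) : (bgQ hn D hp).RoundEq G := by
  intro r hr heq
  have hr' : D.R < r := hr
  have hr0 : 0 < r := D.hR.trans hr'
  have hn4 : (4 : ℝ) ≤ n := by exact_mod_cast hn
  have hb0 : 0 ≤ D.b := D.b_nonneg hn
  have hN : (n : ℝ) - 1 = D.b + 3 := by unfold Data.b; ring
  have hN1 : 0 < (n : ℝ) - 1 := by linarith
  have heq' : D.lam r ^ 2 = ((n : ℝ) - 1) * D.L2 r := heq
  have hg := D.g_pos hr'.le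
  have hY := D.Yh_pos hr'.le
  set ξ := D.lam r / ((n : ℝ) - 1) with hξ
  set s : Matrix (Fin 3) (Fin 3) ℝ :=
    (-(1 / D.g r ^ 3)) • (D.qh r * D.qh r) + D.ta r • D.qh r - ξ • D.qh r with hs
  have hss : sᵀ = s := by
    simp only [hs, transpose_sub, transpose_add, transpose_smul, transpose_mul, D.qh_symm r]
  have hM : D.Tq r - ξ • 1 = (D.qh r)⁻¹ * s := by
    rw [hs, Matrix.mul_sub, ← D.Tq_form hr'.le, Matrix.mul_smul, D.inv_mul_qh hr'.le]
  have e : ((D.Tq r - ξ • 1) * (D.Tq r - ξ • 1)).trace =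
      (D.Tq r * D.Tq r).trace - 2 * ξ * (D.Tq r).trace + 3 * ξ ^ 2 := by
    simp only [sub_mul, mul_sub, Matrix.smul_mul, Matrix.mul_smul, Matrix.one_mul, Matrix.mul_one,
      trace_sub, trace_smul, smul_eq_mul, trace_one, Fintype.card_fin, Nat.cast_ofNat]
    ring
  have ht := D.trace_Tq hr'.le
  have hlx : D.lam r = ((n : ℝ) - 1) * ξ := by rw [hξ]; field_simp
  have h2 : ((D.Tq r - ξ • 1) * (D.Tq r - ξ • 1)).trace + D.b * (D.Tb r - ξ) ^ 2 = 0 := by
    rw [e]
    have h3 : D.L2 r - 2 * ξ * D.lam r + ((n : ℝ) - 1) * ξ ^ 2 = 0 := by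
      have h4 : D.L2 r = ((n : ℝ) - 1) * ξ ^ 2 := by
        have h5 : ((n : ℝ) - 1) * (D.L2 r - ((n : ℝ) - 1) * ξ ^ 2) = 0 := by
          rw [hlx] at heq'
          linear_combination -heq'
        have := (mul_eq_zero.1 h5).resolve_left hN1.ne'
        linarith
      rw [h4, hlx]; ring
    rw [Data.L2, ← ht, hN] at h3
    linear_combination h3
  have h3 : 0 ≤ ((D.Tq r - ξ • 1) * (D.Tq r - ξ • 1)).trace := by
    rw [hM]; exact trace_sq_nonneg (D.qh_posDef hr'.le) hss
  have h4 : 0 ≤ D.b * (D.Tb r - ξ) ^ 2 := by positivity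
  have h5 : ((D.Tq r - ξ • 1) * (D.Tq r - ξ • 1)).trace = 0 := by linarith
  have h6 : D.b * (D.Tb r - ξ) ^ 2 = 0 := by linarith
  rw [hM] at h5
  have h7 := trace_sq_zero (D.qh_posDef hr'.le) hss h5
  -- the fibre metric is a multiple of the identity
  have h8 : D.Tq r = ξ • 1 := by
    rw [h7, Matrix.mul_zero] at hM
    exact sub_eq_zero.1 hM
  obtain ⟨c, hc⟩ : ∃ c : ℝ, D.qh r = c • (1 : Matrix (Fin 3) (Fin 3) ℝ) := by
    refine ⟨D.g r ^ 3 * (D.ta r - ξ), ?_⟩
    have h9 : (-(1 / D.g r ^ 3)) • D.qh r + D.ta r • 1 = ξ • (1 : Matrix (Fin 3) (Fin 3) ℝ) := h8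
    have h10 : (1 / D.g r ^ 3) • D.qh r = (D.ta r - ξ) • (1 : Matrix (Fin 3) (Fin 3) ℝ) := by
      rw [sub_smul, ← h9, neg_smul]; abel
    rw [mul_smul, ← h10, smul_smul, mul_one_div_cancel (by positivity), one_smul]
  have hdet : (D.qh r).det = c ^ 3 := by
    rw [hc, Matrix.det_smul, Fintype.card_fin, Matrix.det_one, mul_one]
  have hgc : D.g r ^ 6 = c ^ 3 := by rw [D.g_pow hr'.le, hdet]
  have hcg : c = D.g r ^ 2 := by
    have hc3 : 0 < c ^ 3 := by rw [← hgc]; positivity
    have hcpos : 0 < c := by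
      by_contra hneg
      push Not at hneg
      have : c ^ 3 ≤ 0 := by nlinarith [sq_nonneg c]
      linarith
    have h9 : c ^ 3 = (D.g r ^ 2) ^ 3 := by rw [← hgc]; ring
    exact (pow_left_inj₀ hcpos.le (by positivity) (by norm_num)).1 h9
  have htr : (D.qh r).trace = 3 * D.g r ^ 2 := by
    rw [hc, trace_smul, trace_one, Fintype.card_fin, hcg]; simp; ring
  have hlam : D.lam r = 3 / (2 * D.g r) + D.b / 4 * (1 / D.g r + D.g r / D.Yh r) := by
    rw [D.lam_eq hr'.le, htr]
    congr 1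
    field_simp
  have hcase : n = 4 ∨ D.Yh r = D.g r ^ 2 := by
    rcases mul_eq_zero.1 h6 with hb | hb
    · left
      have : (n : ℝ) = 4 := by unfold Data.b at hb; linarith
      exact_mod_cast this
    · right
      have h9 : D.Tb r = ξ := sub_eq_zero.1 ((pow_eq_zero_iff two_ne_zero).1 hb)
      have h10 : ((n : ℝ) - 1) * D.Tb r = D.lam r := by rw [h9, hlx]
      rw [hlam, hN] at h10
      unfold Data.Tb at h10
      field_simp at h10
      have h11 : (D.b + 6) * (D.Yh r - D.g r ^ 2) = 0 := by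
        linear_combination (-1 / 2 : ℝ) * h10
      have := (mul_eq_zero.1 h11).resolve_left (by linarith)
      linarith
  have hlam2 : D.lam r = ((n : ℝ) - 1) / (2 * D.g r) := by
    rcases hcase with h4 | h4
    · have hb : D.b = 0 := by
        unfold Data.b
        have : (n : ℝ) = 4 := by exact_mod_cast h4
        rw [this]; ring
      rw [hlam, hN, hb]; ring
    · rw [hlam, hN, h4]; field_simp; ring
  have hrho : (bgQ hn D hp).rho r = D.g r := by
    have h9 : (bgQ hn D hp).ar r = (D.g r ^ 2) ^ (((n : ℝ) - 1) / 2) := by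
      show D.ar r = _
      unfold Data.ar
      rw [← D.g_cube hr'.le]
      rcases hcase with h4 | h4
      · have hb : D.b = 0 := by
          unfold Data.b
          have : (n : ℝ) = 4 := by exact_mod_cast h4
          rw [this]; ring
        rw [hN, hb, zero_div, Real.rpow_zero, mul_one, ← Real.rpow_natCast (D.g r) 2,
          ← Real.rpow_mul hg.le, ← Real.rpow_natCast (D.g r) 3]
        congr 1
        push_cast; ring
      · rw [h4, hN, ← Real.rpow_natCast (D.g r) 2, ← Real.rpow_mul hg.le,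
          ← Real.rpow_natCast (D.g r) 3, ← Real.rpow_mul hg.le, ← Real.rpow_add hg]
        congr 1
        push_cast; ring
    unfold Bg.rho
    rw [h9, rpow_half (by positivity) hN1, Real.sqrt_sq hg.le]
  have hq : ∀ a b, D.q a b r = if a = b then (D.g r / r) ^ 2 else 0 := by
    intro a b
    have h9 := congrFun (congrFun hc a) b
    rw [hcg] at h9
    have h10 : D.qh r a b = r ^ 2 * D.q a b r := rfl
    rw [h10, Matrix.smul_apply, Matrix.one_apply, smul_eq_mul] at h9
    split_ifs with hab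
    · rw [if_pos hab, mul_one] at h9
      rw [div_pow, eq_div_iff (by positivity), ← h9]; ring
    · rw [if_neg hab, mul_zero] at h9
      exact (mul_eq_zero.1 h9).resolve_left (by positivity)
  refine ⟨?_, fun x hx i j => ?_⟩
  · rw [hrho]; exact hlam2
  · subst hx
    have hx0 := ne_zero_of_len D.hR hr'.le
    have hl : len x ≠ 0 := hr0.ne'
    rw [hrho, B68.g_nt h hr'.le, hp _ hr'.le]
    have hal : D.al (len x) * D.Q.Pi x i j = (D.g (len x) / len x) ^ 2 * D.Q.Pi x i j := by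
      rcases hcase with h4 | h4
      · rw [Pi_zero D.Q h4 hx0, mul_zero, mul_zero]
      · congr 1
        rw [div_pow, ← h4, eq_div_iff (by positivity)]
        unfold Data.Yh; ring
    unfold B68.nt
    rw [hal]
    simp only [hq, ite_mul, zero_mul, Finset.sum_const_zero, Finset.sum_ite_eq, Finset.mem_univ,
      if_true, ← Finset.mul_sum, add_zero]
    unfold Quat.Pi nx
    field_simp
    ring

end Vale.Agent.T4
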