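import Vale.Agent.P366.T4.StShift
import Vale.Agent.P366.T4.R3b92
import Vale.Agent.P366.T4.KeyEq
import Vale.Agent.P366.T2.FinalM

/-! T4: the equality case for `Sp(m)`-invariant data with shift. -/

open MeasureTheory Metric Filter Topology Set Matrix
open scoped ContDiff ENNReal Matrix

noncomputable section
namespace Vale.Agent.T4
open Vale.Agent.P366.Stmt Vale.Agent.P366.T2

variable {n : ℕ}

section

variable (D : Data n) (be : Fin 3 → ℝ → ℝ)

/-- **Equality case of the monotonicity.** -/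
theorem keyM_eq (hn : 4 ≤ n) (hdec : ∀ r, D.R < r → |D.JNM be r| ≤ D.muM be r)
    (h0 : D.H D.R + D.k D.R ≤ 0) (hinf : ∀ᶠ r in atTop, |D.k r| < D.H r) {m : ℝ}
    (hm : Tendsto D.mass atTop (𝓝 (2 * m)))
    (hA : ∀ r, D.R ≤ r → 2 * m ≤ D.rho r ^ ((n : ℝ) - 2))
    (hout : ∀ r, D.R < r → 0 < D.H r + D.k r) :
    ∀ r, D.R < r → |D.k r| < D.H r ∧ D.mass r = 2 * m ∧
      2 * D.H r * deriv D.H r - 2 * D.k r * deriv D.k r =
        D.c r * (D.H r * D.Rh r - D.H r * (D.H r ^ 2 - D.k r ^ 2) -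
          (D.H r ^ 2 - D.k r ^ 2) / D.H r * D.II2M be r) ∧
      D.lam r ^ 2 = ((n : ℝ) - 1) * D.L2 r := by
  -- the last radius with `H ≤ |k|`
  obtain ⟨R1, hR1⟩ := (eventually_atTop.1 hinf)
  set S : Set ℝ := {r | D.R ≤ r ∧ D.H r ≤ |D.k r|} with hS
  have hHc : ContinuousOn D.H (Ici D.R) := fun r hr => (D.H_diff hr).continuousAt.continuousWithinAt
  have hkc : ContinuousOn D.k (Ici D.R) := fun r hr => (D.k_diff hr).continuousAt.continuousWithinAt
  have hSc : IsClosed S := by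
    have h1 : ContinuousOn (fun r => |D.k r| - D.H r) (Ici D.R) := hkc.abs.sub hHc
    have h2 := h1.preimage_isClosed_of_isClosed isClosed_Ici (isClosed_Ici (a := (0 : ℝ)))
    convert h2 using 1
    ext r
    simp only [hS, mem_ofPred_eq, mem_inter_iff, mem_Ici, mem_preimage, sub_nonneg]
  have hSne : S.Nonempty := ⟨D.R, le_rfl, by
    have := neg_le_abs (D.k D.R)
    linarith⟩
  have hSb : BddAbove S := ⟨max D.R R1, fun r hr => by
    by_contra hlt
    push Not at hlt
    have h1 := hR1 r ((le_max_right _ _).trans hlt.le)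
    exact absurd hr.2 (not_le.2 h1)⟩
  set r0 := sSup S with hr0
  have hr0S : r0 ∈ S := hSc.csSup_mem hSne hSb
  have hgt : ∀ r, r0 < r → |D.k r| < D.H r := by
    intro r hr
    by_contra hle
    push Not at hle
    exact absurd (le_csSup hSb ⟨hr0S.1.trans hr.le, hle⟩) (not_le.2 hr)
  have hge : |D.k r0| ≤ D.H r0 := by
    have h1 : Tendsto (fun r => |D.k r|) (𝓝[>] r0) (𝓝 (|D.k r0|)) :=
      ((D.k_diff hr0S.1).continuousAt.abs).mono_left nhdsWithin_le_nhds
    have h2 : Tendsto D.H (𝓝[>] r0) (𝓝 (D.H r0)) :=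
      ((D.H_diff hr0S.1).continuousAt).mono_left nhdsWithin_le_nhds
    refine le_of_tendsto_of_tendsto h1 h2 ?_
    filter_upwards [self_mem_nhdsWithin] with r hr using (hgt r hr).le
  have heq : D.H r0 = |D.k r0| := le_antisymm hr0S.2 hge
  have hR : ∀ r, r0 ≤ r → D.R ≤ r := fun r hr => hr0S.1.trans hr
  have hn4 : (4 : ℝ) ≤ n := by exact_mod_cast hn
  have hN : 1 < (n : ℝ) - 1 := by linarith
  have hYn : ∀ r, r0 < r → 0 ≤ D.H r ^ 2 - D.k r ^ 2 := by
    intro r hr
    have h1 := hgt r hr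
    have h2 : D.k r ^ 2 ≤ D.H r ^ 2 := by
      rw [← sq_abs (D.k r)]
      exact pow_le_pow_left₀ (abs_nonneg _) h1.le 2
    linarith
  have hYd : ∀ r, r0 < r → HasDerivAt (fun r => D.H r ^ 2 - D.k r ^ 2)
      (2 * D.H r * deriv D.H r - 2 * D.k r * deriv D.k r) r := by
    intro r hr
    have h1 := (D.H_diff (hR r hr.le)).hasDerivAt
    have h2 := (D.k_diff (hR r hr.le)).hasDerivAt
    refine ((h1.pow 2).sub (h2.pow 2)).congr_deriv ?_
    simp
  obtain ⟨hmono, hbd⟩ := mono_main2 (N := (n : ℝ) - 1) (r0 := r0) hN (c := D.c) (H := D.H)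
    (Y := fun r => D.H r ^ 2 - D.k r ^ 2)
    (Y' := fun r => 2 * D.H r * deriv D.H r - 2 * D.k r * deriv D.k r) (ρ := D.rho) (R := D.Rh)
    (II2 := D.II2M be) (lam := D.lam) (L2 := D.L2) (I := D.IT)
    (fun r hr => D.c_pos (hR r hr.le))
    (fun r hr => (abs_nonneg _).trans_lt (hgt r hr))
    (by rw [heq, sq_abs, sub_self])
    hYn
    (((hHc.mono fun r hr => hR r hr).pow 2).sub ((hkc.mono fun r hr => hR r hr).pow 2))
    (fun r hr => (D.rho_hasDerivAt (hR r hr)).continuousAt.continuousWithinAt)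
    (fun r hr => (D.lam_hasDerivAt (hR r hr)).continuousAt.continuousWithinAt)
    (fun r hr => D.rho_pos (hR r hr))
    (fun r hr => D.lam_pos hn (hR r hr))
    (fun r hr => D.rho_hasDerivAt (hR r hr.le))
    hYd
    (fun r hr => D.deriv_leM be hn (hR r hr.le) (hdec r (hr0S.1.trans_lt hr)) (hgt r hr))
    (fun r hr => D.lam_hasDerivAt (hR r hr.le))
    (fun r hr => D.hU_leM be hn (hR r hr.le) _)
    (fun r hr => D.hL_le hn (hR r hr.le))
    (fun r hr => D.hJ_le hn (hR r hr.le))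
  have e : (n : ℝ) - 1 - 1 = (n : ℝ) - 2 := by ring
  rw [e] at hbd hmono
  have hle : D.rho r0 ^ ((n : ℝ) - 2) ≤ 2 * m := by
    refine ge_of_tendsto hm ?_
    filter_upwards [eventually_ge_atTop r0] with r hr
    exact hbd r hr
  have heq0 : D.rho r0 ^ ((n : ℝ) - 2) = 2 * m := le_antisymm hle (hA r0 hr0S.1)
  -- `r0` is the inner radius
  have hr0R : r0 = D.R := by
    by_contra hne
    have hlt : D.R < r0 := lt_of_le_of_ne hr0S.1 (Ne.symm hne)
    have hmin : IsLocalMin D.rho r0 := by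
      filter_upwards [Ioi_mem_nhds hlt] with r hr
      have h1 := hA r (le_of_lt hr)
      rw [← heq0] at h1
      exact (Real.rpow_le_rpow_iff (D.rho_pos hr0S.1).le (D.rho_pos (le_of_lt hr)).le
        (by linarith)).1 h1
    have h1 := hmin.hasDerivAt_eq_zero (D.rho_hasDerivAt hr0S.1)
    have h2 : D.H r0 = 0 := by
      rcases mul_eq_zero.1 h1 with h3 | h3
      · exact absurd h3 (D.rho_pos hr0S.1).ne'
      · rcases div_eq_zero_iff.1 h3 with h4 | h4
        · exact (mul_eq_zero.1 h4).resolve_left (D.c_pos hr0S.1).ne'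
        · exact absurd h4 (by linarith)
    have h3 : D.k r0 = 0 := abs_eq_zero.1 (by rw [← heq, h2])
    have h4 := hout r0 hlt
    rw [h2, h3] at h4
    norm_num at h4
  -- the mass function is constant
  have hconst : ∀ r, r0 < r → D.rho r ^ ((n : ℝ) - 2) *
      (1 - (D.H r ^ 2 - D.k r ^ 2) / (4 * D.lam r ^ 2)) = 2 * m := by
    intro r hr
    refine le_antisymm ?_ ?_
    · refine ge_of_tendsto hm ?_
      filter_upwards [eventually_ge_atTop r] with s hs
      exact hmono (mem_Ici.2 hr.le) (mem_Ici.2 (hr.le.trans hs)) hs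
    · rw [← heq0]; exact hbd r hr.le
  have hC : 0 < 2 * m := by
    rw [← heq0]; exact Real.rpow_pos_of_pos (D.rho_pos hr0S.1) _
  intro r hr
  have hr' : r0 < r := by rw [hr0R]; exact hr
  obtain ⟨h1, h2, -⟩ := mono_eq2 (N := (n : ℝ) - 1) (r0 := r0) (C := 2 * m) hN
    (c := D.c) (H := D.H)
    (Y := fun r => D.H r ^ 2 - D.k r ^ 2)
    (Y' := fun r => 2 * D.H r * deriv D.H r - 2 * D.k r * deriv D.k r) (ρ := D.rho) (R := D.Rh)
    (II2 := D.II2M be) (lam := D.lam) (L2 := D.L2) (I := D.IT)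
    (fun r hr => D.c_pos (hR r hr.le))
    (fun r hr => (abs_nonneg _).trans_lt (hgt r hr))
    hYn
    (fun r hr => D.rho_pos (hR r hr))
    (fun r hr => D.lam_pos hn (hR r hr))
    (fun r hr => D.rho_hasDerivAt (hR r hr.le))
    hYd
    (fun r hr => D.deriv_leM be hn (hR r hr.le) (hdec r (hr0S.1.trans_lt hr)) (hgt r hr))
    (fun r hr => D.lam_hasDerivAt (hR r hr.le))
    (fun r hr => D.hU_leM be hn (hR r hr.le) _)
    (fun r hr => D.hL_le hn (hR r hr.le))
    (fun r hr => D.hJ_le hn (hR r hr.le)) hC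
    (fun r hr => by rw [e]; exact hconst r hr) r hr'
  exact ⟨hgt r hr', hconst r hr', h1, h2⟩

variable {D be}

/-- equality in the positivity of the square -/
theorem sq_eq_zero_of {r : ℝ} (hr : D.R ≤ r) (hn : 4 ≤ n) {M s : Matrix (Fin 3) (Fin 3) ℝ} {x : ℝ}
    (hs : sᵀ = s) (hM : M = (D.qh r)⁻¹ * s) (h0 : (M * M).trace + D.b * x ^ 2 = 0) :
    M = 0 ∧ (n = 4 ∨ x = 0) := by
  have h1 := trace_sq_nonneg (D.qh_posDef hr) hs
  rw [← hM] at h1
  have h2 := D.b_nonneg hn
  have h3 : 0 ≤ D.b * x ^ 2 := by positivity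
  have h4 : (M * M).trace = 0 := by linarith
  have h5 : D.b * x ^ 2 = 0 := by linarith
  rw [hM] at h4
  have h6 := trace_sq_zero (D.qh_posDef hr) hs h4
  refine ⟨by rw [hM, h6, Matrix.mul_zero], ?_⟩
  rcases mul_eq_zero.1 h5 with hb | hb
  · left
    have : (n : ℝ) = 4 := by unfold Data.b at hb; linarith
    exact_mod_cast this
  · right
    exact (pow_eq_zero_iff two_ne_zero).1 hb

/-- **equality in the differential inequality** -/
theorem dataM_eq (hn : 4 ≤ n) {r : ℝ} (hr : D.R ≤ r) (hdec : |D.JNM be r| ≤ D.muM be r)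
    (hk : |D.k r| < D.H r)
    (heq : 2 * D.H r * deriv D.H r - 2 * D.k r * deriv D.k r =
      D.c r * (D.H r * D.Rh r - D.H r * (D.H r ^ 2 - D.k r ^ 2) -
        (D.H r ^ 2 - D.k r ^ 2) / D.H r * D.II2M be r)) :
    D.JNM be r = 0 ∧ (∀ a, D.v a r = 0) ∧
      D.S r = (D.k r / (D.H r * D.c r)) • D.AM be r ∧
      (n = 4 ∨ D.ka r / D.al r = D.k r / (D.H r * D.c r) * D.yb r) := by
  have hc := D.c_pos hr
  have hH : 0 < D.H r := (abs_nonneg _).trans_lt hk
  have hmu : 0 ≤ D.muM be r := (abs_nonneg _).trans hdec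
  have h2 : D.k r * D.JNM be r ≤ |D.k r| * |D.JNM be r| := by
    rw [← abs_mul]; exact le_abs_self _
  have h3 : |D.k r| * |D.JNM be r| ≤ |D.k r| * D.muM be r :=
    mul_le_mul_of_nonneg_left hdec (abs_nonneg _)
  have h3' : |D.k r| * D.muM be r ≤ D.H r * D.muM be r :=
    mul_le_mul_of_nonneg_right hk.le hmu
  have h1 : 0 ≤ D.H r * D.muM be r - D.k r * D.JNM be r := by linarith
  have hbe := D.be2_nonneg hr
  have hK := D.KII_leM be hn hr (D.k r / D.H r)
  have e1 : D.H r * (D.KS2 r - 2 * (D.k r / D.H r) * D.IIKM be r +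
      (D.k r / D.H r) ^ 2 * D.II2M be r) = D.H r * D.KS2 r - 2 * D.k r * D.IIKM be r +
        D.k r ^ 2 / D.H r * D.II2M be r := by field_simp
  have e2 : D.c r * (2 * (D.H r * D.muM be r - D.k r * D.JNM be r)) =
      D.c r * (D.H r * (D.Rh r - D.II2M be r - D.H r ^ 2 + D.k r ^ 2 - D.KS2 r - 2 * D.be2 r) +
        2 * D.k r * D.IIKM be r) - (2 * D.H r * deriv D.H r - 2 * D.k r * deriv D.k r) := by
    rw [Data.muM, Data.JNM, Data.RgM]; field_simp; ring
  have e5 : (D.H r ^ 2 - D.k r ^ 2) / D.H r * D.II2M be r = D.H r * D.II2M be r -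
      D.k r ^ 2 / D.H r * D.II2M be r := by field_simp
  rw [heq, e5] at e2
  have hsum : 2 * (D.H r * D.muM be r - D.k r * D.JNM be r) + 2 * (D.H r * D.be2 r) +
      D.H r * (D.KS2 r - 2 * (D.k r / D.H r) * D.IIKM be r +
      (D.k r / D.H r) ^ 2 * D.II2M be r) = 0 := by
    rw [e1]
    have e6 : D.c r * (2 * (D.H r * D.muM be r - D.k r * D.JNM be r) + 2 * (D.H r * D.be2 r) +
      (D.H r * D.KS2 r - 2 * D.k r * D.IIKM be r + D.k r ^ 2 / D.H r * D.II2M be r)) = 0 := by
      linear_combination e2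
    exact (mul_eq_zero.1 e6).resolve_left hc.ne'
  have hq1 : 0 ≤ D.H r * D.be2 r := mul_nonneg hH.le hbe
  have hq2 : 0 ≤ D.H r * (D.KS2 r - 2 * (D.k r / D.H r) * D.IIKM be r +
      (D.k r / D.H r) ^ 2 * D.II2M be r) := mul_nonneg hH.le hK
  have z1 : D.H r * D.muM be r - D.k r * D.JNM be r = 0 := by linarith
  have z2 : D.H r * D.be2 r = 0 := by linarith
  have z3 : D.H r * (D.KS2 r - 2 * (D.k r / D.H r) * D.IIKM be r +
      (D.k r / D.H r) ^ 2 * D.II2M be r) = 0 := by linarith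
  have z2' := (mul_eq_zero.1 z2).resolve_left hH.ne'
  have z3' := (mul_eq_zero.1 z3).resolve_left hH.ne'
  have hmu0 : D.muM be r = 0 := by
    have h4 : (D.H r - |D.k r|) * D.muM be r ≤ 0 := by linarith
    have h5 : 0 < D.H r - |D.k r| := by linarith
    by_contra hne
    have h6 : 0 < D.muM be r := lt_of_le_of_ne hmu (Ne.symm hne)
    have := mul_pos h5 h6
    linarith
  refine ⟨?_, ?_, ?_⟩
  · rw [hmu0] at hdec
    exact abs_eq_zero.1 (le_antisymm hdec (abs_nonneg _))
  · -- the mixed components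
    have hp := D.p_pos r hr
    have h6 : ∑ a, ∑ b, (Matrix.of fun a b => D.q a b r)⁻¹ a b * D.v a r * D.v b r = 0 := by
      unfold Data.be2 at z2'
      rcases div_eq_zero_iff.1 z2' with h7 | h7
      · exact h7
      · exact absurd h7 hp.ne'
    have h8 := (D.q_pos r hr).inv
    by_contra hne
    push Not at hne
    obtain ⟨a0, ha0⟩ := hne
    have h9 : (fun a => D.v a r) ≠ 0 := fun h => ha0 (congrFun h a0)
    have h10 := h8.dotProduct_mulVec_pos h9
    have h11 : star (fun a => D.v a r) ⬝ᵥ (Matrix.of fun a b => D.q a b r)⁻¹ *ᵥ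
        (fun a => D.v a r) =
        ∑ a, ∑ b, (Matrix.of fun a b => D.q a b r)⁻¹ a b * D.v a r * D.v b r := by
      simp only [dotProduct, mulVec, Pi.star_apply, star_trivial]
      refine Finset.sum_congr rfl fun a _ => ?_
      rw [Finset.mul_sum]
      refine Finset.sum_congr rfl fun b _ => ?_
      ring
    rw [h11, h6] at h10
    exact lt_irrefl _ h10
  · set y := D.k r / D.H r with hy
    have hp : D.p r = D.c r ^ 2 := (D.c_sq hr).symm
    have h := sq_eq_zero_of (D := D) hr hn (M := D.S r - (y / D.c r) • D.AM be r)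
      (x := D.ka r / D.al r - y / D.c r * D.yb r)
      (s := ((r ^ 2) • Matrix.of fun a b => D.s a b r) - (y / D.c r) •
        ((1 / 2 : ℝ) • D.dqM be r)) (by
        simp only [transpose_sub, transpose_smul, D.dqM_symm be r]
        congr 2
        ext a b
        simp only [transpose_apply, of_apply]
        rw [D.s_symm a b]) (by
        rw [Matrix.mul_sub, ← D.S_eq hr, D.AM_eq, Matrix.mul_smul, Matrix.mul_smul]) (by
        rw [← z3']
        have e : ((D.S r - (y / D.c r) • D.AM be r) * (D.S r - (y / D.c r) • D.AM be r)).trace =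
            (D.S r * D.S r).trace - 2 * y * (D.AM be r * D.S r).trace / D.c r +
              y ^ 2 * (D.AM be r * D.AM be r).trace / D.c r ^ 2 := by
          simp only [sub_mul, mul_sub, Matrix.smul_mul, Matrix.mul_smul, trace_sub, trace_smul,
            smul_eq_mul, Matrix.trace_mul_comm (D.S r) (D.AM be r)]
          field_simp; ring
        rw [e, Data.KS2, Data.IIKM, Data.II2M, hp]
        field_simp
        ring)
    have e9 : y / D.c r = D.k r / (D.H r * D.c r) := by rw [hy, div_div]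
    rw [e9] at h
    refine ⟨sub_eq_zero.1 h.1, ?_⟩
    rcases h.2 with h7 | h7
    · exact Or.inl h7
    · exact Or.inr (sub_eq_zero.1 h7)

/-- **equality in `lam² ≤ (n - 1) L2`: round spheres** -/
theorem roundM (hn : 4 ≤ n) {r : ℝ} (hr : D.R ≤ r)
    (heq : D.lam r ^ 2 = ((n : ℝ) - 1) * D.L2 r) :
    (n = 4 ∨ D.Yh r = D.rho r ^ 2) ∧ D.lam r = ((n : ℝ) - 1) / (2 * D.rho r) ∧
      ∀ a b, D.q a b r = if a = b then (D.rho r / r) ^ 2 else 0 := by
  have hr0 : 0 < r := D.hR.trans_le hr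
  have hn4 : (4 : ℝ) ≤ n := by exact_mod_cast hn
  have hb0 : 0 ≤ D.b := D.b_nonneg hn
  have hN : (n : ℝ) - 1 = D.b + 3 := by unfold Data.b; ring
  have hN1 : 0 < (n : ℝ) - 1 := by linarith
  have hg := D.g_pos hr
  have hY := D.Yh_pos hr
  set ξ := D.lam r / ((n : ℝ) - 1) with hξ
  set s : Matrix (Fin 3) (Fin 3) ℝ :=
    (-(1 / D.g r ^ 3)) • (D.qh r * D.qh r) + D.ta r • D.qh r - ξ • D.qh r with hs
  have hss : sᵀ = s := by
    simp only [hs, transpose_sub, transpose_add, transpose_smul, transpose_mul, D.qh_symm r]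
  have hM : D.Tq r - ξ • 1 = (D.qh r)⁻¹ * s := by
    rw [hs, Matrix.mul_sub, ← D.Tq_form hr, Matrix.mul_smul, D.inv_mul_qh hr]
  have e : ((D.Tq r - ξ • 1) * (D.Tq r - ξ • 1)).trace =
      (D.Tq r * D.Tq r).trace - 2 * ξ * (D.Tq r).trace + 3 * ξ ^ 2 := by
    simp only [sub_mul, mul_sub, Matrix.smul_mul, Matrix.mul_smul, Matrix.one_mul, Matrix.mul_one,
      trace_sub, trace_smul, smul_eq_mul, trace_one, Fintype.card_fin, Nat.cast_ofNat]
    ring
  have ht := D.trace_Tq hr
  have hlx : D.lam r = ((n : ℝ) - 1) * ξ := by rw [hξ]; field_simp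
  have h2 : ((D.Tq r - ξ • 1) * (D.Tq r - ξ • 1)).trace + D.b * (D.Tb r - ξ) ^ 2 = 0 := by
    rw [e]
    have h3 : D.L2 r - 2 * ξ * D.lam r + ((n : ℝ) - 1) * ξ ^ 2 = 0 := by
      have h4 : D.L2 r = ((n : ℝ) - 1) * ξ ^ 2 := by
        have h5 : ((n : ℝ) - 1) * (D.L2 r - ((n : ℝ) - 1) * ξ ^ 2) = 0 := by
          rw [hlx] at heq
          linear_combination -heq
        have := (mul_eq_zero.1 h5).resolve_left hN1.ne'
        linarith
      rw [h4, hlx]; ring
    rw [Data.L2, ← ht, hN] at h3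
    linear_combination h3
  obtain ⟨h8', h9'⟩ := sq_eq_zero_of (D := D) hr hn hss hM h2
  have h8 : D.Tq r = ξ • 1 := sub_eq_zero.1 h8'
  obtain ⟨c, hc⟩ : ∃ c : ℝ, D.qh r = c • (1 : Matrix (Fin 3) (Fin 3) ℝ) := by
    refine ⟨D.g r ^ 3 * (D.ta r - ξ), ?_⟩
    have h9 : (-(1 / D.g r ^ 3)) • D.qh r + D.ta r • 1 = ξ • (1 : Matrix (Fin 3) (Fin 3) ℝ) := h8
    have h10 : (1 / D.g r ^ 3) • D.qh r = (D.ta r - ξ) • (1 : Matrix (Fin 3) (Fin 3) ℝ) := by
      rw [sub_smul, ← h9, neg_smul]; abel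
    rw [mul_smul, ← h10, smul_smul, mul_one_div_cancel (by positivity), one_smul]
  have hdet : (D.qh r).det = c ^ 3 := by
    rw [hc, Matrix.det_smul, Fintype.card_fin, Matrix.det_one, mul_one]
  have hgc : D.g r ^ 6 = c ^ 3 := by rw [D.g_pow hr, hdet]
  have hcg : c = D.g r ^ 2 := by
    have hc3 : 0 < c ^ 3 := by rw [← hgc]; positivity
    have hcpos : 0 < c := by
      by_contra hneg
      push Not at hneg
      have : c ^ 3 ≤ 0 := by nlinarith [sq_nonneg c]
      linarith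
    have h9 : c ^ 3 = (D.g r ^ 2) ^ 3 := by rw [← hgc]; ring
    exact (pow_left_inj₀ hcpos.le (by positivity) (by norm_num)).1 h9
  have htr : (D.qh r).trace = 3 * D.g r ^ 2 := by
    rw [hc, trace_smul, trace_one, Fintype.card_fin, hcg]; simp; ring
  have hlam : D.lam r = 3 / (2 * D.g r) + D.b / 4 * (1 / D.g r + D.g r / D.Yh r) := by
    rw [D.lam_eq hr, htr]
    congr 1
    field_simp
  have hcase : n = 4 ∨ D.Yh r = D.g r ^ 2 := by
    rcases h9' with hb | hb
    · exact Or.inl hb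
    · right
      have h9 : D.Tb r = ξ := sub_eq_zero.1 hb
      have h10 : ((n : ℝ) - 1) * D.Tb r = D.lam r := by rw [h9, hlx]
      rw [hlam, hN] at h10
      unfold Data.Tb at h10
      field_simp at h10
      have h11 : (D.b + 6) * (D.Yh r - D.g r ^ 2) = 0 := by
        linear_combination (-1 / 2 : ℝ) * h10
      have := (mul_eq_zero.1 h11).resolve_left (by linarith)
      linarith
  have hlam2 : D.lam r = ((n : ℝ) - 1) / (2 * D.g r) := by
    rcases hcase with h4 | h4
    · have hb : D.b = 0 := by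
        unfold Data.b
        have : (n : ℝ) = 4 := by exact_mod_cast h4
        rw [this]; ring
      rw [hlam, hN, hb]; ring
    · rw [hlam, hN, h4]; field_simp; ring
  have hrho : D.rho r = D.g r := by
    have h9 : D.ar r = (D.g r ^ 2) ^ (((n : ℝ) - 1) / 2) := by
      unfold Data.ar
      rw [← D.g_cube hr]
      rcases hcase with h4 | h4
      · have hb : D.b = 0 := by
          unfold Data.b
          have : (n : ℝ) = 4 := by exact_mod_cast h4
          rw [this]; ring
        rw [hN, hb, zero_div, Real.rpow_zero, mul_one, ← Real.rpow_natCast (D.g r) 2,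
          ← Real.rpow_mul hg.le, ← Real.rpow_natCast (D.g r) 3]
        congr 1
        push_cast; ring
      · rw [h4, hN, ← Real.rpow_natCast (D.g r) 2, ← Real.rpow_mul hg.le,
          ← Real.rpow_natCast (D.g r) 3, ← Real.rpow_mul hg.le, ← Real.rpow_add hg]
        congr 1
        push_cast; ring
    unfold Data.rho
    rw [h9, rpow_half (by positivity) hN1, Real.sqrt_sq hg.le]
  rw [hrho]
  refine ⟨hcase, hlam2, fun a b => ?_⟩
  have h9 := congrFun (congrFun hc a) b
  rw [hcg] at h9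
  have h10 : D.qh r a b = r ^ 2 * D.q a b r := rfl
  rw [h10, Matrix.smul_apply, Matrix.one_apply, smul_eq_mul] at h9
  split_ifs with hab
  · rw [if_pos hab, mul_one] at h9
    rw [div_pow, eq_div_iff (by positivity), ← h9]; ring
  · rw [if_neg hab, mul_zero] at h9
    exact (mul_eq_zero.1 h9).resolve_left (by positivity)

end

end Vale.Agent.T4
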