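import Vale.Agent.P366.T4.Out

/-! T4: the null expansion of the centred spheres for the smooth defining function `|x|² - r²` and a
general metric. -/

open MeasureTheory Metric Filter Topology Set
open scoped ContDiff ENNReal Matrix

noncomputable section
namespace Vale.Agent.T4
open Vale.Agent.P366.Stmt Vale.Agent.P366.T2
open Vale.Agent.C92 (pd_congr_outside pd_mul pd_sum pd_len pd_pd_len trS_def outside_nonneg
  theta_compare)

variable {n : ℕ}

lemma pd_sqF_len' {x : E n} (h0 : x ≠ 0) (r : ℝ) (j : Fin n) :
    pd j (sqF n r) x = 2 * len x * pd j len x := by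
  have hl := len_ne h0
  rw [pd_sqF, pd_len h0]
  field_simp

/-- Null expansion of the centred spheres, for the smooth defining function. -/
theorem theta_sqF_gen {g K : Field n} {x : E n} (h0 : x ≠ 0) (hg : (mat g x).PosDef) (r : ℝ) :
    thetaPlus g K (sqF n r) x = thetaPlus g K len x := by
  have hl : 0 < len x := norm_pos_iff.2 h0
  have hcov : covNorm g (fun j => pd j (sqF n r)) x =
      2 * len x * covNorm g (fun j => pd j len) x := by
    unfold covNorm
    have e : ∑ i, ∑ j, up g i j x * pd i (sqF n r) x * pd j (sqF n r) x =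
        (2 * len x) ^ 2 * ∑ i, ∑ j, up g i j x * pd i len x * pd j len x := by
      simp only [Finset.mul_sum, pd_sqF_len' h0]
      exact Finset.sum_congr rfl fun i _ => Finset.sum_congr rfl fun j _ => by ring
    rw [e, Real.sqrt_mul (by positivity), Real.sqrt_sq (by positivity)]
  have hnrm : ∀ i, nrm g (sqF n r) i x = nrm g len i x := by
    intro i
    unfold nrm
    rw [hcov]
    simp only [pd_sqF_len' h0]
    have e : ∑ j, up g i j x * (2 * len x * pd j len x) =
        (2 * len x) * ∑ j, up g i j x * pd j len x := by
      rw [Finset.mul_sum]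
      exact Finset.sum_congr rfl fun j _ => by ring
    rw [e, mul_div_mul_left _ _ (by positivity)]
  have htr : ∀ T : Field n, trS g T (sqF n r) x = trS g T len x := by
    intro T
    rw [trS_def, trS_def]
    simp only [hnrm]
  have hnx : ∀ i, pd i len x = nx i x := fun i => pd_len h0 i
  -- the norm of `dr`
  have hQ : 0 ≤ ∑ i, ∑ j, up g i j x * nx i x * nx j x := by
    have h1 := hg.inv.posSemidef.dotProduct_mulVec_nonneg (fun i => nx i x)
    simp only [dotProduct, Matrix.mulVec, Pi.star_apply, star_trivial, Finset.mul_sum] at h1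
    refine h1.trans (le_of_eq ?_)
    exact Finset.sum_congr rfl fun i _ => Finset.sum_congr rfl fun j _ => by
      unfold up; ring
  have hc2 : covNorm g (fun j => pd j len) x ^ 2 = ∑ i, ∑ j, up g i j x * nx i x * nx j x := by
    unfold covNorm
    simp only [hnx]
    exact Real.sq_sqrt hQ
  have hnn : trS g (fun y i j => nx i y * nx j y) len x = 0 := by
    rw [trS_def]
    have e1 : ∑ i, nx i x * nrm g len i x = covNorm g (fun j => pd j len) x := by
      unfold nrm
      have e2 : ∀ i, nx i x * ((∑ j, up g i j x * pd j len x) /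
          covNorm g (fun j => pd j len) x) =
          (∑ j, up g i j x * nx i x * nx j x) / covNorm g (fun j => pd j len) x := by
        intro i
        rw [← mul_div_assoc, Finset.mul_sum]
        congr 1
        exact Finset.sum_congr rfl fun j _ => by rw [hnx]; ring
      simp only [e2]
      rw [← Finset.sum_div, ← hc2]
      rcases eq_or_ne (covNorm g (fun j => pd j len) x) 0 with h3 | h3
      · rw [h3]; simp
      · field_simp
    have e3 : ∑ i, ∑ j, (up g i j x - nrm g len i x * nrm g len j x) * (nx i x * nx j x) =
        (∑ i, ∑ j, up g i j x * nx i x * nx j x) -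
          (∑ i, nx i x * nrm g len i x) * (∑ j, nx j x * nrm g len j x) := by
      rw [Finset.sum_mul_sum, ← Finset.sum_sub_distrib]
      refine Finset.sum_congr rfl fun i _ => ?_
      rw [← Finset.sum_sub_distrib]
      exact Finset.sum_congr rfl fun j _ => by ring
    rw [e3, e1, ← hc2]
    ring
  have hh : ∀ i j, hess g (sqF n r) x i j = 2 * len x * hess g len x i j +
      2 * (nx i x * nx j x) := by
    intro i j
    unfold hess
    rw [pd_pd_sqF, pd_pd_len h0]
    have e : ∑ k, chr g k i j x * pd k (sqF n r) x =
        2 * len x * ∑ k, chr g k i j x * pd k len x := by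
      rw [Finset.mul_sum]
      exact Finset.sum_congr rfl fun k _ => by rw [pd_sqF_len' h0]; ring
    rw [e]
    unfold nx
    field_simp
    split_ifs <;> ring
  unfold thetaPlus
  rw [htr, htr, hcov]
  have e1 : trS g (hess g (sqF n r)) len x = 2 * len x * trS g (hess g len) len x := by
    rw [trS_def, trS_def]
    simp only [hh]
    have e2 : ∀ i j, (up g i j x - nrm g len i x * nrm g len j x) *
        (2 * len x * hess g len x i j + 2 * (nx i x * nx j x)) =
        2 * len x * ((up g i j x - nrm g len i x * nrm g len j x) * hess g len x i j) +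
        2 * ((up g i j x - nrm g len i x * nrm g len j x) * (nx i x * nx j x)) :=
      fun i j => by ring
    simp only [e2, Finset.sum_add_distrib, ← Finset.mul_sum]
    rw [trS_def] at hnn
    rw [hnn]
    ring
  rw [e1, mul_div_mul_left _ _ (by positivity)]

/-- **outermost boundaries, general form** -/
theorem out_gen (hn : 2 ≤ n) {X : Exterior n} (hO : Outermost X) {R : ℝ} (hR0 : 0 < R)
    (hR : IsGreatest {r | ∃ x, X.F x = 0 ∧ len x = r} R) {r : ℝ} (hr : R < r) :
    ∃ x, len x = r ∧ 0 < thetaPlus X.g X.K len x := by
  have hout := outside_nonneg hn X hR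
  have hr0 : 0 < r := hR0.trans hr
  by_contra hcon
  push Not at hcon
  refine hO ⟨_, Vale.Agent.P366.isExt_round hn hr0, ?_, ?_⟩
  · intro x hx
    have hx' : r ≤ len x := by
      have h : r ^ 2 ≤ ‖x‖ ^ 2 := by linarith only [hx]
      exact (abs_le_of_sq_le_sq' h (norm_nonneg x)).2
    have h1 : 0 ≤ X.F x := hout x (hr.le.trans hx')
    rcases h1.lt_or_eq with h2 | h2
    · exact h2
    · exact absurd (hR.2 ⟨x, h2.symm, rfl⟩) (not_le.2 (hr.trans_le hx'))
  · intro x hx
    have hlen : len x = r := by
      have h1 : len x ^ 2 = r ^ 2 := by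
        have : ‖x‖ ^ 2 - r ^ 2 = 0 := hx
        unfold len; linarith
      exact (pow_left_inj₀ (norm_nonneg _) hr0.le two_ne_zero).1 h1
    have hxR : R ≤ len x := by rw [hlen]; exact hr.le
    have e1 : thetaPlus X.g X.K (fun x : E n => ‖x‖ ^ 2 - r ^ 2) x =
        thetaPlus X.g X.K (sqF n r) x := rfl
    rw [e1, theta_sqF_gen (ne_zero_of_len hR0 hxR) (X.pos x (hout x hxR))]
    exact hcon x hlen

end Vale.Agent.T4
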