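import Vale.Agent.P366.T4.EqQ68
import Vale.Agent.P366.T4.OutGen

/-! T4: the equality case for `Sp(m)`-invariant data with shift, conclusion. -/

open MeasureTheory Metric Filter Topology Set Matrix
open scoped ContDiff ENNReal Matrix

noncomputable section
namespace Vale.Agent.T4
open Vale.Agent.P366.Stmt Vale.Agent.P366.T2

variable {n : ℕ}

/-! ### the form of the tensors -/

/-- the rotation of the shift -/
def WJ (Q : Quat n) (be : Fin 3 → ℝ → ℝ) (r : ℝ) : Matrix (Fin n) (Fin n) ℝ :=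
  ∑ a, (be a r / r) • Q.J a

lemma WJ_skew (Q : Quat n) (be : Fin 3 → ℝ → ℝ) (r : ℝ) : (WJ Q be r)ᵀ = -WJ Q be r := by
  unfold WJ
  rw [Matrix.transpose_sum, ← Finset.sum_neg_distrib]
  refine Finset.sum_congr rfl fun a _ => ?_
  rw [Matrix.transpose_smul, Q.skew, smul_neg]

lemma WJ_apply (Q : Quat n) (be : Fin 3 → ℝ → ℝ) (r : ℝ) (i j : Fin n) :
    WJ Q be r i j = ∑ a, be a r / r * Q.J a i j := by
  unfold WJ
  rw [Matrix.sum_apply]
  exact Finset.sum_congr rfl fun a _ => by rw [Matrix.smul_apply, smul_eq_mul]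

lemma WJ_smooth (Q : Quat n) {be : Fin 3 → ℝ → ℝ} (hbe : ∀ a, ContDiff ℝ ∞ (be a)) {R : ℝ}
    (hR : 0 < R) (i j : Fin n) : ContDiffOn ℝ ∞ (fun r => WJ Q be r i j) (Ioi R) := by
  simp only [WJ_apply]
  exact ContDiffOn.sum fun a _ => (((hbe a).contDiffOn.div contDiffOn_id
    fun r hr => (hR.trans hr).ne').mul contDiffOn_const)

lemma wv_WJ (Q : Quat n) (be : Fin 3 → ℝ → ℝ) (i : Fin n) (x : E n) :
    wv (WJ Q be) i x = ∑ a, be a (len x) / len x * Q.Y a x i := by
  unfold wv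
  simp only [WJ_apply, Quat.Y, Finset.mul_sum, Finset.sum_mul]
  rw [Finset.sum_comm]
  exact Finset.sum_congr rfl fun a _ => Finset.sum_congr rfl fun j _ => by ring

lemma wv_sq (Q : Quat n) (be : Fin 3 → ℝ → ℝ) {x : E n} (hx : x ≠ 0) :
    ∑ l, wv (WJ Q be) l x ^ 2 = ∑ a, be a (len x) ^ 2 := by
  have hl := len_ne hx
  have e : ∀ l, wv (WJ Q be) l x ^ 2 = ∑ a, ∑ b, be a (len x) * be b (len x) / len x ^ 2 *
      (Q.Y a x l * Q.Y b x l) := by
    intro l
    rw [wv_WJ, sq, Finset.sum_mul_sum]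
    exact Finset.sum_congr rfl fun a _ => Finset.sum_congr rfl fun b _ => by
      field_simp
  simp only [e]
  rw [Finset.sum_comm]
  refine Finset.sum_congr rfl fun a _ => ?_
  rw [Finset.sum_comm]
  simp only [← Finset.mul_sum, Q.Y_Y]
  simp only [mul_ite, mul_zero, Finset.sum_ite_eq, Finset.mem_univ, if_true]
  field_simp

lemma tenM_form (Q : Quat n) (be : Fin 3 → ℝ → ℝ) {f u : ℝ → ℝ} {w : Fin 3 → ℝ → ℝ}
    {s : Fin 3 → Fin 3 → ℝ → ℝ} {x : E n} (hx : x ≠ 0) {F : ℝ}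
    (hf : ∀ i j, f (len x) * Q.Pi x i j = F * Q.Pi x i j) (hw : ∀ a, w a (len x) = 0)
    (hs : ∀ a b, s a b (len x) = if a = b then F else 0) (i j : Fin n) :
    Q.tenM be f u w s x i j = F * hh (WJ Q be) x i j + u (len x) * (nx i x * nx j x) := by
  have hl := len_ne hx
  have h1 : f (len x) * ((if i = j then 1 else 0) -
      (x i * x j + ∑ a, Q.Y a x i * Q.Y a x j) / len x ^ 2) = F * ((if i = j then 1 else 0) -
      (x i * x j + ∑ a, Q.Y a x i * Q.Y a x j) / len x ^ 2) := hf i j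
  unfold Quat.tenM
  rw [h1]
  unfold hh
  rw [wv_sq Q be hx, wv_WJ, wv_WJ]
  simp only [hw, zero_mul, Finset.sum_const_zero, add_zero, hs, ite_mul, Finset.sum_ite_eq,
    Finset.mem_univ, if_true]
  unfold Quat.Z nx
  simp only [Fin.sum_univ_three]
  field_simp
  ring

/-! ### the coefficient functions -/

/-- the coefficient functions in the equality case -/
structure EqM (D : Data n) (be : Fin 3 → ℝ → ℝ) (m : ℝ) : Prop where
  lt : ∀ r, D.R < r → |D.k r| < D.H r
  mass : ∀ r, D.R < r → D.mass r = 2 * m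
  J : ∀ r, D.R < r → D.JNM be r = 0
  v : ∀ r, D.R < r → ∀ a, D.v a r = 0
  S : ∀ r, D.R < r → D.S r = (D.k r / (D.H r * D.c r)) • D.AM be r
  ka : ∀ r, D.R < r → n = 4 ∨ D.ka r / D.al r = D.k r / (D.H r * D.c r) * D.yb r
  Y : ∀ r, D.R < r → n = 4 ∨ D.Yh r = D.rho r ^ 2
  lam : ∀ r, D.R < r → D.lam r = ((n : ℝ) - 1) / (2 * D.rho r)
  q : ∀ r, D.R < r → ∀ a b, D.q a b r = if a = b then (D.rho r / r) ^ 2 else 0

namespace EqM

variable {D : Data n} {be : Fin 3 → ℝ → ℝ} {m : ℝ} (h : EqM D be m) (hn : 4 ≤ n)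
include h

omit h in
lemma rho_pos' {r : ℝ} (hr : D.R < r) : 0 < D.rho r := D.rho_pos hr.le

lemma H_pos {r : ℝ} (hr : D.R < r) : 0 < D.H r := (abs_nonneg _).trans_lt (h.lt r hr)

lemma q00_pos {r : ℝ} (hr : D.R < r) : 0 < D.q 0 0 r := by
  have h0 : 0 < r := D.hR.trans hr
  have := D.rho_pos hr.le
  rw [h.q r hr, if_pos rfl]
  positivity

lemma rho_eq {r : ℝ} (hr : D.R < r) : D.rho r = r * √(D.q 0 0 r) := by
  have h0 : 0 < r := D.hR.trans hr
  have := D.rho_pos hr.le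
  rw [h.q r hr, if_pos rfl, Real.sqrt_sq (by positivity)]
  field_simp

lemma rho_smooth : ContDiffOn ℝ ∞ D.rho (Ioi D.R) := by
  have h1 : ContDiffOn ℝ ∞ (fun r => r * √(D.q 0 0 r)) (Ioi D.R) :=
    contDiffOn_id.mul ((D.q_smooth 0 0).contDiffOn.sqrt fun r hr => (h.q00_pos hr).ne')
  exact h1.congr fun r hr => h.rho_eq hr

omit h in
lemma rho_deriv {r : ℝ} (hr : D.R < r) :
    deriv D.rho r = D.rho r * (D.c r * D.H r / ((n : ℝ) - 1)) := (D.rho_hasDerivAt hr.le).deriv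

include hn in
lemma rho_deriv_pos {r : ℝ} (hr : D.R < r) : 0 < deriv D.rho r := by
  have hn4 : (4 : ℝ) ≤ n := by exact_mod_cast hn
  rw [rho_deriv hr]
  have h1 := D.rho_pos hr.le
  have h2 := D.c_pos hr.le
  have h3 := h.H_pos hr
  have h4 : 0 < (n : ℝ) - 1 := by linarith
  positivity

lemma dq {r : ℝ} (hr : D.R < r) (a b : Fin 3) : deriv (fun t => t ^ 2 * D.q a b t) r =
    if a = b then 2 * D.rho r * deriv D.rho r else 0 := by
  have hev : (fun t => t ^ 2 * D.q a b t) =ᶠ[𝓝 r] fun t => if a = b then D.rho t ^ 2 else 0 := by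
    filter_upwards [Ioi_mem_nhds hr] with t ht
    have h0 : 0 < t := D.hR.trans ht
    rw [h.q t ht]
    split_ifs
    · field_simp
    · ring
  rw [hev.deriv_eq]
  split_ifs
  · have h1 := ((D.rho_hasDerivAt hr.le).fun_pow 2).deriv
    rw [h1, rho_deriv hr]
    simp
  · simp

omit h in
lemma eps_swap3 (c a b : Fin 3) : eps c b a = -eps c a b := by
  fin_cases a <;> fin_cases b <;> fin_cases c <;> simp [eps]

lemma dqM_eq {r : ℝ} (hr : D.R < r) :
    D.dqM be r = (2 * D.rho r * deriv D.rho r) • (1 : Matrix (Fin 3) (Fin 3) ℝ) := by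
  ext a b
  have h1 : ∑ c, ∑ d, be c r * (eps c a d * D.q d b r + eps c b d * D.q a d r) = 0 := by
    refine Finset.sum_eq_zero fun c _ => ?_
    have e : ∀ d, be c r * (eps c a d * D.q d b r + eps c b d * D.q a d r) =
        (if d = b then be c r * eps c a d * (D.rho r / r) ^ 2 else 0) +
        (if a = d then be c r * eps c b d * (D.rho r / r) ^ 2 else 0) := by
      intro d
      rw [h.q r hr, h.q r hr]
      split_ifs <;> ring
    simp only [e, Finset.sum_add_distrib, Finset.sum_ite_eq, Finset.sum_ite_eq', Finset.mem_univ,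
      if_true]
    rw [eps_swap3 c a b]
    ring
  simp only [Data.dqM, Matrix.of_apply, Matrix.smul_apply, Matrix.one_apply, smul_eq_mul]
  rw [h1, h.dq hr]
  split_ifs <;> ring

lemma qh_eq' {r : ℝ} (hr : D.R < r) :
    D.qh r = (D.rho r ^ 2) • (1 : Matrix (Fin 3) (Fin 3) ℝ) := by
  have h0 : 0 < r := D.hR.trans hr
  ext a b
  simp only [Data.qh, Matrix.of_apply, Matrix.smul_apply, Matrix.one_apply, smul_eq_mul]
  rw [h.q r hr]
  split_ifs
  · field_simp
  · ring

lemma AM_eq' {r : ℝ} (hr : D.R < r) :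
    D.AM be r = (deriv D.rho r / D.rho r) • (1 : Matrix (Fin 3) (Fin 3) ℝ) := by
  have h1 := (D.rho_pos hr.le).ne'
  have h2 : (D.qh r)⁻¹ = (D.rho r ^ 2)⁻¹ • (1 : Matrix (Fin 3) (Fin 3) ℝ) := by
    rw [h.qh_eq' hr]
    refine Matrix.inv_eq_right_inv ?_
    rw [Matrix.smul_mul, Matrix.mul_smul, smul_smul, mul_inv_cancel₀ (by positivity), one_smul,
      Matrix.one_mul]
  rw [D.AM_eq, h2, h.dqM_eq hr, Matrix.smul_mul, Matrix.one_mul, smul_smul, smul_smul]
  congr 1
  field_simp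

include hn

lemma S_eq' {r : ℝ} (hr : D.R < r) :
    D.S r = (D.k r / ((n : ℝ) - 1)) • (1 : Matrix (Fin 3) (Fin 3) ℝ) := by
  have hn4 : (4 : ℝ) ≤ n := by exact_mod_cast hn
  have h1 := D.rho_pos hr.le
  have h2 := D.c_pos hr.le
  have h3 := h.H_pos hr
  have h4 : 0 < (n : ℝ) - 1 := by linarith
  rw [h.S r hr, h.AM_eq' hr, smul_smul, rho_deriv hr]
  congr 1
  field_simp

lemma s_eq' {r : ℝ} (hr : D.R < r) (a b : Fin 3) :
    D.s a b r = if a = b then D.k r / ((n : ℝ) - 1) * (D.rho r / r) ^ 2 else 0 := by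
  have h0 : 0 < r := D.hR.trans hr
  have h1 : (Matrix.of fun a b => D.q a b r) =
      ((D.rho r / r) ^ 2) • (1 : Matrix (Fin 3) (Fin 3) ℝ) := by
    ext a b
    simp only [Matrix.of_apply, Matrix.smul_apply, Matrix.one_apply, smul_eq_mul]
    rw [h.q r hr]
    split_ifs <;> ring
  have hq : (Matrix.of fun a b => D.q a b r).det ≠ 0 := (D.q_pos r hr.le).det_pos.ne'
  have h2 : (Matrix.of fun a b => D.s a b r) = (Matrix.of fun a b => D.q a b r) * D.S r := by
    unfold Data.S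
    rw [Matrix.mul_nonsing_inv_cancel_left _ _ (isUnit_iff_ne_zero.2 hq)]
  have h3 := congrFun (congrFun h2 a) b
  rw [h.S_eq' hn hr, h1, Matrix.smul_mul, Matrix.mul_smul, Matrix.one_mul] at h3
  simp only [Matrix.of_apply, Matrix.smul_apply, Matrix.one_apply, smul_eq_mul] at h3
  rw [h3]
  split_ifs <;> ring

omit hn in
lemma yb_eq' (h4 : n ≠ 4) {r : ℝ} (hr : D.R < r) : D.yb r = deriv D.rho r / D.rho r := by
  have h1 := (D.rho_pos hr.le).ne'
  have hev : D.Yh =ᶠ[𝓝 r] fun t => D.rho t ^ 2 := by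
    filter_upwards [Ioi_mem_nhds hr] with t ht
    exact (h.Y t ht).resolve_left h4
  unfold Data.yb
  rw [hev.deriv_eq, (h.Y r hr).resolve_left h4, ((D.rho_hasDerivAt hr.le).fun_pow 2).deriv,
    rho_deriv hr]
  field_simp
  ring

omit hn in
lemma al_eq' (h4 : n ≠ 4) {r : ℝ} (hr : D.R < r) : D.al r = (D.rho r / r) ^ 2 := by
  have h0 : 0 < r := D.hR.trans hr
  have h1 := (h.Y r hr).resolve_left h4
  rw [div_pow, eq_div_iff (by positivity), ← h1]
  unfold Data.Yh
  ring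

lemma ka_al {r : ℝ} (h4 : n ≠ 4) (hr : D.R < r) : D.ka r / D.al r = D.k r / ((n : ℝ) - 1) := by
  have hn4 : (4 : ℝ) ≤ n := by exact_mod_cast hn
  have h1 := D.rho_pos hr.le
  have h2 := D.c_pos hr.le
  have h3 := h.H_pos hr
  have h5 : 0 < (n : ℝ) - 1 := by linarith
  rw [(h.ka r hr).resolve_left h4, h.yb_eq' h4 hr, rho_deriv hr]
  field_simp

lemma IIKM_eq {r : ℝ} (hr : D.R < r) :
    D.IIKM be r = deriv D.rho r / D.rho r * D.k r / D.c r := by
  have hn4 : (4 : ℝ) ≤ n := by exact_mod_cast hn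
  have h5 : 0 < (n : ℝ) - 1 := by linarith
  have h6 : (D.AM be r * D.S r).trace = 3 * (deriv D.rho r / D.rho r * (D.k r / ((n : ℝ) - 1))) := by
    rw [h.AM_eq' hr, h.S_eq' hn hr, Matrix.smul_mul, Matrix.mul_smul, Matrix.one_mul, smul_smul,
      trace_smul, trace_one, Fintype.card_fin, smul_eq_mul]
    push_cast
    ring
  unfold Data.IIKM
  rw [h6]
  rcases eq_or_ne n 4 with h4 | h4
  · have hb : D.b = 0 := by
      unfold Data.b
      have : (n : ℝ) = 4 := by exact_mod_cast h4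
      rw [this]; ring
    have h7 : (n : ℝ) - 1 = 3 := by
      have : (n : ℝ) = 4 := by exact_mod_cast h4
      rw [this]; ring
    rw [hb, h7]
    ring
  · rw [h.ka_al hn h4 hr, h.yb_eq' h4 hr]
    unfold Data.b
    field_simp
    ring

lemma k_smooth : ContDiffOn ℝ ∞ (fun r => D.k r / ((n : ℝ) - 1)) (Ioi D.R) := by
  have h1 : ContDiffOn ℝ ∞ (fun r => D.s 0 0 r / D.q 0 0 r) (Ioi D.R) :=
    (D.s_smooth 0 0).contDiffOn.div (D.q_smooth 0 0).contDiffOn fun r hr => (h.q00_pos hr).ne'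
  refine h1.congr fun r hr => ?_
  have h0 : 0 < r := D.hR.trans hr
  have h2 := D.rho_pos (le_of_lt hr)
  rw [h.s_eq' hn hr, h.q r hr, if_pos rfl, if_pos rfl]
  field_simp

/-- **the data are a slice** -/
theorem slice (hS : StShift n) {g K : Field n} (hfit : FitsM D be g K) :
    IsSlice m g K {x | D.R < len x} := by
  have hn4 : (4 : ℝ) ≤ n := by exact_mod_cast hn
  have h5 : 0 < (n : ℝ) - 1 := by linarith
  have hmass : ∀ r, D.R < r → (deriv D.rho r / D.c r) ^ 2 -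
      (D.rho r * (D.k r / ((n : ℝ) - 1))) ^ 2 = 1 - 2 * m / D.rho r ^ (n - 2) := by
    intro r hr
    have h1 := h.mass r hr
    have hρ0 := D.rho_pos hr.le
    have hc := D.c_pos hr.le
    have hpow : D.rho r ^ ((n : ℝ) - 2) = D.rho r ^ (n - 2) := by
      have : (n : ℝ) - 2 = ((n - 2 : ℕ) : ℝ) := by
        rw [Nat.cast_sub (by omega)]; norm_num
      rw [this, Real.rpow_natCast]
    unfold Data.mass at h1
    rw [hpow, h.lam r hr] at h1
    have hpp : 0 < D.rho r ^ (n - 2) := by positivity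
    rw [← h1, mul_comm (D.rho r ^ (n - 2)), mul_div_assoc, div_self hpp.ne', mul_one,
      rho_deriv hr]
    field_simp
    ring
  refine hS D.hR h.rho_smooth (q := D.c) (k := fun r => D.k r / ((n : ℝ) - 1)) (kN := D.KN)
    (D.p_smooth.contDiffOn.sqrt fun r hr => (D.p_pos r (le_of_lt hr)).ne') (h.k_smooth hn)
    (fun r hr => D.rho_pos hr.le) (fun r hr => h.rho_deriv_pos hn hr)
    (fun r hr => D.c_pos hr.le) (fun r hr => ?_) hmass (fun r hr => ?_)
    (W := WJ D.Q be) (WJ_smooth D.Q hfit.be_smooth D.hR) (WJ_skew D.Q be)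
    (fun x hx i j => ?_) (fun x hx i j => ?_)
  · have hρ0 := D.rho_pos hr.le
    have hc := D.c_pos hr.le
    rw [← hmass r hr, rho_deriv hr]
    have e3 : (D.rho r * (D.c r * D.H r / ((n : ℝ) - 1)) / D.c r) ^ 2 -
        (D.rho r * (D.k r / ((n : ℝ) - 1))) ^ 2 =
        D.rho r ^ 2 / ((n : ℝ) - 1) ^ 2 * (D.H r ^ 2 - D.k r ^ 2) := by
      field_simp
    rw [e3]
    have h2 : 0 < D.H r ^ 2 - D.k r ^ 2 := by
      have := h.lt r hr
      rw [← sq_abs (D.k r)]
      have h3 := abs_nonneg (D.k r)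
      nlinarith
    positivity
  · have hρ0 := D.rho_pos hr.le
    have hc := D.c_pos hr.le
    have h1 := h.J r hr
    unfold Data.JNM at h1
    rw [h.IIKM_eq hn hr, rho_deriv hr] at h1
    have h2 : deriv (fun s => D.rho s * (D.k s / ((n : ℝ) - 1))) r =
        D.rho r * (D.c r * D.H r / ((n : ℝ) - 1)) * (D.k r / ((n : ℝ) - 1)) +
          D.rho r * (deriv D.k r / ((n : ℝ) - 1)) :=
      ((D.rho_hasDerivAt hr.le).fun_mul ((D.k_diff hr.le).hasDerivAt.div_const _)).deriv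
    rw [h2, rho_deriv hr]
    have h3 : D.H r * D.KN r * D.c r = D.c r * D.H r / ((n : ℝ) - 1) * D.k r + deriv D.k r := by
      field_simp at h1 ⊢
      linarith
    have h4 : D.KN r * (D.rho r * (D.c r * D.H r / ((n : ℝ) - 1))) =
        D.rho r / ((n : ℝ) - 1) * (D.H r * D.KN r * D.c r) := by ring
    rw [h4, h3]
    ring
  · have hx0 := ne_zero_of_len D.hR (le_of_lt hx)
    rw [hfit.hg x (le_of_lt hx), D.c_sq (le_of_lt hx)]
    refine tenM_form D.Q be hx0 (fun i j => ?_) (fun a => rfl) (fun a b => h.q _ hx a b) i j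
    rcases eq_or_ne n 4 with h4 | h4
    · rw [Pi_zero D.Q h4 hx0, mul_zero, mul_zero]
    · rw [h.al_eq' h4 hx]
  · have hx0 := ne_zero_of_len D.hR (le_of_lt hx)
    have hp := D.p_pos _ (le_of_lt hx)
    have e : D.KN (len x) * D.c (len x) ^ 2 = D.kn (len x) := by
      rw [D.c_sq (le_of_lt hx)]
      unfold Data.KN
      field_simp
    rw [hfit.hK x (le_of_lt hx), e]
    refine tenM_form D.Q be hx0 (fun i j => ?_) (fun a => h.v _ hx a)
      (fun a b => h.s_eq' hn hx a b) i j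
    rcases eq_or_ne n 4 with h4 | h4
    · rw [Pi_zero D.Q h4 hx0, mul_zero, mul_zero]
    · have h1 := h.ka_al hn h4 hx
      have h2 := D.al_pos _ (le_of_lt hx)
      rw [div_eq_iff h2.ne'] at h1
      rw [h1, h.al_eq' h4 hx]

end EqM

/-- **The equality case for `Sp(m)`-invariant data given by coefficient functions, with shift.** -/
theorem slice_fitsM (hS : StShift n) (D : Data n) {be : Fin 3 → ℝ → ℝ} {X : Exterior n}
    (h : FitsM D be X.g X.K) (hAF : X.IsAF) (hDEC : X.DEC) (hT : X.Trapped) {m : ℝ}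
    {P : Fin n → ℝ} (hm : X.IsEnergy m) (hP : X.IsMomentum P)
    (hR : IsGreatest {r | ∃ x, X.F x = 0 ∧ len x = r} D.R) (hO : Outermost X)
    (heq : (X.Amin.toReal / Vale.Agent.P366.Stmt.omega n) ^ (((n : ℝ) - 2) / (n - 1)) / 2 = m) :
    IsSlice m X.g X.K {x | D.R < len x} := by
  obtain ⟨x0, hx0⟩ := X.bdry
  obtain ⟨i0, -⟩ := X.dom.2.1 x0 hx0
  have hn : 4 ≤ n := D.Q.four_le i0.pos
  have hn4 : (4 : ℝ) ≤ n := by exact_mod_cast hn
  obtain ⟨h1, h2, -⟩ := asymptM D h hAF hm hP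
  have hout := Vale.Agent.C92.outside_nonneg (by omega) X hR
  have hdec : ∀ r, D.R < r → |D.JNM be r| ≤ D.muM be r := by
    intro r hr
    have hr0 : 0 < r := D.hR.trans hr
    set x : E n := EuclideanSpace.single ⟨0, by omega⟩ r with hxdef
    have hx : len x = r := by
      rw [hxdef, len, PiLp.norm_single, Real.norm_eq_abs, abs_of_pos hr0]
    have hx' : D.R < len x := by rw [hx]; exact hr
    have := dec_eqM h hx' (hDEC x (hout x hx'.le)) (scal_eqM D h hx')
    rwa [hx] at this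
  have hθ : ∀ r, D.R < r → 0 < D.H r + D.k r := by
    intro r hr
    obtain ⟨x, hx, hpos⟩ := out_gen (by omega) hO D.hR hR hr
    have hxR : D.R ≤ len x := by rw [hx]; exact hr.le
    rw [Vale.Agent.C92.thetaM_eq h (fun y hy => X.pos y (hout y hy)) hxR, hx] at hpos
    exact hpos
  have hω : 0 < Vale.Agent.P366.Stmt.omega n := by
    rw [Vale.Agent.P366.omega_eq]
    have : Nonempty (Fin n) := ⟨i0⟩
    have : Nontrivial (E n) := inferInstance
    exact Vale.Agent.P366.omega_pos'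
  have hA : ∀ r, D.R ≤ r → 2 * m ≤ D.rho r ^ ((n : ℝ) - 2) := by
    intro r hr
    have hle := Amin_leM D hn h hR hr
    have har := D.ar_pos hr
    have h3 : X.Amin.toReal ≤ Vale.Agent.P366.Stmt.omega n * D.ar r :=
      ENNReal.toReal_le_of_le_ofReal (by positivity) hle
    have h4 : X.Amin.toReal / Vale.Agent.P366.Stmt.omega n ≤ D.ar r := by
      rw [div_le_iff₀ hω]; linarith
    have h5 : (X.Amin.toReal / Vale.Agent.P366.Stmt.omega n) ^ (((n : ℝ) - 2) / (n - 1)) ≤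
        D.ar r ^ (((n : ℝ) - 2) / (n - 1)) :=
      Real.rpow_le_rpow (by positivity) h4 (div_nonneg (by linarith) (by linarith))
    have h6 : D.ar r ^ (((n : ℝ) - 2) / (n - 1)) = D.rho r ^ ((n : ℝ) - 2) := by
      unfold Data.rho
      rw [← Real.rpow_mul har.le]
      congr 1
      ring
    rw [h6] at h5
    linarith
  have key := keyM_eq D be hn hdec (touchM D h hT hR) h2 h1 hA hθ
  refine EqM.slice (D := D) (be := be) ?_ hn hS h
  refine ⟨fun r hr => (key r hr).1, fun r hr => (key r hr).2.1, fun r hr => ?_, fun r hr => ?_,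
    fun r hr => ?_, fun r hr => ?_, fun r hr => ?_, fun r hr => ?_, fun r hr => ?_⟩
  · exact (dataM_eq hn hr.le (hdec r hr) (key r hr).1 (key r hr).2.2.1).1
  · exact (dataM_eq hn hr.le (hdec r hr) (key r hr).1 (key r hr).2.2.1).2.1
  · exact (dataM_eq hn hr.le (hdec r hr) (key r hr).1 (key r hr).2.2.1).2.2.1
  · exact (dataM_eq hn hr.le (hdec r hr) (key r hr).1 (key r hr).2.2.1).2.2.2
  · exact (roundM hn hr.le (key r hr).2.2.2).1
  · exact (roundM hn hr.le (key r hr).2.2.2).2.1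
  · exact (roundM hn hr.le (key r hr).2.2.2).2.2

end Vale.Agent.T4
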