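import Vale.Agent.P366.T4.KeyEq

/-! Equality case of the ODE argument, abstract form with a lapse (for invariant data). -/

open MeasureTheory Metric Filter Topology Set
open scoped ContDiff

noncomputable section
namespace Vale.Agent.T4
open Vale.Agent.P366.T2

/-- **Equality case of the ODE argument**, abstract form: `c` lapse, `H`, `k` mean curvature and
trace of `K`, `ρ` area radius. -/
theorem key_eq_abs {n : ℕ} (hn : 3 ≤ n) {R : ℝ} {c H k ρ Rh II2 lam L2 IT : ℝ → ℝ}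
    (hc : ∀ r, R ≤ r → 0 < c r) (hHd : ∀ r, R ≤ r → DifferentiableAt ℝ H r)
    (hkd : ∀ r, R ≤ r → DifferentiableAt ℝ k r) (hρ : ∀ r, R ≤ r → 0 < ρ r)
    (hρd : ∀ r, R ≤ r → HasDerivAt ρ (ρ r * (c r * H r / ((n : ℝ) - 1))) r)
    (hlam : ∀ r, R ≤ r → 0 < lam r)
    (hld : ∀ r, R ≤ r → HasDerivAt lam (-(c r * IT r)) r)
    (hY : ∀ r, R < r → |k r| < H r → 2 * H r * deriv H r - 2 * k r * deriv k r ≤
      c r * (H r * Rh r - H r * (H r ^ 2 - k r ^ 2) - (H r ^ 2 - k r ^ 2) / H r * II2 r))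
    (hU : ∀ r, R ≤ r → 0 ≤ II2 r - 2 * (H r / lam r) * IT r + (H r / lam r) ^ 2 * L2 r)
    (hL : ∀ r, R ≤ r → lam r ^ 2 ≤ ((n : ℝ) - 1) * L2 r)
    (hJ : ∀ r, R ≤ r → Rh r / 4 + L2 r ≤ lam r ^ 2)
    (h0 : H R + k R ≤ 0) (hinf : ∀ᶠ r in atTop, |k r| < H r) {m : ℝ}
    (hm : Tendsto (fun r => ρ r ^ ((n : ℝ) - 2) *
      (1 - (H r ^ 2 - k r ^ 2) / (4 * lam r ^ 2))) atTop (𝓝 (2 * m)))
    (hA : ∀ r, R ≤ r → 2 * m ≤ ρ r ^ ((n : ℝ) - 2))
    (hout : ∀ r, R < r → 0 < H r + k r) :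
    ∀ r, R < r → |k r| < H r ∧
      ρ r ^ ((n : ℝ) - 2) * (1 - (H r ^ 2 - k r ^ 2) / (4 * lam r ^ 2)) = 2 * m ∧
      2 * H r * deriv H r - 2 * k r * deriv k r =
        c r * (H r * Rh r - H r * (H r ^ 2 - k r ^ 2) - (H r ^ 2 - k r ^ 2) / H r * II2 r) ∧
      lam r ^ 2 = ((n : ℝ) - 1) * L2 r ∧ Rh r / 4 + L2 r = lam r ^ 2 := by
  -- the last radius with `H ≤ |k|`
  obtain ⟨R1, hR1⟩ := (eventually_atTop.1 hinf)
  set S : Set ℝ := {r | R ≤ r ∧ H r ≤ |k r|} with hS
  have hHc : ContinuousOn H (Ici R) := fun r hr => (hHd r hr).continuousAt.continuousWithinAt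
  have hkc : ContinuousOn k (Ici R) := fun r hr => (hkd r hr).continuousAt.continuousWithinAt
  have hSc : IsClosed S := by
    have h1 : ContinuousOn (fun r => |k r| - H r) (Ici R) := hkc.abs.sub hHc
    have h2 := h1.preimage_isClosed_of_isClosed isClosed_Ici (isClosed_Ici (a := (0 : ℝ)))
    convert h2 using 1
    ext r
    simp only [hS, mem_ofPred_eq, mem_inter_iff, mem_Ici, mem_preimage, sub_nonneg]
  have hSne : S.Nonempty := ⟨R, le_rfl, by
    have := neg_le_abs (k R)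
    linarith⟩
  have hSb : BddAbove S := ⟨max R R1, fun r hr => by
    by_contra hlt
    push Not at hlt
    have h1 := hR1 r ((le_max_right _ _).trans hlt.le)
    exact absurd hr.2 (not_le.2 h1)⟩
  set r0 := sSup S with hr0
  have hr0S : r0 ∈ S := hSc.csSup_mem hSne hSb
  have hgt : ∀ r, r0 < r → |k r| < H r := by
    intro r hr
    by_contra hle
    push Not at hle
    exact absurd (le_csSup hSb ⟨hr0S.1.trans hr.le, hle⟩) (not_le.2 hr)
  have hR : ∀ r, r0 ≤ r → R ≤ r := fun r hr => hr0S.1.trans hr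
  have hge : |k r0| ≤ H r0 := by
    have hsub : Ioi r0 ⊆ Ici R := fun r hr => hR r (le_of_lt hr)
    have h1 : Tendsto (fun r => |k r|) (𝓝[>] r0) (𝓝 (|k r0|)) :=
      ((hkc r0 hr0S.1).mono hsub).abs
    have h2 : Tendsto H (𝓝[>] r0) (𝓝 (H r0)) := (hHc r0 hr0S.1).mono hsub
    refine le_of_tendsto_of_tendsto h1 h2 ?_
    filter_upwards [self_mem_nhdsWithin] with r hr using (hgt r hr).le
  have heq : H r0 = |k r0| := le_antisymm hr0S.2 hge
  have hn3 : (3 : ℝ) ≤ n := by exact_mod_cast hn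
  have hN : 1 < (n : ℝ) - 1 := by linarith
  have hYd : ∀ r, r0 < r → HasDerivAt (fun r => H r ^ 2 - k r ^ 2)
      (2 * H r * deriv H r - 2 * k r * deriv k r) r := by
    intro r hr
    have h1 := (hHd r (hR r hr.le)).hasDerivAt
    have h2 := (hkd r (hR r hr.le)).hasDerivAt
    refine ((h1.pow 2).sub (h2.pow 2)).congr_deriv ?_
    simp
  have hYn : ∀ r, r0 < r → 0 ≤ H r ^ 2 - k r ^ 2 := by
    intro r hr
    have h1 := hgt r hr
    have h2 : k r ^ 2 ≤ H r ^ 2 := by
      rw [← sq_abs (k r)]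
      exact pow_le_pow_left₀ (abs_nonneg _) h1.le 2
    linarith
  obtain ⟨hmono, hbd⟩ := mono_main2 (N := (n : ℝ) - 1) (r0 := r0) hN (c := c) (H := H)
    (Y := fun r => H r ^ 2 - k r ^ 2)
    (Y' := fun r => 2 * H r * deriv H r - 2 * k r * deriv k r) (ρ := ρ) (R := Rh)
    (II2 := II2) (lam := lam) (L2 := L2) (I := IT)
    (fun r hr => hc r (hR r hr.le))
    (fun r hr => (abs_nonneg _).trans_lt (hgt r hr))
    (by rw [heq, sq_abs, sub_self])
    hYn
    (((hHc.mono fun r hr => hR r hr).pow 2).sub ((hkc.mono fun r hr => hR r hr).pow 2))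
    (fun r hr => (hρd r (hR r hr)).continuousAt.continuousWithinAt)
    (fun r hr => (hld r (hR r hr)).continuousAt.continuousWithinAt)
    (fun r hr => hρ r (hR r hr))
    (fun r hr => hlam r (hR r hr))
    (fun r hr => hρd r (hR r hr.le))
    hYd
    (fun r hr => hY r (hr0S.1.trans_lt hr) (hgt r hr))
    (fun r hr => hld r (hR r hr.le))
    (fun r hr => hU r (hR r hr.le))
    (fun r hr => hL r (hR r hr.le))
    (fun r hr => hJ r (hR r hr.le))
  have e : (n : ℝ) - 1 - 1 = (n : ℝ) - 2 := by ring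
  rw [e] at hbd hmono
  have hle : ρ r0 ^ ((n : ℝ) - 2) ≤ 2 * m := by
    refine ge_of_tendsto hm ?_
    filter_upwards [eventually_ge_atTop r0] with r hr
    exact hbd r hr
  have heq0 : ρ r0 ^ ((n : ℝ) - 2) = 2 * m := le_antisymm hle (hA r0 hr0S.1)
  -- `r0` is the inner radius
  have hr0R : r0 = R := by
    by_contra hne
    have hlt : R < r0 := lt_of_le_of_ne hr0S.1 (Ne.symm hne)
    have hmin : IsLocalMin ρ r0 := by
      filter_upwards [Ioi_mem_nhds hlt] with r hr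
      have h1 := hA r (le_of_lt hr)
      rw [← heq0] at h1
      exact (Real.rpow_le_rpow_iff (hρ r0 hr0S.1).le (hρ r (le_of_lt hr)).le
        (by linarith)).1 h1
    have h1 := hmin.hasDerivAt_eq_zero (hρd r0 hr0S.1)
    have h2 : H r0 = 0 := by
      rcases mul_eq_zero.1 h1 with h3 | h3
      · exact absurd h3 (hρ r0 hr0S.1).ne'
      · rcases div_eq_zero_iff.1 h3 with h4 | h4
        · rcases mul_eq_zero.1 h4 with h5 | h5
          · exact absurd h5 (hc r0 hr0S.1).ne'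
          · exact h5
        · exact absurd h4 (by linarith)
    have h3 : k r0 = 0 := abs_eq_zero.1 (by rw [← heq, h2])
    have h4 := hout r0 hlt
    rw [h2, h3] at h4
    norm_num at h4
  -- the mass function is constant
  have hconst : ∀ r, r0 < r → ρ r ^ ((n : ℝ) - 2) *
      (1 - (H r ^ 2 - k r ^ 2) / (4 * lam r ^ 2)) = 2 * m := by
    intro r hr
    refine le_antisymm ?_ ?_
    · refine ge_of_tendsto hm ?_
      filter_upwards [eventually_ge_atTop r] with s hs
      exact hmono (mem_Ici.2 hr.le) (mem_Ici.2 (hr.le.trans hs)) hs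
    · rw [← heq0]; exact hbd r hr.le
  have hC : 0 < 2 * m := by
    rw [← heq0]; exact Real.rpow_pos_of_pos (hρ r0 hr0S.1) _
  intro r hr
  have hr' : r0 < r := by rw [hr0R]; exact hr
  obtain ⟨h1, h2, h3⟩ := mono_eq2 (N := (n : ℝ) - 1) (r0 := r0) (C := 2 * m) hN
    (c := c) (H := H)
    (Y := fun r => H r ^ 2 - k r ^ 2)
    (Y' := fun r => 2 * H r * deriv H r - 2 * k r * deriv k r) (ρ := ρ) (R := Rh)
    (II2 := II2) (lam := lam) (L2 := L2) (I := IT)
    (fun r hr => hc r (hR r hr.le))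
    (fun r hr => (abs_nonneg _).trans_lt (hgt r hr))
    hYn
    (fun r hr => hρ r (hR r hr))
    (fun r hr => hlam r (hR r hr))
    (fun r hr => hρd r (hR r hr.le))
    hYd
    (fun r hr => hY r (hr0S.1.trans_lt hr) (hgt r hr))
    (fun r hr => hld r (hR r hr.le))
    (fun r hr => hU r (hR r hr.le))
    (fun r hr => hL r (hR r hr.le))
    (fun r hr => hJ r (hR r hr.le)) hC
    (fun r hr => by rw [e]; exact hconst r hr) r hr'
  exact ⟨hgt r hr', hconst r hr', h1, h2, h3⟩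

end Vale.Agent.T4
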