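import Vale.Agent.P366.T4.Rigid

/-! T4: slices with a rotating shift: the statement; the null expansion of the spheres for the smooth
defining function `|x|² - r²` and a general metric. -/

open MeasureTheory Metric Filter Topology Set
open scoped ContDiff ENNReal Matrix

noncomputable section
namespace Vale.Agent.T4
open Vale.Agent.P366.Stmt Vale.Agent.P366.T2

variable {n : ℕ}

/-- the shift vector `W(|x|) x` -/
def wv (W : ℝ → Matrix (Fin n) (Fin n) ℝ) (i : Fin n) (x : E n) : ℝ := ∑ j, W (len x) i j * x j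

/-- `|dx_T + W x dr|²` -/
def hh (W : ℝ → Matrix (Fin n) (Fin n) ℝ) (x : E n) (i j : Fin n) : ℝ :=
  ((if i = j then 1 else 0) - nx i x * nx j x) + wv W i x * nx j x + nx i x * wv W j x +
    (∑ l, wv W l x ^ 2) * (nx i x * nx j x)

/-- statement of the embedding theorem with a shift -/
def StShift (n : ℕ) : Prop := ∀ {R M : ℝ}, 0 < R → ∀ {rho q k kN : ℝ → ℝ},
  ContDiffOn ℝ ∞ rho (Ioi R) → ContDiffOn ℝ ∞ q (Ioi R) → ContDiffOn ℝ ∞ k (Ioi R) →
  (∀ r, R < r → 0 < rho r) → (∀ r, R < r → 0 < deriv rho r) → (∀ r, R < r → 0 < q r) →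
  (∀ r, R < r → 0 < 1 - 2 * M / rho r ^ (n - 2)) →
  (∀ r, R < r → (deriv rho r / q r) ^ 2 - (rho r * k r) ^ 2 = 1 - 2 * M / rho r ^ (n - 2)) →
  (∀ r, R < r → kN r * deriv rho r = deriv (fun s => rho s * k s) r) →
  ∀ {W : ℝ → Matrix (Fin n) (Fin n) ℝ}, (∀ i j, ContDiffOn ℝ ∞ (fun r => W r i j) (Ioi R)) →
  (∀ r, (W r)ᵀ = -W r) →
  ∀ {g K : Field n},
  (∀ x, R < len x → ∀ i j, g x i j = (rho (len x) / len x) ^ 2 * hh W x i j +
    q (len x) ^ 2 * (nx i x * nx j x)) →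
  (∀ x, R < len x → ∀ i j, K x i j = k (len x) * (rho (len x) / len x) ^ 2 * hh W x i j +
    kN (len x) * q (len x) ^ 2 * (nx i x * nx j x)) → IsSlice M g K {x | R < len x}

end Vale.Agent.T4
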