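import Vale.Agent.P366.T2.U1.Assemble
import Vale.Agent.P366.T4.KeyEq2
import Vale.Agent.P366.T4.OutGen
import Vale.Agent.P366.T4.StShift

/-! The equality case for `U(m)`-invariant data with a shift. -/

open MeasureTheory Metric Filter Topology Set
open scoped ContDiff ENNReal Matrix

noncomputable section
namespace Vale.Agent.T4
open Vale.Agent.P366.Stmt
open Vale.Agent.U1 (Data Fits)

variable {n : ℕ}

/-- equality in the differential inequality -/
theorem U1_deriv_eq (hn : 3 ≤ n) (D : Data n) {r : ℝ} (hr : D.R ≤ r) (hdec : |D.JN r| ≤ D.mu r)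
    (hk : |D.k r| < D.H r)
    (heq : D.lp r * (D.H r * D.Rh r - D.H r * (D.H r ^ 2 - D.k r ^ 2) -
        (D.H r ^ 2 - D.k r ^ 2) / D.H r * D.II2 r) ≤
      2 * D.H r * deriv D.H r - 2 * D.k r * deriv D.k r) :
    D.JN r = 0 ∧ D.v r = 0 ∧ D.ka r / D.al r = D.k r / D.H r * (D.yb r / D.lp r) ∧
      D.s r / D.q r = D.k r / D.H r * (D.yf r / D.lp r) := by
  have hc := D.lp_pos hr
  have hb0 := D.b_pos hn
  have hH : 0 < D.H r := (abs_nonneg _).trans_lt hk
  have hmu : 0 ≤ D.mu r := (abs_nonneg _).trans hdec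
  have h2 : D.k r * D.JN r ≤ |D.k r| * D.mu r := by
    refine (le_abs_self _).trans ?_
    rw [abs_mul]
    exact mul_le_mul_of_nonneg_left hdec (abs_nonneg _)
  have h1 : (D.H r - |D.k r|) * D.mu r ≤ D.H r * D.mu r - D.k r * D.JN r := by linarith
  have h1' : 0 ≤ (D.H r - |D.k r|) * D.mu r := mul_nonneg (by linarith) hmu
  obtain ⟨y, hy⟩ : ∃ y, y = D.k r / D.H r := ⟨_, rfl⟩
  rw [← hy]
  have eK : D.KS2 r - 2 * y * D.IIK r + y ^ 2 * D.II2 r =
      D.b * (D.ka r / D.al r - y * (D.yb r / D.lp r)) ^ 2 +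
        (D.s r / D.q r - y * (D.yf r / D.lp r)) ^ 2 := by
    unfold Data.KS2 Data.IIK Data.II2
    rw [← D.lp_sq hr]
    field_simp
    ring
  obtain ⟨A1, hA1⟩ : ∃ a, a = D.b * (D.ka r / D.al r - y * (D.yb r / D.lp r)) ^ 2 := ⟨_, rfl⟩
  obtain ⟨A2, hA2⟩ : ∃ a, a = (D.s r / D.q r - y * (D.yf r / D.lp r)) ^ 2 := ⟨_, rfl⟩
  rw [← hA1, ← hA2] at eK
  have hA1n : 0 ≤ A1 := by rw [hA1]; positivity
  have hA2n : 0 ≤ A2 := by rw [hA2]; positivity
  have hbe := D.be2_nonneg hr
  -- the identity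
  have e2 : D.lp r * (2 * (D.H r * D.mu r - D.k r * D.JN r)) =
      D.lp r * (D.H r * (D.Rh r - D.II2 r - D.H r ^ 2 + D.k r ^ 2 - D.KS2 r - 2 * D.be2 r) +
        2 * D.k r * D.IIK r) - (2 * D.H r * deriv D.H r - 2 * D.k r * deriv D.k r) := by
    rw [Data.mu, Data.JN, Data.Rg]; field_simp; ring
  have e1 : D.H r * (A1 + A2) = D.H r * D.KS2 r - 2 * D.k r * D.IIK r +
        D.k r ^ 2 / D.H r * D.II2 r := by
    rw [← eK, hy]; field_simp
  have e5 : (D.H r ^ 2 - D.k r ^ 2) / D.H r * D.II2 r = D.H r * D.II2 r -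
      D.k r ^ 2 / D.H r * D.II2 r := by field_simp
  rw [e5] at heq
  have hsum : D.lp r * (2 * (D.H r * D.mu r - D.k r * D.JN r) + D.H r * (A1 + A2) +
      2 * (D.H r * D.be2 r)) ≤ 0 := by
    have e7 : D.lp r * (2 * (D.H r * D.mu r - D.k r * D.JN r) + D.H r * (A1 + A2) +
        2 * (D.H r * D.be2 r)) = D.lp r * (D.H r * D.Rh r - D.H r * (D.H r ^ 2 - D.k r ^ 2) -
          (D.H r * D.II2 r - D.k r ^ 2 / D.H r * D.II2 r)) -
          (2 * D.H r * deriv D.H r - 2 * D.k r * deriv D.k r) := by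
      linear_combination e2 + D.lp r * e1
    rw [e7]
    exact sub_nonpos.2 heq
  have hsum' : 2 * (D.H r * D.mu r - D.k r * D.JN r) + D.H r * (A1 + A2) +
      2 * (D.H r * D.be2 r) ≤ 0 := by
    by_contra hcon
    push Not at hcon
    exact absurd hsum (not_le.2 (mul_pos hc hcon))
  have hHA1 : 0 ≤ D.H r * A1 := mul_nonneg hH.le hA1n
  have hHA2 : 0 ≤ D.H r * A2 := mul_nonneg hH.le hA2n
  have hHbe : 0 ≤ D.H r * D.be2 r := mul_nonneg hH.le hbe
  have hexp : D.H r * (A1 + A2) = D.H r * A1 + D.H r * A2 := by ring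
  rw [hexp] at hsum'
  have z1 : (D.H r - |D.k r|) * D.mu r = 0 := by linarith
  have z2 : D.H r * A1 = 0 := by linarith
  have z3 : D.H r * A2 = 0 := by linarith
  have z4 : D.H r * D.be2 r = 0 := by linarith
  have w1 : D.mu r = 0 := by
    rcases mul_eq_zero.1 z1 with h | h
    · linarith
    · exact h
  have w2 : A1 = 0 := (mul_eq_zero.1 z2).resolve_left hH.ne'
  have w3 : A2 = 0 := (mul_eq_zero.1 z3).resolve_left hH.ne'
  have w4 : D.be2 r = 0 := (mul_eq_zero.1 z4).resolve_left hH.ne'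
  refine ⟨?_, ?_, ?_, ?_⟩
  · rw [w1] at hdec
    exact abs_eq_zero.1 (le_antisymm hdec (abs_nonneg _))
  · have hp := D.p_pos r hr
    have hq := D.q_pos r hr
    unfold Data.be2 at w4
    rcases div_eq_zero_iff.1 w4 with h | h
    · exact pow_eq_zero_iff two_ne_zero |>.1 h
    · exact absurd h (mul_pos hp hq).ne'
  · rw [hA1] at w2
    have := (mul_eq_zero.1 w2).resolve_left hb0.ne'
    have := pow_eq_zero_iff two_ne_zero |>.1 this
    linarith
  · rw [hA2] at w3
    have := pow_eq_zero_iff two_ne_zero |>.1 w3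
    linarith

/-- equality in `hL`: the spheres are round -/
theorem U1_round (hn : 3 ≤ n) (D : Data n) {r : ℝ} (hr : D.R ≤ r)
    (hL : D.lam r ^ 2 = ((n : ℝ) - 1) * D.L2 r) : D.Yf r = D.Yb r := by
  have hb0 := D.b_pos hn
  have e : D.lam r = D.Tf r + D.b * D.Tb r := by
    unfold Data.lam Data.Tf Data.Tb
    ring
  have e2 : (n : ℝ) - 1 = D.b + 1 := by unfold Data.b; ring
  rw [e, e2] at hL
  unfold Data.L2 at hL
  have h1 : D.b * (D.Tf r - D.Tb r) ^ 2 = 0 := by nlinarith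
  have h2 := pow_eq_zero_iff two_ne_zero |>.1 ((mul_eq_zero.1 h1).resolve_left hb0.ne')
  have hb := D.Yb_pos hr
  have hf := D.Yf_pos hr
  have hs := Real.sqrt_pos.2 hf
  have hs2 : √(D.Yf r) ^ 2 = D.Yf r := Real.sq_sqrt hf.le
  unfold Data.Tf Data.Tb at h2
  generalize √(D.Yf r) = s at *
  rw [← hs2]
  field_simp at h2
  nlinarith

/-- the area radius in the round case -/
lemma U1_rho_round (hn : 3 ≤ n) (D : Data n) {r : ℝ} (hr : D.R ≤ r) (hY : D.Yf r = D.Yb r) :
    D.rho r = √(D.Yb r) := by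
  have hb := D.Yb_pos hr
  have hn3 : (3 : ℝ) ≤ n := by exact_mod_cast hn
  have hn1 : (n : ℝ) - 1 ≠ 0 := by linarith
  unfold Data.rho Data.ar
  rw [hY, Real.sqrt_eq_rpow, ← Real.rpow_add hb, ← Real.rpow_mul hb.le]
  congr 1
  unfold Data.b
  field_simp
  ring

theorem rigid_U1 (hn : 3 ≤ n) (hS : StShift n) (D : Data n) {X : Exterior n}
    (h : Fits D X.g X.K) (hAF : X.IsAF) (hDEC : X.DEC) (hT : X.Trapped) {m : ℝ}
    {P : Fin n → ℝ} (hm : X.IsEnergy m) (hP : X.IsMomentum P)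
    (hR : IsGreatest {r | ∃ x, X.F x = 0 ∧ len x = r} D.R) (hO : Outermost X)
    (heq : (X.Amin.toReal / omega n) ^ (((n : ℝ) - 2) / (n - 1)) / 2 = m) :
    IsSlice m X.g X.K {x | D.R < len x} := by
  have hn3 : (3 : ℝ) ≤ n := by exact_mod_cast hn
  have hN : 0 < (n : ℝ) - 1 := by linarith
  have hb1 : D.b + 1 = (n : ℝ) - 1 := by unfold Data.b; ring
  obtain ⟨h1, h2, h3⟩ := Vale.Agent.U1.asympt hn D h hAF hm hP
  have hout := Vale.Agent.C92.outside_nonneg (by omega) X hR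
  have hpos : ∀ y, D.R ≤ len y → (mat X.g y).PosDef := fun y hy => X.pos y (hout y hy)
  have hdec : ∀ r, D.R < r → |D.JN r| ≤ D.mu r := by
    intro r hr
    have hr0 : 0 < r := D.hR.trans hr
    have hx : len (EuclideanSpace.single (⟨0, by omega⟩ : Fin n) r) = r := by
      rw [len, PiLp.norm_single, Real.norm_eq_abs, abs_of_pos hr0]
    have hx' : D.R < len (EuclideanSpace.single (⟨0, by omega⟩ : Fin n) r) := by
      rw [hx]; exact hr
    have := Vale.Agent.U1.dec_eq h hx' (hDEC _ (hout _ hx'.le)) (Vale.Agent.U1.scal_eq h hx')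
    rwa [hx] at this
  have hω : 0 < omega n := by
    have : Nonempty (Fin n) := ⟨⟨0, by omega⟩⟩
    have : Nontrivial (E n) := inferInstance
    rw [Vale.Agent.P366.omega_eq]
    exact Vale.Agent.P366.omega_pos'
  -- the area bound
  have hA : ∀ r, D.R ≤ r → 2 * m ≤ D.rho r ^ ((n : ℝ) - 2) := by
    intro r hr
    have hρ := D.rho_pos hr
    have hn1 : (n : ℝ) - 1 ≠ 0 := by linarith
    have e : D.rho r ^ ((n : ℝ) - 1) = D.ar r := by
      unfold Data.rho
      rw [← Real.rpow_mul (D.ar_pos hr).le, one_div, inv_mul_cancel₀ hn1, Real.rpow_one]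
    have hAm : X.Amin ≤ ENNReal.ofReal (omega n * D.rho r ^ ((n : ℝ) - 1)) := by
      rw [e]
      exact Vale.Agent.U1.Amin_le (by omega) h hR hr
    have h1 : X.Amin.toReal ≤ omega n * D.rho r ^ ((n : ℝ) - 1) := by
      have h2 := ENNReal.toReal_mono ENNReal.ofReal_ne_top hAm
      rwa [ENNReal.toReal_ofReal (by positivity)] at h2
    have h3 : X.Amin.toReal / omega n ≤ D.rho r ^ ((n : ℝ) - 1) := by
      rw [div_le_iff₀ hω]; linarith
    have h4 : (X.Amin.toReal / omega n) ^ (((n : ℝ) - 2) / (n - 1)) ≤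
        (D.rho r ^ ((n : ℝ) - 1)) ^ (((n : ℝ) - 2) / (n - 1)) :=
      Real.rpow_le_rpow (by positivity) h3 (div_nonneg (by linarith) (by linarith))
    have h5 : (D.rho r ^ ((n : ℝ) - 1)) ^ (((n : ℝ) - 2) / (n - 1)) =
        D.rho r ^ ((n : ℝ) - 2) := by
      rw [← Real.rpow_mul hρ.le]
      congr 1
      field_simp
    rw [h5] at h4
    linarith
  have hpo : ∀ r, D.R < r → 0 < D.H r + D.k r := by
    intro r hr
    obtain ⟨x, hx, hθ⟩ := out_gen (by omega) hO D.hR hR hr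
    rw [Vale.Agent.U1.theta_eq h hpos (by rw [hx]; exact hr.le), hx] at hθ
    exact hθ
  have hkey := key_eq_abs hn (c := D.lp) (H := D.H) (k := D.k) (ρ := D.rho) (Rh := D.Rh)
    (II2 := D.II2) (lam := D.lam) (L2 := D.L2) (IT := D.IT)
    (fun r hr => D.lp_pos hr) (fun r hr => D.H_diff hr) (fun r hr => D.k_diff hr)
    (fun r hr => D.rho_pos hr) (fun r hr => D.rho_deriv hn hr) (fun r hr => D.lam_pos hn hr)
    (fun r hr => D.lam_deriv hr) (fun r hr hlt => D.deriv_le hn hr.le (hdec r hr) hlt)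
    (fun r hr => D.hU_le hn hr _) (fun r _ => D.hL_le hn r) (fun r hr => (D.hJ_eq hr).le)
    (Vale.Agent.U1.touch (by omega) D h hT hR) h2 h1 hA hpo
  -- consequences
  have hYeq : ∀ r, D.R < r → D.Yf r = D.Yb r := fun r hr =>
    U1_round hn D hr.le (hkey r hr).2.2.2.1
  have hst : ∀ r, D.R < r → D.JN r = 0 ∧ D.v r = 0 ∧
      D.ka r / D.al r = D.k r / D.H r * (D.yb r / D.lp r) ∧
      D.s r / D.q r = D.k r / D.H r * (D.yf r / D.lp r) := fun r hr =>
    U1_deriv_eq hn D hr.le (hdec r hr) (hkey r hr).1 (hkey r hr).2.2.1.ge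
  have hqal : ∀ r, D.R < r → D.q r = D.al r := by
    intro r hr
    have h4 := hYeq r hr
    unfold Data.Yf Data.Yb at h4
    have : r ^ 2 ≠ 0 := pow_ne_zero 2 (D.hR.trans hr).ne'
    exact mul_left_cancel₀ this h4
  have hyeq : ∀ r, D.R < r → D.yf r = D.yb r := by
    intro r hr
    unfold Data.yf Data.yb
    have h5 : D.Yf =ᶠ[𝓝 r] D.Yb := by
      filter_upwards [Ioi_mem_nhds hr] with s hs using hYeq s hs
    rw [h5.deriv_eq, hYeq r hr]
  have hHy : ∀ r, D.R < r → D.H r = ((n : ℝ) - 1) * D.yb r / D.lp r := by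
    intro r hr
    unfold Data.H
    rw [hyeq r hr, ← hb1]
    ring
  have hHp : ∀ r, D.R < r → 0 < D.H r := fun r hr => (abs_nonneg _).trans_lt (hkey r hr).1
  have hybp : ∀ r, D.R < r → 0 < D.yb r := by
    intro r hr
    have h6 := hHp r hr
    rw [hHy r hr] at h6
    have hl := D.lp_pos hr.le
    by_contra hcon
    push Not at hcon
    have : ((n : ℝ) - 1) * D.yb r / D.lp r ≤ 0 :=
      div_nonpos_of_nonpos_of_nonneg (mul_nonpos_of_nonneg_of_nonpos hN.le hcon) hl.le
    linarith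
  have hkal : ∀ r, D.R < r → D.ka r / D.al r = D.k r / ((n : ℝ) - 1) := by
    intro r hr
    rw [(hst r hr).2.2.1]
    have h6 := hHp r hr
    have h7 := hHy r hr
    have hl := D.lp_pos hr.le
    have h8 : D.yb r / D.lp r = D.H r / ((n : ℝ) - 1) := by
      rw [h7]; field_simp
    rw [h8]
    field_simp
  have hsq : ∀ r, D.R < r → D.s r / D.q r = D.k r / ((n : ℝ) - 1) := by
    intro r hr
    rw [(hst r hr).2.2.2, hyeq r hr]
    have h6 := hHp r hr
    have h7 := hHy r hr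
    have hl := D.lp_pos hr.le
    have h8 : D.yb r / D.lp r = D.H r / ((n : ℝ) - 1) := by
      rw [h7]; field_simp
    rw [h8]
    field_simp
  -- the functions of the embedding theorem
  obtain ⟨rho, hrho⟩ : ∃ rho : ℝ → ℝ, rho = fun r => √(D.Yb r) := ⟨_, rfl⟩
  have hYbs : ContDiff ℝ ∞ D.Yb := (contDiff_id.pow 2).mul D.al_smooth
  have hρr : ∀ r, D.R < r → D.rho r = rho r := by
    intro r hr
    rw [U1_rho_round hn D hr.le (hYeq r hr), hrho]
  have hρs : ContDiffOn ℝ ∞ rho (Ioi D.R) := by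
    rw [hrho]
    exact hYbs.contDiffOn.sqrt fun r hr => (D.Yb_pos (le_of_lt hr)).ne'
  have hρp : ∀ r, D.R < r → 0 < rho r := by
    intro r hr
    rw [← hρr r hr]; exact D.rho_pos hr.le
  have hρ2 : ∀ r, D.R < r → rho r ^ 2 = D.Yb r := by
    intro r hr
    rw [hrho]; exact Real.sq_sqrt (D.Yb_pos hr.le).le
  have hdρ : ∀ r, D.R < r → HasDerivAt rho (rho r * D.yb r) r := by
    intro r hr
    have hb := D.Yb_pos hr.le
    have hs := Real.sqrt_pos.2 hb
    have h9 := (D.Yb_deriv hr.le).sqrt hb.ne'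
    rw [hrho]
    refine h9.congr_deriv ?_
    have h10 := Real.mul_self_sqrt hb.le
    rw [div_eq_iff (by positivity)]
    linear_combination (-2 * D.yb r) * h10
  obtain ⟨k, hk⟩ : ∃ k : ℝ → ℝ, k = fun r => D.ka r / D.al r := ⟨_, rfl⟩
  have hks : ContDiffOn ℝ ∞ k (Ioi D.R) := by
    rw [hk]
    exact D.ka_smooth.contDiffOn.div D.al_smooth.contDiffOn fun r hr =>
      (D.al_pos r (le_of_lt hr)).ne'
  have hkr : ∀ r, D.R < r → k r = D.k r / ((n : ℝ) - 1) := by
    intro r hr; rw [hk]; exact hkal r hr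
  have hls : ContDiffOn ℝ ∞ D.lp (Ioi D.R) :=
    D.p_smooth.contDiffOn.sqrt fun r hr => (D.p_pos r (le_of_lt hr)).ne'
  have hl2 : ∀ r, D.R < r → D.lp r ^ 2 = D.p r := fun r hr => D.lp_sq hr.le
  obtain ⟨kN, hkN⟩ : ∃ kN : ℝ → ℝ, kN = fun r => D.kn r / D.p r := ⟨_, rfl⟩
  have hylp : ∀ r, D.R < r → D.yb r / D.lp r = D.H r / ((n : ℝ) - 1) := by
    intro r hr
    have hl := D.lp_pos hr.le
    rw [hHy r hr]; field_simp
  have hlam : ∀ r, D.R < r → D.lam r = ((n : ℝ) - 1) / (2 * rho r) := by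
    intro r hr
    have hr1 := hρp r hr
    unfold Data.lam
    rw [hYeq r hr]
    have e1 : √(D.Yb r) = rho r := by rw [hrho]
    rw [e1, ← hρ2 r hr, ← hb1]
    field_simp
    ring
  have hmass : ∀ r, D.R < r → (deriv rho r / D.lp r) ^ 2 - (rho r * k r) ^ 2 =
      1 - 2 * m / rho r ^ (n - 2) := by
    intro r hr
    have h11 := (hkey r hr).2.1
    have hρ0 := hρp r hr
    have hpow : D.rho r ^ ((n : ℝ) - 2) = rho r ^ (n - 2) := by
      have : (n : ℝ) - 2 = ((n - 2 : ℕ) : ℝ) := by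
        rw [Nat.cast_sub (by omega)]; norm_num
      rw [this, Real.rpow_natCast, hρr r hr]
    rw [hpow, hlam r hr] at h11
    have hpp : 0 < rho r ^ (n - 2) := by positivity
    rw [← h11, (hdρ r hr).deriv, hkr r hr, mul_div_assoc (rho r) (D.yb r), hylp r hr]
    field_simp
    ring
  have hf : ∀ r, D.R < r → 0 < 1 - 2 * m / rho r ^ (n - 2) := by
    intro r hr
    have hρ0 := hρp r hr
    rw [← hmass r hr, (hdρ r hr).deriv, hkr r hr, mul_div_assoc (rho r) (D.yb r), hylp r hr]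
    have e3 : (rho r * (D.H r / ((n : ℝ) - 1))) ^ 2 - (rho r * (D.k r / ((n : ℝ) - 1))) ^ 2 =
        rho r ^ 2 / ((n : ℝ) - 1) ^ 2 * (D.H r ^ 2 - D.k r ^ 2) := by
      field_simp
    rw [e3]
    have h2 : 0 < D.H r ^ 2 - D.k r ^ 2 := by
      have := (hkey r hr).1
      rw [← sq_abs (D.k r)]
      have h3 := abs_nonneg (D.k r)
      nlinarith
    positivity
  have hNN : ∀ r, D.R < r → kN r * deriv rho r = deriv (fun s => rho s * k s) r := by
    intro r hr
    have hl := D.lp_pos hr.le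
    have hρ0 := hρp r hr
    have hJ := (hst r hr).1
    have hkd : HasDerivAt k (deriv k r) r :=
      ((hks.contDiffAt (Ioi_mem_nhds hr)).differentiableAt (by simp)).hasDerivAt
    have hDk : deriv D.k r = ((n : ℝ) - 1) * deriv k r := by
      have hev : D.k =ᶠ[𝓝 r] fun s => ((n : ℝ) - 1) * k s := by
        filter_upwards [Ioi_mem_nhds hr] with s hs
        rw [hkr s hs]; field_simp
      rw [hev.deriv_eq]
      exact (hkd.const_mul ((n : ℝ) - 1)).deriv
    have hIIK : D.IIK r = D.H r * k r := by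
      unfold Data.IIK
      rw [hkal r hr, hsq r hr, hyeq r hr, hHy r hr, hkr r hr, ← hb1]
      ring
    have hKN : D.KN r = kN r := by rw [hkN]; rfl
    unfold Data.JN at hJ
    rw [hIIK, hKN, hDk, hHy r hr] at hJ
    have hJ2 : D.yb r * kN r = D.yb r * k r + deriv k r := by
      have e4 : ((n : ℝ) - 1) / D.lp r * (D.yb r * kN r - D.yb r * k r - deriv k r) = 0 := by
        rw [← hJ]; ring
      rcases mul_eq_zero.1 e4 with h12 | h12
      · exact absurd h12 (div_pos hN hl).ne'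
      · linarith
    have h13 : deriv (fun s => rho s * k s) r = _ := ((hdρ r hr).fun_mul hkd).deriv
    rw [h13, (hdρ r hr).deriv]
    linear_combination (rho r) * hJ2
  obtain ⟨W, hW⟩ : ∃ W : ℝ → Matrix (Fin n) (Fin n) ℝ, W = fun r => (D.be r / r) • D.Q.J :=
    ⟨_, rfl⟩
  have hWs : ∀ i j, ContDiffOn ℝ ∞ (fun r => W r i j) (Ioi D.R) := by
    intro i j
    rw [hW]
    simp only [Matrix.smul_apply, smul_eq_mul]
    exact (D.be_smooth.contDiffOn.div contDiffOn_id fun r hr =>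
      (D.hR.trans hr).ne').mul contDiffOn_const
  have hWk : ∀ r, (W r)ᵀ = -W r := by
    intro r
    rw [hW]
    simp only [Matrix.transpose_smul, D.Q.skew, smul_neg]
  have hwv : ∀ x : E n, ∀ i, wv W i x = D.be (len x) / len x * D.Q.Y x i := by
    intro x i
    unfold wv Vale.Agent.U1.Cpx.Y
    rw [hW, Finset.mul_sum]
    simp only [Matrix.smul_apply, smul_eq_mul]
    exact Finset.sum_congr rfl fun j _ => by ring
  have hten : ∀ x, D.R < len x → ∀ i j, hh W x i j = D.Q.Pi x i j +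
      D.Q.Z D.be x i * D.Q.Z D.be x j / len x ^ 2 := by
    intro x hx i j
    have hx0 := ne_zero_of_len D.hR hx.le
    have hl : len x ≠ 0 := Vale.Agent.P366.T2.len_ne hx0
    unfold hh Vale.Agent.U1.Cpx.Pi Vale.Agent.U1.Cpx.Z nx
    simp only [hwv]
    have e5 : ∑ l, (D.be (len x) / len x * D.Q.Y x l) ^ 2 = D.be (len x) ^ 2 := by
      have e6 : ∀ l, (D.be (len x) / len x * D.Q.Y x l) ^ 2 =
          D.be (len x) ^ 2 / len x ^ 2 * (D.Q.Y x l * D.Q.Y x l) := fun l => by ring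
      simp only [e6, ← Finset.mul_sum, D.Q.Y_Y]
      field_simp
    rw [e5]
    field_simp
    ring
  refine hS D.hR hρs hls hks hρp (fun r hr => ?_) (fun r hr => D.lp_pos (le_of_lt hr)) hf hmass
    hNN hWs hWk (fun x hx i j => ?_) (fun x hx i j => ?_)
  · rw [(hdρ r hr).deriv]
    exact mul_pos (hρp r hr) (hybp r hr)
  · have hx0 := ne_zero_of_len D.hR hx.le
    have hl : len x ≠ 0 := Vale.Agent.P366.T2.len_ne hx0
    rw [h.hg x hx.le i j, hten x hx, hl2 _ hx]
    have e7 : (rho (len x) / len x) ^ 2 = D.al (len x) := by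
      rw [div_pow, hρ2 _ hx]
      unfold Data.Yb
      field_simp
    rw [e7]
    unfold Vale.Agent.U1.Cpx.ten nx
    simp only [zero_mul, add_zero]
    rw [hqal _ hx]
    field_simp
    ring
  · have hx0 := ne_zero_of_len D.hR hx.le
    have hl : len x ≠ 0 := Vale.Agent.P366.T2.len_ne hx0
    rw [h.hK x hx.le i j, hten x hx, hl2 _ hx]
    have hal := D.al_pos _ hx.le
    have hpp := D.p_pos _ hx.le
    have e7 : (rho (len x) / len x) ^ 2 = D.al (len x) := by
      rw [div_pow, hρ2 _ hx]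
      unfold Data.Yb
      field_simp
    have e8 : D.ka (len x) = k (len x) * D.al (len x) := by
      rw [hk]; field_simp
    have e9 : D.s (len x) = k (len x) * D.al (len x) := by
      have := hsq _ hx
      rw [← hkr _ hx, hqal _ hx] at this
      rw [← this]; field_simp
    have e10 : kN (len x) * D.p (len x) = D.kn (len x) := by
      rw [hkN]; field_simp
    rw [e7]
    unfold Vale.Agent.U1.Cpx.ten nx
    rw [(hst _ hx).2.1, e8, e9, e10]
    simp only [zero_mul, add_zero]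
    field_simp
    ring

end Vale.Agent.T4
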