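import Vale.Agent.P366.T4.U92b
import Vale.Agent.P366.T4.BgQ

/-! T4: the families of `U(m)`- and `SU(m)`-invariant backgrounds. -/

open MeasureTheory Metric Filter Topology Set Asymptotics
open scoped ContDiff ENNReal Matrix

noncomputable section
namespace Vale.Agent.T4
open Vale.Agent.P366.Stmt Vale.Agent.P366.T2

variable {n : ℕ}

/-- a metric with unit lapse and no shift is a background of itself -/
theorem lapse_self {G : Field n} {R : ℝ} (hR : 0 < R) (Gs : ∀ i j, Smooth (fun x => G x i j))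
    (symm : ∀ x, R ≤ len x → ∀ i j, G x i j = G x j i)
    (pos : ∀ x, R ≤ len x → (mat G x).PosDef)
    (unit : ∀ x, R ≤ len x → ∀ i, ∑ j, G x i j * x j = x i) : Lapse G G R := by
  have hrad : ∀ x, R ≤ len x → rad G x = 1 := by
    intro x hx
    have h0 : x ≠ 0 := ne_zero_of_len hR hx
    rw [← sum_nx_mul h0]
    unfold rad
    refine Finset.sum_congr rfl fun i _ => ?_
    have e : ∀ j, G x i j * nx i x * nx j x = nx i x / len x * (G x i j * x j) := by
      intro j; unfold nx; ring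
    simp only [e, ← Finset.mul_sum, unit x hx]
    unfold nx
    ring
  exact
    { hR := hR
      Gs := Gs
      gs := Gs
      symm := symm
      pos := pos
      unit := unit
      ppos := fun x hx => by rw [hrad x hx]; exact one_pos
      eq := fun x hx i j => by rw [hrad x hx]; ring }

/-- **The family of backgrounds invariant under a group with the invariants of `U(m)`.** -/
theorem famFull (hn : 3 ≤ n) (Q : U1.Cpx n) {Γ : Matrix (Fin n) (Fin n) ℝ → Prop}
    (hΓ : Q.Full Γ) {G : Field n} {R : ℝ} (hR : 0 < R)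
    (Gs : ∀ i j, Smooth (fun x => G x i j)) (symm : ∀ x i j, G x i j = G x j i)
    (pos : ∀ x, R ≤ len x → (mat G x).PosDef)
    (unit : ∀ x, R ≤ len x → ∀ i, ∑ j, G x i j * x j = x i)
    (hG : U1.InvariantUnder Γ R G) : ∃ B : Bg n, B.R = R ∧ B.Fits G ∧ B.LamOK G := by
  obtain ⟨D, hDR, hDQ, hp, hF⟩ := exists_dataU hn Q hΓ
    (lapse_self hR Gs (fun x _ => symm x) pos unit) hG
  refine ⟨bgU hn D hp, hDR, bgU_fits hp hn hF, fun q hq0 hAF => ?_⟩
  obtain ⟨hq, ha⟩ := coef_decay hn hF hAF.1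
  exact lamU_O2 hn D hq0 hq ha

/-- The family of `U(m)`-invariant backgrounds, `m ≥ 2`. -/
theorem famU (hn : 3 ≤ n) (Q : U1.Cpx n) {G : Field n} {R : ℝ} (hR : 0 < R)
    (Gs : ∀ i j, Smooth (fun x => G x i j)) (symm : ∀ x i j, G x i j = G x j i)
    (pos : ∀ x, R ≤ len x → (mat G x).PosDef)
    (unit : ∀ x, R ≤ len x → ∀ i, ∑ j, G x i j * x j = x i)
    (hG : U1.InvariantUnder Q.U R G) : ∃ B : Bg n, B.R = R ∧ B.Fits G ∧ B.LamOK G :=
  famFull hn Q U1.Cpx.full_U hR Gs symm pos unit hG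

/-- The family of `SU(m)`-invariant backgrounds, `m ≥ 3`. -/
theorem famSU (hn : 5 ≤ n) (Q : U1.Cpx n) {G : Field n} {R : ℝ} (hR : 0 < R)
    (Gs : ∀ i j, Smooth (fun x => G x i j)) (symm : ∀ x i j, G x i j = G x j i)
    (pos : ∀ x, R ≤ len x → (mat G x).PosDef)
    (unit : ∀ x, R ≤ len x → ∀ i, ∑ j, G x i j * x j = x i)
    (hG : U1.InvariantUnder Q.SU R G) : ∃ B : Bg n, B.R = R ∧ B.Fits G ∧ B.LamOK G :=
  famFull (by omega) Q (U1.Cpx.full_SU hn) hR Gs symm pos unit hG

end Vale.Agent.T4
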