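import Vale.Agent.P366.T4.SG68
import Vale.Agent.P366.T4.FamU92

/-! T4: the families of backgrounds invariant under `SO(n)`, `n ≥ 3`, and `G₂`, `n = 7`. -/

open MeasureTheory Metric Filter Topology Set Asymptotics
open scoped ContDiff ENNReal Matrix

noncomputable section
namespace Vale.Agent.T4
open Vale.Agent.P366.Stmt Vale.Agent.P366.T2

variable {n : ℕ}

/-- **The family of backgrounds invariant under a group which acts transitively on the
orthonormal pairs.** -/
theorem famPair (hn : 2 ≤ n) {Γ : Matrix (Fin n) (Fin n) ℝ → Prop} (hΓ : G2.PairTrans Γ)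
    {G : Field n} {R : ℝ} (hR : 0 < R)
    (Gs : ∀ i j, Smooth (fun x => G x i j)) (symm : ∀ x i j, G x i j = G x j i)
    (pos : ∀ x, R ≤ len x → (mat G x).PosDef)
    (unit : ∀ x, R ≤ len x → ∀ i, ∑ j, G x i j * x j = x i)
    (hG : G2.InvUnder Γ R G) : ∃ B : Bg n, B.R = R ∧ B.Fits G ∧ B.LamOK G :=
  (lapse_self hR Gs (fun x _ => symm x) pos unit).exists_bg hΓ hn hG

/-- The family of `SO(n)`-invariant backgrounds, `n ≥ 3`. -/
theorem famSO (hn : 3 ≤ n) {G : Field n} {R : ℝ} (hR : 0 < R)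
    (Gs : ∀ i j, Smooth (fun x => G x i j)) (symm : ∀ x i j, G x i j = G x j i)
    (pos : ∀ x, R ≤ len x → (mat G x).PosDef)
    (unit : ∀ x, R ≤ len x → ∀ i, ∑ j, G x i j * x j = x i)
    (hG : G2.InvUnder G2.SO R G) : ∃ B : Bg n, B.R = R ∧ B.Fits G ∧ B.LamOK G :=
  famPair (by omega) (G2.pairTrans_SO hn) hR Gs symm pos unit hG

/-- The family of `G₂`-invariant backgrounds in dimension seven. -/
theorem famG2 {G : Field 7} {R : ℝ} (hR : 0 < R)
    (Gs : ∀ i j, Smooth (fun x => G x i j)) (symm : ∀ x i j, G x i j = G x j i)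
    (pos : ∀ x, R ≤ len x → (mat G x).PosDef)
    (unit : ∀ x, R ≤ len x → ∀ i, ∑ j, G x i j * x j = x i)
    (hG : G2.InvUnder G2.IsG2 R G) : ∃ B : Bg 7, B.R = R ∧ B.Fits G ∧ B.LamOK G :=
  famPair (by norm_num) G2.pairTrans_G2 hR Gs symm pos unit hG

end Vale.Agent.T4
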