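import Vale.Agent.P366.T2.QuatDef
import Vale.Agent.P366.T2.S9.OctDef

/-! Linear groups that act transitively on the spheres, and data with an arbitrary lapse. -/

noncomputable section
namespace Vale.Agent.T4
open Vale.Agent.P366.Stmt

variable {n : ℕ}

/-- The predicates that define the linear groups `SO(n)`, `U(n/2)`, `Sp(n/4)` and `Spin(9)`
(`n = 16`) on Euclidean `n`-space, which act transitively on the spheres. -/
inductive SphereGroup (n : ℕ) : (Matrix (Fin n) (Fin n) ℝ → Prop) → Prop
  | so : SphereGroup n fun A => A.transpose * A = 1 ∧ A.det = 1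
  | u (J : Matrix (Fin n) (Fin n) ℝ) (skew : J.transpose = -J) (sq : J * J = -1) :
      SphereGroup n fun A => A.transpose * A = 1 ∧ A * J = J * A
  | sp (Q : Vale.Agent.P366.T2.Quat n) :
      SphereGroup n fun A => A.transpose * A = 1 ∧ ∀ a, A * Q.J a = Q.J a * A
  | spin (O : Vale.Agent.S9.Oct n) :
      SphereGroup n fun A => A.transpose * A = 1 ∧
        ∀ a, ∃ v : Fin 9 → ℝ, A * O.P a * A.transpose = ∑ b, v b • O.P b

/-- The tensor field `T` is invariant, on `R ≤ |x|`, under the matrices in `G`. -/
def InvUnder (G : Matrix (Fin n) (Fin n) ℝ → Prop) (R : ℝ) (T : Field n) : Prop :=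
  ∀ A : Matrix (Fin n) (Fin n) ℝ, G A → ∀ x y : E n, R ≤ len x →
    (∀ i, y i = ∑ j, A i j * x j) → ∀ i j, ∑ k, ∑ l, A k i * T y k l * A l j = T x i j

/-- The radial component `T(x, x) / |x| ^ 2`. -/
def radial (T : Field n) (x : E n) : ℝ := (∑ i, ∑ j, T x i j * x i * x j) / len x ^ 2

/-- The tensor `g` without its radial component: the metric of the centred spheres if they are
`g`-orthogonal to `x`. -/
def spherical (g : Field n) : Field n := fun x i j => g x i j - radial g x * x i * x j / len x ^ 2

end Vale.Agent.T4
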