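import Vale.Agent.P366.T4.BgO
import Vale.Agent.P366.T4.FamU92
import Vale.Agent.P366.T4.FamS68
import Vale.Agent.P366.T4.Groups
import Vale.Agent.P366.T2.Inv591

/-! T4: quaternionic and octonionic families. -/

open MeasureTheory Metric Filter Topology Set
open scoped ContDiff ENNReal Matrix

noncomputable section
namespace Vale.Agent.T4
open Vale.Agent.P366.Stmt

variable {n : ℕ}

/-- the zero tensor field -/
def zeroF (n : ℕ) : Field n := fun _ _ _ => 0

/-- a unit coordinate vector at distance `r` -/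
lemma exists_at (hn : 0 < n) {r : ℝ} (hr : 0 < r) : ∃ x : E n, len x = r := by
  refine ⟨EuclideanSpace.single ⟨0, hn⟩ r, ?_⟩
  rw [len, PiLp.norm_single, Real.norm_eq_abs, abs_of_pos hr]

theorem famSp (hn : 0 < n) (Q : Vale.Agent.P366.T2.Quat n) {G : Field n} {R : ℝ} (hR : 0 < R)
    (Gs : ∀ i j, Smooth (fun x => G x i j)) (symm : ∀ x i j, G x i j = G x j i)
    (pos : ∀ x, R ≤ len x → (mat G x).PosDef)
    (unit : ∀ x, R ≤ len x → ∀ i, ∑ j, G x i j * x j = x i)
    (hG : InvUnder (fun A => A.transpose * A = 1 ∧ ∀ a, A * Q.J a = Q.J a * A) R G) :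
    ∃ B : Bg n, B.R = R ∧ B.Fits G ∧ B.LamOK G := by
  have hn4 : 4 ≤ n := Q.four_le hn
  have hI : Q.Invariant R G := fun A h1 h2 x y hx hy i j => hG A ⟨h1, h2⟩ x y hx hy i j
  have h0 : Q.Invariant R (zeroF n) := fun A h1 h2 x y hx hy i j => by simp [zeroF]
  obtain ⟨D, rfl, -, hfit⟩ := Vale.Agent.P366.T2.fits_of_invariant hn Q (g := G) (K := zeroF n) hR
    (fun i j => ⟨Gs i j, contDiff_const⟩) (fun x i j => ⟨symm x i j, rfl⟩) pos hI.inv h0.inv (by
      intro x hx a
      have e : ∀ i j, G x i j * x i * Q.Y a x j = Q.Y a x j * (G x j i * x i) := by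
        intro i j
        rw [symm x i j]; ring
      simp only [e]
      rw [Finset.sum_comm]
      simp only [← Finset.mul_sum, unit x hx]
      have := Vale.Agent.P366.T2.E68.x_dot_Y Q a x
      rw [← this]
      exact Finset.sum_congr rfl fun i _ => mul_comm _ _)
  have hp : ∀ r, D.R ≤ r → D.p r = 1 := by
    intro r hr
    have hr0 : 0 < r := D.hR.trans_le hr
    obtain ⟨x, hx⟩ := exists_at hn hr0
    have hx' : D.R ≤ len x := by rw [hx]; exact hr
    have hx0 := ne_zero_of_len D.hR hx'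
    have h1 : ∀ i, D.p r * x i = x i := by
      intro i
      have e1 := unit x hx' i
      have e2 : ∑ j, G x i j * x j = D.p (len x) * x i := by
        have e3 : ∀ j, G x i j * x j = Vale.Agent.P366.T2.B68.nt D.Q (D.al (len x)) (D.p (len x))
            (fun _ => 0) (fun _ => 0) (fun a b => D.q a b (len x)) x i j * x j := fun j => by
          rw [Vale.Agent.P366.T2.B68.g_nt hfit hx']
        simp only [e3, Vale.Agent.P366.T2.B68.nt_x D.Q _ _ _ _ _ hx0, zero_mul,
          Finset.sum_const_zero, add_zero]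
      rw [← hx, ← e2, e1]
    obtain ⟨i, hi⟩ : ∃ i, x i ≠ 0 := by
      by_contra hcon
      push Not at hcon
      exact hx0 (by ext i; simpa using hcon i)
    have := h1 i
    exact mul_right_cancel₀ hi (by rw [this, one_mul])
  exact ⟨bgQ hn4 D hp, rfl, bgQ_fits hn4 hfit hp, bgQ_lam hn4 hfit hp⟩

theorem famSpin (hn : 0 < n) (O : Vale.Agent.S9.Oct n) {G : Field n} {R : ℝ} (hR : 0 < R)
    (Gs : ∀ i j, Smooth (fun x => G x i j)) (symm : ∀ x i j, G x i j = G x j i)
    (pos : ∀ x, R ≤ len x → (mat G x).PosDef)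
    (unit : ∀ x, R ≤ len x → ∀ i, ∑ j, G x i j * x j = x i)
    (hG : InvUnder (fun A => A.transpose * A = 1 ∧
        ∀ a, ∃ v : Fin 9 → ℝ, A * O.P a * A.transpose = ∑ b, v b • O.P b) R G) :
    ∃ B : Bg n, B.R = R ∧ B.Fits G ∧ B.LamOK G := by
  have hn16 : n = 16 := O.n_eq hn
  have hI : O.Invariant R G := fun A h1 h2 x y hx hy i j => hG A ⟨h1, h2⟩ x y hx hy i j
  have h0 : O.Invariant R (zeroF n) := fun A h1 h2 x y hx hy i j => by simp [zeroF]
  obtain ⟨D, rfl, -, hfit⟩ := Vale.Agent.S9.fits_of_invariant hn O (g := G) (K := zeroF n) hR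
    (fun i j => ⟨Gs i j, contDiff_const⟩) (fun x i j => ⟨symm x i j, rfl⟩) pos hI.inv h0.inv
  have hp : ∀ r, D.R ≤ r → D.p r = 1 := by
    intro r hr
    have hr0 : 0 < r := D.hR.trans_le hr
    obtain ⟨x, hx⟩ := exists_at hn hr0
    have hx' : D.R ≤ len x := by rw [hx]; exact hr
    have hx0 := ne_zero_of_len D.hR hx'
    have h1 : ∀ i, D.p r * x i = x i := by
      intro i
      have e1 := unit x hx' i
      have e3 : ∀ j, G x i j * x j = D.O.tv (D.al (len x)) (D.p (len x)) (D.c (len x)) x i j * x j :=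
        fun j => by rw [Vale.Agent.S9.g_tv hfit hx']
      simp only [e3, D.O.tv_x hx0] at e1
      rw [← hx]; exact e1
    obtain ⟨i, hi⟩ : ∃ i, x i ≠ 0 := by
      by_contra hcon
      push Not at hcon
      exact hx0 (by ext i; simpa using hcon i)
    have := h1 i
    exact mul_right_cancel₀ hi (by rw [this, one_mul])
  exact ⟨bgO hn16 D hp, rfl, bgO_fits hn16 hfit hp, bgO_lam hn16 hfit hp⟩

/-- every homogeneous background is realized -/
theorem exists_bg (hn : 3 ≤ n) {Γ : Matrix (Fin n) (Fin n) ℝ → Prop} (hΓ : SphereGroup n Γ)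
    {G : Field n} {R : ℝ} (hR : 0 < R)
    (Gs : ∀ i j, Smooth (fun x => G x i j)) (symm : ∀ x i j, G x i j = G x j i)
    (pos : ∀ x, R ≤ len x → (mat G x).PosDef)
    (unit : ∀ x, R ≤ len x → ∀ i, ∑ j, G x i j * x j = x i)
    (hG : InvUnder Γ R G) : ∃ B : Bg n, B.R = R ∧ B.Fits G ∧ B.LamOK G := by
  induction hΓ with
  | so => exact famSO hn hR Gs symm pos unit hG
  | u J skew sq => exact famU hn ⟨J, skew, sq⟩ hR Gs symm pos unit hG
  | sp Q => exact famSp (by omega) Q hR Gs symm pos unit hG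
  | spin O => exact famSpin (by omega) O hR Gs symm pos unit hG

end Vale.Agent.T4
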