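import Vale.Agent.P366.T4.FamS68
import Vale.Agent.P366.T2.G2.Spin7

/-! T4: the family of backgrounds invariant under `Spin(7)`, `n = 8`. -/

open MeasureTheory Metric Filter Topology Set Asymptotics
open scoped ContDiff ENNReal Matrix

noncomputable section
namespace Vale.Agent.T4
open Vale.Agent.P366.Stmt Vale.Agent.P366.T2

/-- The family of `Spin(7)`-invariant backgrounds in dimension eight. -/
theorem famSpin7 {G : Field 8} {R : ℝ} (hR : 0 < R)
    (Gs : ∀ i j, Smooth (fun x => G x i j)) (symm : ∀ x i j, G x i j = G x j i)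
    (pos : ∀ x, R ≤ len x → (mat G x).PosDef)
    (unit : ∀ x, R ≤ len x → ∀ i, ∑ j, G x i j * x j = x i)
    (hG : G2.InvUnder G2.IsSpin7 R G) : ∃ B : Bg 8, B.R = R ∧ B.Fits G ∧ B.LamOK G :=
  famPair (by norm_num) G2.pairTrans_Spin7 hR Gs symm pos unit hG

end Vale.Agent.T4
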