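import Vale.Agent.P366.T4.Point
import Vale.Agent.P366.T4.A4

/-! T4: the statement `StA` of the scalar curvature block. -/

open Vale.Agent.P366.Stmt Vale.Agent.P366.T2

namespace Vale.Agent.T4

/-- **[A4]** in the form used by the pointwise inequality. -/
theorem stA (n : ℕ) : StA n := fun _ _ _ h _ hx => scal_lapse h hx

end Vale.Agent.T4
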