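import Vale.Agent.P366.T4.E919e
import Vale.Agent.P366.T4.Asm

/-! T4, block E in the literal form of the assembly. -/

open MeasureTheory Metric Filter Topology Set Asymptotics
open scoped ContDiff ENNReal

noncomputable section
namespace Vale.Agent.T4
open Vale.Agent.P366.Stmt Vale.Agent.P366.T2
open Vale.Agent.P366.T1.A919 (O O_iff O_of_bigO)

variable {n : ℕ} {G g : Field n} {R q : ℝ}

lemma bigO_of_O {f : E n → ℝ} (hf : O q f) : BigO q f := by
  obtain ⟨C, R, _, _, hb⟩ := O_iff.mp hf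
  exact ⟨C, R, hb⟩

/-- the decay of the background -/
theorem AF1_of_lapse (h : Lapse G g R) (hg : AF1 q g) : AF1 q G := by
  have D : Dec g q := ⟨fun i j => O_of_bigO (hg.1 i j), fun i j k => O_of_bigO (hg.2 i j k)⟩
  exact ⟨fun i j => bigO_of_O ((h.dec D).g0 i j), fun i j k => bigO_of_O ((h.dec D).g1 i j k)⟩

/-- **Block E.** -/
theorem stE (hn : 3 ≤ n) : StE n := by
  intro X B G h hB hL hAF m hm κ hκ
  obtain ⟨q, hq, hAFq⟩ := hAF
  have hn3 : (3 : ℝ) ≤ n := by exact_mod_cast hn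
  have i0 : Fin n := ⟨0, by omega⟩
  have h1 : AF1 q X.g := ⟨fun i j => (hAFq i j i0 i0).1, fun i j k => (hAFq i j k i0).2.1⟩
  exact mass_lim hn h hB hq hAFq hm (hL q (by linarith) (AF1_of_lapse h h1)) hκ

end Vale.Agent.T4
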