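import Vale.Agent.P366.T4.FamQO
import Vale.Agent.P366.T4.Asm
import Vale.Agent.P366.T4.Cut
import Vale.Agent.P366.T4.StA765
import Vale.Agent.P366.T4.StE919

/-! T4: the final theorem. -/

open MeasureTheory Metric Filter Topology Set
open scoped ContDiff ENNReal Matrix

noncomputable section
namespace Vale.Agent.T4
open Vale.Agent.P366.Stmt

variable {n : ℕ}

lemma radial_eq (T : Field n) (x : E n) : radial T x = rad T x := by
  unfold radial rad nx
  simp only [Finset.sum_div]
  exact Finset.sum_congr rfl fun i _ => Finset.sum_congr rfl fun j _ => by ring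

lemma spherical_eq (g : Field n) : spherical g = tanP g := by
  funext x i j
  unfold spherical tanP nx
  rw [radial_eq]
  ring

lemma SphereGroup.orth {Γ : Matrix (Fin n) (Fin n) ℝ → Prop} (h : SphereGroup n Γ) :
    ∀ A, Γ A → Aᵀ * A = 1 := by
  induction h with
  | so => exact fun A h => h.1
  | u J _ _ => exact fun A h => h.1
  | sp Q => exact fun A h => h.1
  | spin O => exact fun A h => h.1

/-- the radial direction is orthogonal to the centred spheres outside `R` -/
def PerpAt (R : ℝ) (g : Field n) : Prop :=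
  ∀ x, R ≤ len x → ∀ i, ∑ j, g x i j * x j = radial g x * x i

theorem PerpAt.nx {R : ℝ} (hR : 0 < R) {g : Field n} (h : PerpAt R g) :
    ∀ x, R ≤ len x → ∀ i, ∑ j, g x i j * nx j x = rad g x * nx i x := by
  intro x hx i
  have h1 := h x hx i
  unfold T4.nx
  have e : ∀ j, g x i j * (x j / len x) = g x i j * x j / len x := fun j => by ring
  simp only [e]
  rw [← Finset.sum_div, h1, radial_eq]
  ring

/-- **The Penrose inequality for data with an arbitrary lapse over homogeneous spheres.** -/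
theorem penrose_lapse (hn : 3 ≤ n) {X : Exterior n} (hAF : X.IsAF) (hDEC : X.DEC)
    (hT : X.Trapped) {m : ℝ} (hm : X.IsEnergy m) {R₁ : ℝ}
    (hR : IsGreatest {r | ∃ x, X.F x = 0 ∧ len x = r} R₁)
    {Γ : Matrix (Fin n) (Fin n) ℝ → Prop} (hΓ : SphereGroup n Γ)
    (hperp : PerpAt R₁ X.g) (htan : InvUnder Γ R₁ (spherical X.g)) {κ : ℝ → ℝ}
    (hκ : ∀ x, R₁ ≤ len x → √(radial X.g x) * trS X.g X.K len x = κ (len x)) :
    X.Amin ≠ ⊤ ∧ 0 < m ∧
      (X.Amin.toReal / omega n) ^ (((n : ℝ) - 2) / (n - 1)) / 2 ≤ m := by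
  have hout := Vale.Agent.C92.outside_nonneg (by omega) X hR
  have hR0 : 0 < R₁ :=
    (Vale.Agent.P366.Bridge.toRaw X).R1_pos (by omega) (Vale.Agent.P366.Bridge.raw_R1 X hR)
  have hpos : ∀ x, R₁ ≤ len x → (mat X.g x).PosDef := fun x hx => X.pos x (hout x hx)
  have hgs : ∀ i j, Smooth (fun x => X.g x i j) := fun i j => (X.smooth i j).1
  have hgsy : ∀ x i j, X.g x i j = X.g x j i := fun x i j => (X.symm x i j).1
  have hl : Lapse (bgF R₁ X.g) X.g R₁ := lapse_bgF hR0 hgs hgsy hpos (hperp.nx hR0)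
  have hinv : InvUnder Γ R₁ (bgF R₁ X.g) := by
    refine inv_bgF hR0 hΓ.orth ?_
    rw [← spherical_eq]
    exact htan
  obtain ⟨B, rfl, hB, hL⟩ := exists_bg hn hΓ hR0 hl.Gs (bgF_symm hgsy) hl.pos hl.unit hinv
  refine penrose_bg_energy hn (stA n) (stE hn) hl hB hL hAF hDEC hT hm hR (κ := κ) ?_
  intro x hx
  rw [← radial_eq, ← hl.trS_len hx]
  exact hκ x hx

end Vale.Agent.T4
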