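import Vale.Agent.P366.T4.StShift
import Vale.Agent.P366.T2.MDefs
import Vale.Agent.P366.T2.E68a
import Vale.Agent.P366.T2.U1.Alg

/-! T4, the equality case with shift: round data with the coefficients of `T2.Data`, `U1.Data` are
round data with the shift `W(r) x`. -/

open MeasureTheory Metric Filter Topology Set
open scoped ContDiff ENNReal Matrix

noncomputable section
namespace Vale.Agent.T4
open Vale.Agent.P366.Stmt Vale.Agent.P366.T2

variable {n : ℕ}

/-! ### quaternionic data -/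

/-- the shift matrix -/
def WQ (Q : Quat n) (be : Fin 3 → ℝ → ℝ) (r : ℝ) : Matrix (Fin n) (Fin n) ℝ :=
  ∑ a, (be a r / r) • Q.J a

lemma WQ_skew (Q : Quat n) (be : Fin 3 → ℝ → ℝ) (r : ℝ) : (WQ Q be r)ᵀ = -WQ Q be r := by
  unfold WQ
  rw [Matrix.transpose_sum, ← Finset.sum_neg_distrib]
  exact Finset.sum_congr rfl fun a _ => by rw [Matrix.transpose_smul, Q.skew, smul_neg]

lemma WQ_apply (Q : Quat n) (be : Fin 3 → ℝ → ℝ) (r : ℝ) (i j : Fin n) :
    WQ Q be r i j = ∑ a, be a r / r * Q.J a i j := by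
  unfold WQ
  rw [Matrix.sum_apply]
  rfl

lemma WQ_smooth (Q : Quat n) {be : Fin 3 → ℝ → ℝ} (hbe : ∀ a, ContDiff ℝ ∞ (be a)) {R : ℝ}
    (hR : 0 < R) (i j : Fin n) : ContDiffOn ℝ ∞ (fun r => WQ Q be r i j) (Ioi R) := by
  simp only [WQ_apply]
  refine ContDiffOn.sum fun a _ => ?_
  refine ContDiffOn.mul (ContDiffOn.div (hbe a).contDiffOn contDiffOn_id fun r hr => ?_)
    contDiffOn_const
  exact (hR.trans hr).ne'

lemma wv_WQ (Q : Quat n) (be : Fin 3 → ℝ → ℝ) (i : Fin n) (x : E n) :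
    wv (WQ Q be) i x = ∑ a, be a (len x) / len x * Q.Y a x i := by
  unfold wv
  simp only [WQ_apply, Finset.sum_mul]
  rw [Finset.sum_comm]
  refine Finset.sum_congr rfl fun a _ => ?_
  unfold Quat.Y
  rw [Finset.mul_sum]
  exact Finset.sum_congr rfl fun j _ => by ring

lemma sum_wv_WQ (Q : Quat n) (be : Fin 3 → ℝ → ℝ) {x : E n} (hx : x ≠ 0) :
    ∑ l, wv (WQ Q be) l x ^ 2 = ∑ a, be a (len x) ^ 2 := by
  have hl : len x ≠ 0 := len_ne hx
  have e : ∀ l, wv (WQ Q be) l x ^ 2 = ∑ a, ∑ b, (be a (len x) / len x * (be b (len x) / len x)) *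
      (Q.Y a x l * Q.Y b x l) := by
    intro l
    rw [wv_WQ, sq, Finset.sum_mul_sum]
    exact Finset.sum_congr rfl fun a _ => Finset.sum_congr rfl fun b _ => by ring
  simp only [e]
  rw [Finset.sum_comm]
  refine Finset.sum_congr rfl fun a _ => ?_
  rw [Finset.sum_comm]
  simp only [← Finset.mul_sum, E68.Y_dot_Y Q a _ x, mul_ite, mul_zero, Finset.sum_ite_eq,
    Finset.mem_univ, if_true]
  field_simp

theorem tenM_hh (Q : Quat n) (be : Fin 3 → ℝ → ℝ) {f u : ℝ → ℝ} {w : Fin 3 → ℝ → ℝ}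
    {s : Fin 3 → Fin 3 → ℝ → ℝ} {x : E n} (hx : x ≠ 0) (hw : ∀ a, w a (len x) = 0)
    (hs : ∀ a b, s a b (len x) = if a = b then f (len x) else 0) (i j : Fin n) :
    Q.tenM be f u w s x i j = f (len x) * hh (WQ Q be) x i j + u (len x) * (nx i x * nx j x) := by
  have hl : len x ≠ 0 := len_ne hx
  unfold hh
  rw [sum_wv_WQ Q be hx, wv_WQ, wv_WQ]
  unfold Quat.tenM Quat.Z nx
  simp only [hw, hs, Fin.sum_univ_three]
  simp only [Fin.isValue, Fin.reduceEq, if_false, if_true, zero_mul, add_zero, zero_add]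
  field_simp
  ring

/-- **Round data with a quaternionic shift are slices.** -/
theorem isSlice_formQ (hS : StShift n) {M : ℝ} {D : Data n} {be : Fin 3 → ℝ → ℝ} {g K : Field n}
    (h : FitsM D be g K)
    (hq : ∀ r, D.R < r → ∀ a b, D.q a b r = if a = b then D.al r else 0)
    (hv : ∀ r, D.R < r → ∀ a, D.v a r = 0)
    (hs : ∀ r, D.R < r → ∀ a b, D.s a b r = if a = b then D.ka r else 0)
    (h1 : ∀ r, D.R < r → 0 < deriv (fun t => √(t ^ 2 * D.al t)) r)
    (h2 : ∀ r, D.R < r → 0 < 1 - 2 * M / √(r ^ 2 * D.al r) ^ (n - 2))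
    (h3 : ∀ r, D.R < r → (deriv (fun t => √(t ^ 2 * D.al t)) r / √(D.p r)) ^ 2 -
      (√(r ^ 2 * D.al r) * (D.ka r / D.al r)) ^ 2 = 1 - 2 * M / √(r ^ 2 * D.al r) ^ (n - 2))
    (h4 : ∀ r, D.R < r → D.kn r / D.p r * deriv (fun t => √(t ^ 2 * D.al t)) r =
      deriv (fun t => √(t ^ 2 * D.al t) * (D.ka t / D.al t)) r) :
    IsSlice M g K {x | D.R < len x} := by
  have hR := D.hR
  have hal : ∀ r, D.R < r → 0 < D.al r := fun r hr => D.al_pos r hr.le
  have hp : ∀ r, D.R < r → 0 < D.p r := fun r hr => D.p_pos r hr.le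
  have hpos : ∀ r, D.R < r → 0 < r ^ 2 * D.al r := fun r hr => by
    have := hal r hr
    have := hR.trans hr
    positivity
  have hsq : ∀ r, D.R < r → √(r ^ 2 * D.al r) / r = √(D.al r) := fun r hr => by
    have h0 := hR.trans hr
    rw [Real.sqrt_mul (by positivity), Real.sqrt_sq h0.le]
    field_simp
  refine hS hR (rho := fun t => √(t ^ 2 * D.al t)) (q := fun r => √(D.p r))
    (k := fun r => D.ka r / D.al r) (kN := fun r => D.kn r / D.p r) ?_ ?_ ?_
    (fun r hr => Real.sqrt_pos.2 (hpos r hr)) h1 (fun r hr => Real.sqrt_pos.2 (hp r hr)) h2 h3 h4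
    (W := WQ D.Q be) (WQ_smooth D.Q h.be_smooth hR) (WQ_skew D.Q be) ?_ ?_
  · exact ContDiffOn.sqrt (((contDiff_id.pow 2).mul D.al_smooth).contDiffOn)
      fun r hr => (hpos r hr).ne'
  · exact ContDiffOn.sqrt D.p_smooth.contDiffOn fun r hr => (hp r hr).ne'
  · exact D.ka_smooth.contDiffOn.div D.al_smooth.contDiffOn fun r hr => (hal r hr).ne'
  · intro x hx i j
    have hx0 := ne_zero_of_len hR hx.le
    rw [h.hg x hx.le i j, tenM_hh D.Q be hx0 (fun _ => rfl) (hq _ hx)]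
    rw [hsq _ hx, Real.sq_sqrt (hal _ hx).le, Real.sq_sqrt (hp _ hx).le]
  · intro x hx i j
    have hx0 := ne_zero_of_len hR hx.le
    rw [h.hK x hx.le i j, tenM_hh D.Q be hx0 (hv _ hx) (hs _ hx)]
    rw [hsq _ hx, Real.sq_sqrt (hal _ hx).le, Real.sq_sqrt (hp _ hx).le]
    have := (hal _ hx).ne'
    have := (hp _ hx).ne'
    field_simp

/-! ### complex data -/

section

open Vale.Agent.U1 (Cpx)

/-- the shift matrix -/
def WU (Q : Cpx n) (be : ℝ → ℝ) (r : ℝ) : Matrix (Fin n) (Fin n) ℝ := (be r / r) • Q.J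

lemma WU_skew (Q : Cpx n) (be : ℝ → ℝ) (r : ℝ) : (WU Q be r)ᵀ = -WU Q be r := by
  unfold WU
  rw [Matrix.transpose_smul, Q.skew, smul_neg]

lemma WU_smooth (Q : Cpx n) {be : ℝ → ℝ} (hbe : ContDiff ℝ ∞ be) {R : ℝ}
    (hR : 0 < R) (i j : Fin n) : ContDiffOn ℝ ∞ (fun r => WU Q be r i j) (Ioi R) := by
  have e : ∀ r, WU Q be r i j = be r / r * Q.J i j := fun r => rfl
  simp only [e]
  refine ContDiffOn.mul (ContDiffOn.div hbe.contDiffOn contDiffOn_id fun r hr => ?_)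
    contDiffOn_const
  exact (hR.trans hr).ne'

lemma wv_WU (Q : Cpx n) (be : ℝ → ℝ) (i : Fin n) (x : E n) :
    wv (WU Q be) i x = be (len x) / len x * Q.Y x i := by
  have e : ∀ r j, WU Q be r i j = be r / r * Q.J i j := fun r j => rfl
  unfold wv Cpx.Y
  simp only [e, mul_assoc, ← Finset.mul_sum]

lemma sum_wv_WU (Q : Cpx n) (be : ℝ → ℝ) {x : E n} (hx : x ≠ 0) :
    ∑ l, wv (WU Q be) l x ^ 2 = be (len x) ^ 2 := by
  have hl : len x ≠ 0 := len_ne hx
  have e : ∀ l, wv (WU Q be) l x ^ 2 = (be (len x) / len x) ^ 2 * (Q.Y x l * Q.Y x l) := by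
    intro l
    rw [wv_WU]; ring
  simp only [e, ← Finset.mul_sum, Q.Y_Y]
  field_simp

theorem ten_hh (Q : Cpx n) (be : ℝ → ℝ) {f u w s : ℝ → ℝ} {x : E n} (hx : x ≠ 0)
    (hw : w (len x) = 0) (hs : s (len x) = f (len x)) (i j : Fin n) :
    Q.ten be f u w s x i j = f (len x) * hh (WU Q be) x i j + u (len x) * (nx i x * nx j x) := by
  have hl : len x ≠ 0 := len_ne hx
  unfold hh
  rw [sum_wv_WU Q be hx, wv_WU, wv_WU]
  unfold Cpx.ten Cpx.Z Cpx.Pi nx
  simp only [hw, hs, zero_mul, add_zero]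
  field_simp
  ring

/-- **Round data with a complex shift are slices.** -/
theorem isSlice_formU (hS : StShift n) {M : ℝ} {D : Vale.Agent.U1.Data n} {g K : Field n}
    (h : Vale.Agent.U1.Fits D g K)
    (hq : ∀ r, D.R < r → D.q r = D.al r) (hv : ∀ r, D.R < r → D.v r = 0)
    (hs : ∀ r, D.R < r → D.s r = D.ka r)
    (h1 : ∀ r, D.R < r → 0 < deriv (fun t => √(t ^ 2 * D.al t)) r)
    (h2 : ∀ r, D.R < r → 0 < 1 - 2 * M / √(r ^ 2 * D.al r) ^ (n - 2))
    (h3 : ∀ r, D.R < r → (deriv (fun t => √(t ^ 2 * D.al t)) r / √(D.p r)) ^ 2 -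
      (√(r ^ 2 * D.al r) * (D.ka r / D.al r)) ^ 2 = 1 - 2 * M / √(r ^ 2 * D.al r) ^ (n - 2))
    (h4 : ∀ r, D.R < r → D.kn r / D.p r * deriv (fun t => √(t ^ 2 * D.al t)) r =
      deriv (fun t => √(t ^ 2 * D.al t) * (D.ka t / D.al t)) r) :
    IsSlice M g K {x | D.R < len x} := by
  have hR := D.hR
  have hal : ∀ r, D.R < r → 0 < D.al r := fun r hr => D.al_pos r hr.le
  have hp : ∀ r, D.R < r → 0 < D.p r := fun r hr => D.p_pos r hr.le
  have hpos : ∀ r, D.R < r → 0 < r ^ 2 * D.al r := fun r hr => by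
    have := hal r hr
    have := hR.trans hr
    positivity
  have hsq : ∀ r, D.R < r → √(r ^ 2 * D.al r) / r = √(D.al r) := fun r hr => by
    have h0 := hR.trans hr
    rw [Real.sqrt_mul (by positivity), Real.sqrt_sq h0.le]
    field_simp
  refine hS hR (rho := fun t => √(t ^ 2 * D.al t)) (q := fun r => √(D.p r))
    (k := fun r => D.ka r / D.al r) (kN := fun r => D.kn r / D.p r) ?_ ?_ ?_
    (fun r hr => Real.sqrt_pos.2 (hpos r hr)) h1 (fun r hr => Real.sqrt_pos.2 (hp r hr)) h2 h3 h4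
    (W := WU D.Q D.be) (WU_smooth D.Q D.be_smooth hR) (WU_skew D.Q D.be) ?_ ?_
  · exact ContDiffOn.sqrt (((contDiff_id.pow 2).mul D.al_smooth).contDiffOn)
      fun r hr => (hpos r hr).ne'
  · exact ContDiffOn.sqrt D.p_smooth.contDiffOn fun r hr => (hp r hr).ne'
  · exact D.ka_smooth.contDiffOn.div D.al_smooth.contDiffOn fun r hr => (hal r hr).ne'
  · intro x hx i j
    have hx0 := ne_zero_of_len hR hx.le
    rw [h.hg x hx.le i j, ten_hh D.Q D.be hx0 rfl (hq _ hx)]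
    rw [hsq _ hx, Real.sq_sqrt (hal _ hx).le, Real.sq_sqrt (hp _ hx).le]
  · intro x hx i j
    have hx0 := ne_zero_of_len hR hx.le
    rw [h.hK x hx.le i j, ten_hh D.Q D.be hx0 (hv _ hx) (hs _ hx)]
    rw [hsq _ hx, Real.sq_sqrt (hal _ hx).le, Real.sq_sqrt (hp _ hx).le]
    have := (hal _ hx).ne'
    have := (hp _ hx).ne'
    field_simp

end

end Vale.Agent.T4
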