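import Vale.Agent.P366.T4.Groups

/-! The linear groups that act transitively on the spheres. -/

open Matrix

noncomputable section
namespace Vale.Agent.T4
open Vale.Agent.P366.Stmt

variable {n : ℕ}

/-- The determinant of a matrix `A` that commutes with the complex structure `J`, as a complex
linear map of `(ℝⁿ, J)`: `(1 - i J) / 2` is the projection of `ℂⁿ` onto the `i`-eigenspace of `J`,
and the determinant is that of the map which is `A` on this eigenspace and the identity on the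
`(-i)`-eigenspace. -/
def cdet (J A : Matrix (Fin n) (Fin n) ℝ) : ℂ :=
  ((1 / 2 : ℂ) • (1 - Complex.I • J.map Complex.ofReal) * A.map Complex.ofReal +
    (1 - (1 / 2 : ℂ) • (1 - Complex.I • J.map Complex.ofReal))).det

/-- The cross product of `ℝ⁷ = Im 𝕆` (the unit vectors satisfy `eᵢ × eᵢ₊₁ = eᵢ₊₃`, indices
mod 7). -/
def cross7 (x y : Fin 7 → ℝ) (k : Fin 7) : ℝ :=
  x (k + 1) * y (k + 3) - x (k + 3) * y (k + 1) + x (k + 2) * y (k + 6) - x (k + 6) * y (k + 2) +
    x (k + 4) * y (k + 5) - x (k + 5) * y (k + 4)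

/-- The octonionic product `u x` of an imaginary octonion `u ∈ ℝ⁷` and an octonion
`x = (x 0, x') ∈ ℝ ⊕ ℝ⁷`. -/
def octMul (u : Fin 7 → ℝ) (x : Fin 8 → ℝ) : Fin 8 → ℝ :=
  Fin.cons (-(u ⬝ᵥ fun i => x i.succ)) (x 0 • u + cross7 u fun i => x i.succ)

/-- The predicates that define the linear groups `SO(n)`, `U(n/2)`, `SU(n/2)` (`n ≥ 6`),
`Sp(n/4)`, `G₂` (`n = 7`), `Spin(7)` (`n = 8`) and `Spin(9)` (`n = 16`) on Euclidean `n`-space.
Every linear group that acts transitively on the spheres contains one of them. -/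
inductive TransGroup : (n : ℕ) → (Matrix (Fin n) (Fin n) ℝ → Prop) → Prop
  | so {n : ℕ} : TransGroup n fun A => A.transpose * A = 1 ∧ A.det = 1
  | u {n : ℕ} (J : Matrix (Fin n) (Fin n) ℝ) (skew : J.transpose = -J) (sq : J * J = -1) :
      TransGroup n fun A => A.transpose * A = 1 ∧ A * J = J * A
  | su {n : ℕ} (hn : 6 ≤ n) (J : Matrix (Fin n) (Fin n) ℝ) (skew : J.transpose = -J)
      (sq : J * J = -1) :
      TransGroup n fun A => (A.transpose * A = 1 ∧ A * J = J * A) ∧ cdet J A = 1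
  | sp {n : ℕ} (Q : Vale.Agent.P366.T2.Quat n) :
      TransGroup n fun A => A.transpose * A = 1 ∧ ∀ a, A * Q.J a = Q.J a * A
  | g2 : TransGroup 7 fun A => A.transpose * A = 1 ∧
      ∀ x y, A *ᵥ cross7 x y = cross7 (A *ᵥ x) (A *ᵥ y)
  | spin7 : TransGroup 8 fun A => A.transpose * A = 1 ∧
      ∃ B : Matrix (Fin 7) (Fin 7) ℝ, ∀ u x, A *ᵥ octMul u x = octMul (B *ᵥ u) (A *ᵥ x)
  | spin9 {n : ℕ} (O : Vale.Agent.S9.Oct n) :
      TransGroup n fun A => A.transpose * A = 1 ∧
        ∀ a, ∃ v : Fin 9 → ℝ, A * O.P a * A.transpose = ∑ b, v b • O.P b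

end Vale.Agent.T4
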