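import Mathlib.Analysis.ODE.ExistUnique
import Mathlib.Analysis.Matrix.Normed
import Mathlib.Analysis.Calculus.MeanValue
import Mathlib.Tactic

/-! The linear differential equation `A' = A W` with `W` skew has a smooth orthogonal solution on
an open half line. -/

open Set Metric Filter Topology
open scoped Matrix ContDiff NNReal

noncomputable section
namespace Vale.Agent.T4

section Banach

variable {𝔸 : Type*} [NormedRing 𝔸] [NormedAlgebra ℝ 𝔸]

/-- the factor of the radial retraction onto the ball of radius `C` -/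
def ch (C : ℝ) (x : 𝔸) : ℝ := C / max C ‖x‖

omit [NormedAlgebra ℝ 𝔸] in
lemma ch_eq_one {C : ℝ} (hC : 0 < C) {x : 𝔸} (hx : ‖x‖ ≤ C) : ch C x = 1 := by
  unfold ch
  rw [max_eq_left hx, div_self hC.ne']

lemma ret_norm {C : ℝ} (hC : 0 < C) (x : 𝔸) : ‖ch C x • x‖ ≤ C := by
  have h1 : 0 < max C ‖x‖ := lt_max_of_lt_left hC
  unfold ch
  rw [norm_smul, Real.norm_eq_abs, abs_of_pos (by positivity), div_mul_eq_mul_div,
    div_le_iff₀ h1]
  exact mul_le_mul_of_nonneg_left (le_max_right _ _) hC.le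

lemma ret_lip {C : ℝ} (hC : 0 < C) (x y : 𝔸) : ‖ch C x • x - ch C y • y‖ ≤ 2 * ‖x - y‖ := by
  have h1 : 0 < max C ‖x‖ := lt_max_of_lt_left hC
  have h2 : 0 < max C ‖y‖ := lt_max_of_lt_left hC
  have e : ch C x • x - ch C y • y = ch C x • (x - y) + (ch C x - ch C y) • y := by
    rw [smul_sub, sub_smul]; abel
  have hx : ‖ch C x • (x - y)‖ ≤ ‖x - y‖ := by
    rw [norm_smul]
    refine mul_le_of_le_one_left (norm_nonneg _) ?_
    unfold ch
    rw [Real.norm_eq_abs, abs_of_pos (by positivity), div_le_one h1]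
    exact le_max_left _ _
  have hy : ‖(ch C x - ch C y) • y‖ ≤ ‖x - y‖ := by
    have e1 : ch C x - ch C y = C / max C ‖x‖ * ((max C ‖y‖ - max C ‖x‖) / max C ‖y‖) := by
      unfold ch
      field_simp
    rw [norm_smul, e1, norm_mul, norm_div, norm_div, Real.norm_eq_abs, Real.norm_eq_abs,
      Real.norm_eq_abs, Real.norm_eq_abs, abs_of_pos hC, abs_of_pos h1, abs_of_pos h2]
    have h3 : C / max C ‖x‖ ≤ 1 := by
      rw [div_le_one h1]; exact le_max_left _ _
    have h4 : |max C ‖y‖ - max C ‖x‖| ≤ ‖x - y‖ := by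
      refine (abs_max_sub_max_le_abs ‖y‖ ‖x‖ C |> fun h => ?_)
      rw [max_comm C, max_comm C]
      refine h.trans ?_
      rw [abs_sub_comm]
      exact abs_norm_sub_norm_le x y
    have h5 : ‖y‖ / max C ‖y‖ ≤ 1 := by
      rw [div_le_one h2]; exact le_max_right _ _
    have h6 : C / max C ‖x‖ * (|max C ‖y‖ - max C ‖x‖| / max C ‖y‖) * ‖y‖ =
        C / max C ‖x‖ * |max C ‖y‖ - max C ‖x‖| * (‖y‖ / max C ‖y‖) := by ring
    rw [h6]
    calc C / max C ‖x‖ * |max C ‖y‖ - max C ‖x‖| * (‖y‖ / max C ‖y‖)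
        ≤ 1 * ‖x - y‖ * 1 := by
          refine mul_le_mul (mul_le_mul h3 h4 (abs_nonneg _) zero_le_one) h5 (by positivity)
            (by positivity)
      _ = ‖x - y‖ := by ring
  rw [e]
  calc _ ≤ ‖ch C x • (x - y)‖ + ‖(ch C x - ch C y) • y‖ := norm_add_le _ _
    _ ≤ ‖x - y‖ + ‖x - y‖ := add_le_add hx hy
    _ = 2 * ‖x - y‖ := by ring

/-- solution of the truncated equation -/
theorem exists_trunc [CompleteSpace 𝔸] {W : ℝ → 𝔸} {a b t₀ : ℝ} (ht₀ : t₀ ∈ Icc a b)
    (hW : ContinuousOn W (Icc a b)) {C : ℝ} (hC : 0 < C) (x₀ : 𝔸) :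
    ∃ α : ℝ → 𝔸, α t₀ = x₀ ∧ ∀ t ∈ Icc a b,
      HasDerivWithinAt α (ch C (α t) • (α t * W t)) (Icc a b) t := by
  obtain ⟨M, hM⟩ := isCompact_Icc.exists_bound_of_continuousOn hW
  have hM0 : 0 ≤ M := (norm_nonneg _).trans (hM t₀ ht₀)
  set M' : ℝ≥0 := ⟨M, hM0⟩ with hM'
  set C' : ℝ≥0 := ⟨C, hC.le⟩ with hC'
  set T : ℝ≥0 := ⟨max (b - t₀) (t₀ - a), le_max_of_le_left (by linarith [ht₀.2])⟩ with hT
  have hf : ∀ t (x : 𝔸), ch C x • (x * W t) = (ch C x • x) * W t := fun t x =>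
    (smul_mul_assoc _ _ _).symm
  have hPL : IsPicardLindelof (fun t x => ch C x • (x * W t)) (⟨t₀, ht₀⟩ : Icc a b) x₀
      (C' * M' * T) 0 (C' * M') (2 * M') := by
    refine ⟨fun t ht => ?_, fun x _ => ?_, fun t ht x _ => ?_, ?_⟩
    · refine LipschitzOnWith.of_dist_le_mul fun x _ y _ => ?_
      simp only [hf]
      rw [dist_eq_norm, dist_eq_norm, ← sub_mul]
      refine (norm_mul_le _ _).trans ?_
      calc _ ≤ 2 * ‖x - y‖ * M := mul_le_mul (ret_lip hC x y) (hM t ht) (norm_nonneg _)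
            (by positivity)
        _ = _ := by rw [NNReal.coe_mul]; show 2 * ‖x - y‖ * M = 2 * M * ‖x - y‖; ring
    · exact (continuousOn_const.mul hW).const_smul _
    · rw [hf]
      refine (norm_mul_le _ _).trans ?_
      rw [NNReal.coe_mul]
      exact mul_le_mul (ret_norm hC x) (hM t ht) (norm_nonneg _) hC.le
    · simp only [NNReal.coe_mul, NNReal.coe_zero, sub_zero]
      exact le_rfl
  exact hPL.exists_eq_forall_mem_Icc_hasDerivWithinAt₀

end Banach

section Mat

variable {n : ℕ}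

attribute [local instance] Matrix.linftyOpNormedRing Matrix.linftyOpNormedAlgebra

lemma complete_mat : CompleteSpace (Matrix (Fin n) (Fin n) ℝ) := FiniteDimensional.complete ℝ _

/-- entries of a derivative -/
lemma entry_deriv {α : ℝ → Matrix (Fin n) (Fin n) ℝ} {α' : Matrix (Fin n) (Fin n) ℝ} {s : Set ℝ}
    {t : ℝ} (h : HasDerivWithinAt α α' s t) (i j : Fin n) :
    HasDerivWithinAt (fun r => α r i j) (α' i j) s t := by
  have h1 := ((Matrix.entryLinearMap ℝ ℝ i j).toContinuousLinearMap.hasFDerivAt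
    (x := α t)).comp_hasDerivWithinAt t h
  exact h1

/-- the norm of an orthogonal matrix -/
lemma orth_norm {A : Matrix (Fin n) (Fin n) ℝ} (hA : A * Aᵀ = 1) : ‖A‖ ≤ n := by
  have h1 : ∀ i j, |A i j| ≤ 1 := by
    intro i j
    have h2 := congrFun (congrFun hA i) i
    rw [Matrix.mul_apply, Matrix.one_apply_eq] at h2
    have h3 : A i j ^ 2 ≤ 1 := by
      rw [← h2]
      have h4 := Finset.single_le_sum (f := fun k => A i k * Aᵀ k i)
        (fun k _ => by rw [Matrix.transpose_apply]; exact mul_self_nonneg _) (Finset.mem_univ j)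
      refine le_trans (le_of_eq ?_) h4
      simp only [Matrix.transpose_apply]
      ring
    exact (sq_le_one_iff_abs_le_one _).1 h3
  rw [Matrix.linfty_opNorm_def]
  have h2 : Finset.univ.sup (fun i : Fin n => ∑ j : Fin n, ‖A i j‖₊) ≤ (n : ℝ≥0) := by
    refine Finset.sup_le fun i _ => ?_
    calc ∑ j : Fin n, ‖A i j‖₊ ≤ ∑ j : Fin n, (1 : ℝ≥0) := Finset.sum_le_sum fun j _ => by
          rw [← NNReal.coe_le_coe, coe_nnnorm, Real.norm_eq_abs]
          exact h1 i j
      _ = n := by simp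
  exact_mod_cast h2

/-- orthogonality is preserved -/
lemma pair_orth {W α β : ℝ → Matrix (Fin n) (Fin n) ℝ} {a b t₀ : ℝ} {c : ℝ → ℝ}
    (ht₀ : t₀ ∈ Icc a b) (hsk : ∀ t ∈ Icc a b, (W t)ᵀ = -W t) (h0 : α t₀ = 1) (h0' : β t₀ = 1)
    (h : ∀ t ∈ Icc a b, HasDerivWithinAt α (c t • (α t * W t)) (Icc a b) t)
    (h' : ∀ t ∈ Icc a b, HasDerivWithinAt β (c t • (β t * W t)) (Icc a b) t) {t : ℝ}
    (ht : t ∈ Icc a b) : α t * (β t)ᵀ = 1 := by
  have key : ∀ i j, ∀ t ∈ Icc a b,
      HasDerivWithinAt (fun r => (α r * (β r)ᵀ) i j) 0 (Icc a b) t := by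
    intro i j t ht
    have h1 : ∀ k, HasDerivWithinAt (fun r => α r i k * β r j k)
        ((c t • (α t * W t)) i k * β t j k + α t i k * (c t • (β t * W t)) j k)
        (Icc a b) t := fun k => (entry_deriv (h t ht) i k).mul (entry_deriv (h' t ht) j k)
    have h2 := HasDerivWithinAt.fun_sum (u := Finset.univ) fun k _ => h1 k
    have h3 : ∑ k, ((c t • (α t * W t)) i k * β t j k +
        α t i k * (c t • (β t * W t)) j k) = 0 := by
      have e1 : ∀ k, (c t • (α t * W t)) i k * β t j k +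
          α t i k * (c t • (β t * W t)) j k = c t * ((α t * W t) i k * (β t)ᵀ k j +
            α t i k * (β t * W t)ᵀ k j) := by
        intro k
        simp only [Matrix.smul_apply, smul_eq_mul, Matrix.transpose_apply]
        ring
      simp only [e1, ← Finset.mul_sum, Finset.sum_add_distrib]
      rw [← Matrix.mul_apply, ← Matrix.mul_apply, ← Matrix.add_apply, Matrix.transpose_mul,
        hsk t ht, Matrix.neg_mul, Matrix.mul_neg, ← Matrix.mul_assoc, add_neg_cancel]
      simp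
    rw [h3] at h2
    refine h2.congr_of_mem (fun r _ => ?_) ht
    rw [Matrix.mul_apply]
    rfl
  ext i j
  have h1 := (convex_Icc a b).norm_image_sub_le_of_norm_hasDerivWithin_le (C := 0) (key i j)
    (fun _ _ => by simp) ht₀ ht
  rw [zero_mul, norm_le_zero_iff, sub_eq_zero] at h1
  rw [h1, h0, h0']
  simp

/-- solution of the linear equation on a compact interval -/
theorem exists_frame_Icc {W : ℝ → Matrix (Fin n) (Fin n) ℝ} {a b t₀ : ℝ} (ht₀ : t₀ ∈ Icc a b)
    (hW : ContinuousOn W (Icc a b)) (hsk : ∀ t ∈ Icc a b, (W t)ᵀ = -W t) :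
    ∃ α : ℝ → Matrix (Fin n) (Fin n) ℝ, α t₀ = 1 ∧ (∀ t ∈ Icc a b, α t * (α t)ᵀ = 1) ∧
      ∀ t ∈ Icc a b, HasDerivWithinAt α (α t * W t) (Icc a b) t := by
  have hC : (0 : ℝ) < n + 1 := by positivity
  have := complete_mat (n := n)
  obtain ⟨α, h0, h⟩ := exists_trunc ht₀ hW hC 1
  have ho : ∀ t ∈ Icc a b, α t * (α t)ᵀ = 1 := fun t ht =>
    pair_orth (c := fun t => ch (n + 1) (α t)) ht₀ hsk h0 h0 h h ht
  refine ⟨α, h0, ho, fun t ht => ?_⟩
  have h1 := h t ht
  rwa [ch_eq_one hC ((orth_norm (ho t ht)).trans (by linarith)), one_smul] at h1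

lemma contDiffOn_mat {W : ℝ → Matrix (Fin n) (Fin n) ℝ} {s : Set ℝ}
    (hW : ∀ i j, ContDiffOn ℝ ∞ (fun r => W r i j) s) : ContDiffOn ℝ ∞ W s := by
  have e : W = fun r => ∑ i, ∑ j, W r i j • Matrix.single i j (1 : ℝ) := by
    funext r
    conv_lhs => rw [Matrix.matrix_eq_sum_single (W r)]
    refine Finset.sum_congr rfl fun i _ => Finset.sum_congr rfl fun j _ => ?_
    rw [Matrix.smul_single, smul_eq_mul, mul_one]
  rw [e]
  exact ContDiffOn.sum fun i _ => ContDiffOn.sum fun j _ => (hW i j).smul contDiffOn_const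

lemma contDiffOn_entry {A : ℝ → Matrix (Fin n) (Fin n) ℝ} {s : Set ℝ}
    (hA : ContDiffOn ℝ ∞ A s) (i j : Fin n) : ContDiffOn ℝ ∞ (fun r => A r i j) s :=
  (Matrix.entryLinearMap ℝ ℝ i j).toContinuousLinearMap.contDiff.comp_contDiffOn hA

/-- **A smooth orthogonal frame**: `A' = A W` on `(R, ∞)`, `W` skew. -/
theorem exists_frame {W : ℝ → Matrix (Fin n) (Fin n) ℝ} {R : ℝ}
    (hW : ∀ i j, ContDiffOn ℝ ∞ (fun r => W r i j) (Ioi R))
    (hsk : ∀ r, R < r → (W r)ᵀ = -W r) :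
    ∃ A : ℝ → Matrix (Fin n) (Fin n) ℝ, (∀ i j, ContDiffOn ℝ ∞ (fun r => A r i j) (Ioi R)) ∧
      (∀ r, R < r → (A r)ᵀ * A r = 1) ∧
      ∀ r, R < r → ∀ i j, HasDerivAt (fun s => A s i j) ((A r * W r) i j) r := by
  have hWm := contDiffOn_mat hW
  -- the exhaustion
  set a : ℕ → ℝ := fun N => R + 1 / ((N : ℝ) + 1) with ha
  set b : ℕ → ℝ := fun N => R + 1 + N with hb
  have haR : ∀ N, R < a N := fun N => by
    simp only [ha]
    have : (0 : ℝ) < 1 / ((N : ℝ) + 1) := by positivity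
    linarith
  have hsub : ∀ N, Icc (a N) (b N) ⊆ Ioi R := fun N t ht => (haR N).trans_le ht.1
  have ht₀ : ∀ N, R + 1 ∈ Icc (a N) (b N) := fun N => by
    refine ⟨?_, ?_⟩
    · simp only [ha]
      have : 1 / ((N : ℝ) + 1) ≤ 1 := by
        rw [div_le_one (by positivity)]
        have : (0 : ℝ) ≤ N := Nat.cast_nonneg N
        linarith
      linarith
    · simp only [hb]
      have : (0 : ℝ) ≤ N := Nat.cast_nonneg N
      linarith
  have hmono : ∀ N M, N ≤ M → Icc (a N) (b N) ⊆ Icc (a M) (b M) := by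
    intro N M hNM
    have h1 : (N : ℝ) ≤ M := by exact_mod_cast hNM
    refine Icc_subset_Icc ?_ ?_
    · simp only [ha]
      have : 1 / ((M : ℝ) + 1) ≤ 1 / ((N : ℝ) + 1) :=
        one_div_le_one_div_of_le (by positivity) (by linarith)
      linarith
    · simp only [hb]; linarith
  choose α h0 ho hd using fun N => exists_frame_Icc (ht₀ N) (hWm.continuousOn.mono (hsub N))
    (fun t ht => hsk t (hsub N ht))
  have huniq : ∀ N M, N ≤ M → ∀ t ∈ Icc (a N) (b N), α N t = α M t := by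
    intro N M hNM t ht
    have h1 : α N t * (α M t)ᵀ = 1 := pair_orth (c := fun _ => 1) (ht₀ N)
      (fun t ht => hsk t (hsub N ht)) (h0 N) (h0 M)
      (fun t ht => by rw [one_smul]; exact hd N t ht)
      (fun t ht => by rw [one_smul]; exact (hd M t (hmono N M hNM ht)).mono (hmono N M hNM)) ht
    have h2 : (α M t)ᵀ * α M t = 1 := mul_eq_one_comm.1 (ho M t (hmono N M hNM ht))
    calc α N t = α N t * ((α M t)ᵀ * α M t) := by rw [h2, Matrix.mul_one]
      _ = α M t := by rw [← Matrix.mul_assoc, h1, Matrix.one_mul]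
  have hex : ∀ t, R < t → ∃ N, t ∈ Icc (a N) (b N) := by
    intro t ht
    obtain ⟨N, hN⟩ := exists_nat_ge (max (1 / (t - R)) (t - R))
    have h1 : 1 / (t - R) ≤ N := (le_max_left _ _).trans hN
    have h2 : t - R ≤ N := (le_max_right _ _).trans hN
    have h3 : 0 < t - R := by linarith
    refine ⟨N, ?_, ?_⟩
    · simp only [ha]
      have : 1 / ((N : ℝ) + 1) ≤ t - R := by
        rw [div_le_iff₀ (by positivity)]
        rw [div_le_iff₀ h3] at h1
        nlinarith
      linarith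
    · simp only [hb]; linarith
  classical
  set A : ℝ → Matrix (Fin n) (Fin n) ℝ := fun t =>
    if h : ∃ N, t ∈ Icc (a N) (b N) then α h.choose t else 1 with hA
  have hAeq : ∀ M, ∀ t ∈ Icc (a M) (b M), A t = α M t := by
    intro M t ht
    have h : ∃ N, t ∈ Icc (a N) (b N) := ⟨M, ht⟩
    have h1 : A t = α h.choose t := by simp only [hA]; rw [dif_pos h]
    rw [h1, huniq _ _ (le_max_left h.choose M) t h.choose_spec,
      huniq _ _ (le_max_right h.choose M) t ht]
  have hnhds : ∀ t, R < t → ∃ M, Icc (a M) (b M) ∈ 𝓝 t := by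
    intro t ht
    obtain ⟨N, hN⟩ := hex t ht
    refine ⟨N + 1, Icc_mem_nhds ?_ ?_⟩
    · refine lt_of_lt_of_le ?_ hN.1
      simp only [ha]
      push_cast
      have : 1 / ((N : ℝ) + 1 + 1) < 1 / ((N : ℝ) + 1) :=
        one_div_lt_one_div_of_lt (by positivity) (by linarith)
      linarith
    · refine lt_of_le_of_lt hN.2 ?_
      simp only [hb]
      push_cast
      linarith
  refine ⟨A, fun i j => ?_, fun r hr => ?_, fun r hr i j => ?_⟩
  · refine contDiffOn_entry ?_ i j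
    intro t ht
    obtain ⟨M, hM⟩ := hnhds t ht
    have h1 : ContDiffOn ℝ ∞ (α M) (Icc (a M) (b M)) := by
      refine ODE.contDiffOn_enat_Icc_of_hasDerivWithinAt (n := ⊤)
        (f := fun t (X : Matrix (Fin n) (Fin n) ℝ) => X * W t) (u := univ) ?_ (hd M)
        (fun _ _ => mem_univ _)
      have h2 : ContDiffOn ℝ ∞ (fun p : ℝ × Matrix (Fin n) (Fin n) ℝ => W p.1)
          (Icc (a M) (b M) ×ˢ univ) :=
        (hWm.mono (hsub M)).comp contDiffOn_fst fun p hp => hp.1
      exact contDiffOn_snd.mul h2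
    have h3 : ContDiffAt ℝ ∞ (α M) t := (h1 t (mem_of_mem_nhds hM)).contDiffAt hM
    refine (h3.congr_of_eventuallyEq ?_).contDiffWithinAt
    filter_upwards [hM] with s hs using hAeq M s hs
  · obtain ⟨M, hM⟩ := hnhds r hr
    have h1 := mem_of_mem_nhds hM
    rw [hAeq M r h1]
    exact mul_eq_one_comm.1 (ho M r h1)
  · obtain ⟨M, hM⟩ := hnhds r hr
    have h1 := mem_of_mem_nhds hM
    have h2 := (entry_deriv (hd M r h1) i j).hasDerivAt hM
    rw [← hAeq M r h1] at h2
    refine h2.congr_of_eventuallyEq ?_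
    filter_upwards [hM] with s hs
    rw [hAeq M s hs]

end Mat

end Vale.Agent.T4
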