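import Vale.Agent.P366.T4.Touch92
import Vale.Agent.P366.T5.TA92

/-! T4: if no weakly future trapped enclosing cut lies in the interior, then the centred spheres
outside the boundary have positive outgoing null expansion. -/

open MeasureTheory Metric Filter Topology Set
open scoped ContDiff ENNReal Matrix

noncomputable section
namespace Vale.Agent.T4
open Vale.Agent.P366.Stmt Vale.Agent.P366.T2
open Vale.Agent.C92 (pd_congr_outside pd_mul pd_sum pd_len pd_pd_len trS_def outside_nonneg
  theta_compare)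

variable {n : ℕ}

/-- No weakly future trapped enclosing cut lies in the interior of `Ω`. -/
def Outermost (D : Exterior n) : Prop :=
  ¬ ∃ G, IsExt G ∧ (∀ x, 0 ≤ G x → 0 < D.F x) ∧ ∀ x, G x = 0 → thetaPlus D.g D.K G x ≤ 0

/-- defining function of the centred sphere of radius `r` -/
def sqF (n : ℕ) (r : ℝ) : E n → ℝ := fun x => ‖x‖ ^ 2 - r ^ 2

lemma pd_sqF (r : ℝ) (j : Fin n) (x : E n) : pd j (sqF n r) x = 2 * x j := by
  have h1 : HasFDerivAt (sqF n r) (2 • (innerSL ℝ) x) x :=
    (hasStrictFDerivAt_norm_sq x).hasFDerivAt.sub_const (r ^ 2)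
  unfold pd
  rw [(h1.hasLineDerivAt _).lineDeriv]
  simp [EuclideanSpace.inner_single_right]

lemma pd_pd_sqF (r : ℝ) (i j : Fin n) (x : E n) :
    pd i (pd j (sqF n r)) x = if i = j then 2 else 0 := by
  have h1 : pd j (sqF n r) = fun x => 2 * x j := funext fun x => pd_sqF r j x
  rw [h1]
  unfold pd
  have h2 : HasFDerivAt (fun x : E n => 2 * x j)
      ((2 : ℝ) • (EuclideanSpace.proj j : E n →L[ℝ] ℝ)) x := by
    exact (EuclideanSpace.proj j : E n →L[ℝ] ℝ).hasFDerivAt.const_mul 2
  rw [(h2.hasLineDerivAt _).lineDeriv]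
  simp [eq_comm]

namespace Lapse

variable {G g : Field n} {R : ℝ} (h : Lapse G g R)
include h

lemma pd_sqF_len {x : E n} (hx : R ≤ len x) (r : ℝ) (j : Fin n) :
    pd j (sqF n r) x = 2 * len x * pd j len x := by
  have h0 := h.ne_zero hx
  have hl := len_ne h0
  rw [pd_sqF, pd_len h0]
  field_simp

lemma cov_sqF {x : E n} (hx : R ≤ len x) (r : ℝ) :
    covNorm g (fun j => pd j (sqF n r)) x = 2 * len x * covNorm g (fun j => pd j len) x := by
  have hl : 0 < len x := h.len_pos hx
  unfold covNorm
  have e : ∑ i, ∑ j, up g i j x * pd i (sqF n r) x * pd j (sqF n r) x =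
      (2 * len x) ^ 2 * ∑ i, ∑ j, up g i j x * pd i len x * pd j len x := by
    simp only [Finset.mul_sum, h.pd_sqF_len hx]
    exact Finset.sum_congr rfl fun i _ => Finset.sum_congr rfl fun j _ => by ring
  rw [e, Real.sqrt_mul (by positivity), Real.sqrt_sq (by positivity)]

lemma nrm_sqF {x : E n} (hx : R ≤ len x) (r : ℝ) (i : Fin n) :
    nrm g (sqF n r) i x = nrm g len i x := by
  have hl : 0 < len x := h.len_pos hx
  unfold nrm
  rw [h.cov_sqF hx]
  simp only [h.pd_sqF_len hx]
  have e : ∑ j, up g i j x * (2 * len x * pd j len x) =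
      (2 * len x) * ∑ j, up g i j x * pd j len x := by
    rw [Finset.mul_sum]
    exact Finset.sum_congr rfl fun j _ => by ring
  rw [e, mul_div_mul_left _ _ (by positivity)]

/-- Null expansion of the centred spheres, for the smooth defining function. -/
theorem theta_sqF {K : Field n} {x : E n} (hx : R ≤ len x) (r : ℝ) :
    thetaPlus g K (sqF n r) x = thetaPlus g K len x := by
  have h0 := h.ne_zero hx
  have hl : 0 < len x := h.len_pos hx
  have hp := h.ppos x hx
  have hs : 0 < √(rad g x) := Real.sqrt_pos.2 hp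
  have htr : ∀ T : Field n, trS g T (sqF n r) x = trS g T len x := by
    intro T
    rw [trS_def, trS_def]
    simp only [h.nrm_sqF hx]
  have hh : ∀ i j, hess g (sqF n r) x i j = 2 * len x * hess g len x i j +
      2 * (nx i x * nx j x) := by
    intro i j
    unfold hess
    rw [pd_pd_sqF, pd_pd_len h0]
    have e : ∑ k, chr g k i j x * pd k (sqF n r) x =
        2 * len x * ∑ k, chr g k i j x * pd k len x := by
      rw [Finset.mul_sum]
      exact Finset.sum_congr rfl fun k _ => by rw [h.pd_sqF_len hx]; ring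
    rw [e]
    unfold nx
    field_simp
    split_ifs <;> ring
  unfold thetaPlus
  rw [htr, htr, h.cov_sqF hx, h.trS_len hx, h.trS_len hx, h.trS_len hx]
  have e1 : trT G (hess g (sqF n r)) x = 2 * len x * trT G (hess g len) x := by
    unfold trT
    simp only [hh]
    have e2 : ∀ i j, Sm G i j x * (2 * len x * hess g len x i j + 2 * (nx i x * nx j x)) =
        2 * len x * (Sm G i j x * hess g len x i j) + 2 * nx i x * (Sm G i j x * nx j x) :=
      fun i j => by ring
    simp only [e2, Finset.sum_add_distrib, ← Finset.mul_sum, h.Sm_nx hx, mul_zero, add_zero]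
  rw [e1, mul_div_mul_left _ _ (by positivity)]

end Lapse

/-- **outermost boundaries** -/
theorem out_pos (hn : 2 ≤ n) {X : Exterior n} {G : Field n} {B : Bg n} (h : Lapse G X.g B.R)
    (hB : B.Fits0 G) {κ : ℝ → ℝ}
    (hκ : ∀ x, B.R ≤ len x → √(rad X.g x) * trT G X.K x = κ (len x)) (hO : Outermost X)
    (hR : IsGreatest {r | ∃ x, X.F x = 0 ∧ len x = r} B.R) {r : ℝ} (hr : B.R < r) :
    0 < B.H r + κ r := by
  have hout := outside_nonneg hn X hR
  have hr0 : 0 < r := B.hR.trans hr
  by_contra hcon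
  push Not at hcon
  refine hO ⟨_, Vale.Agent.P366.isExt_round hn hr0, ?_, ?_⟩
  · intro x hx
    have hx' : r ≤ len x := by
      have h : r ^ 2 ≤ ‖x‖ ^ 2 := by linarith only [hx]
      exact (abs_le_of_sq_le_sq' h (norm_nonneg x)).2
    have h1 : 0 ≤ X.F x := hout x (hr.le.trans hx')
    rcases h1.lt_or_eq with h2 | h2
    · exact h2
    · exact absurd (hR.2 ⟨x, h2.symm, rfl⟩) (not_le.2 (hr.trans_le hx'))
  · intro x hx
    have hlen : len x = r := by
      have h1 : len x ^ 2 = r ^ 2 := by
        have : ‖x‖ ^ 2 - r ^ 2 = 0 := hx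
        unfold len; linarith
      exact (pow_left_inj₀ (norm_nonneg _) hr0.le two_ne_zero).1 h1
    have hxR : B.R ≤ len x := by rw [hlen]; exact hr.le
    have hp := h.ppos x hxR
    have hs : 0 < √(rad X.g x) := Real.sqrt_pos.2 hp
    have e1 : thetaPlus X.g X.K (fun x : E n => ‖x‖ ^ 2 - r ^ 2) x =
        thetaPlus X.g X.K (sqF n r) x := rfl
    rw [e1, h.theta_sqF hxR, h.theta_len hxR, H1_eq_bd0 h hB hxR]
    have h3 := hκ x hxR
    rw [hlen] at h3 ⊢
    have h5 : √(rad X.g x) * (B.H r / √(rad X.g x) + trT G X.K x) =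
        B.H r + √(rad X.g x) * trT G X.K x := by
      field_simp
    rw [← h3, ← h5] at hcon
    exact nonpos_of_mul_nonpos_right hcon hs

end Vale.Agent.T4
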