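import Vale.Agent.P366.T4.FamQO
import Vale.Agent.P366.T4.FamSpin7

/-! T4, the equality case: equality in `lam² ≤ (n-1) L2` forces the round metric. -/

open MeasureTheory Metric Filter Topology Set
open scoped ContDiff ENNReal Matrix

noncomputable section
namespace Vale.Agent.T4
open Vale.Agent.P366.Stmt

variable {n : ℕ}

/-- Equality in `hL` at `r` forces the metric to be round at `|x| = r`. -/
def Bg.RoundEq (B : Bg n) (G : Field n) : Prop := ∀ r, B.R < r →
  B.lam r ^ 2 = ((n : ℝ) - 1) * B.L2 r →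
  B.lam r = ((n : ℝ) - 1) / (2 * B.rho r) ∧
  ∀ x, len x = r → ∀ i j, G x i j = (B.rho r / r) ^ 2 *
    ((if i = j then 1 else 0) - nx i x * nx j x) + nx i x * nx j x

lemma rpow_half {Y N : ℝ} (hY : 0 < Y) (hN : 0 < N) : (Y ^ (N / 2)) ^ (1 / N) = √Y := by
  rw [← Real.rpow_mul hY.le, Real.sqrt_eq_rpow]
  congr 1
  field_simp

lemma sqrt_sq_div {r a : ℝ} (hr : 0 < r) (ha : 0 < a) : (√(r ^ 2 * a) / r) ^ 2 = a := by
  rw [div_pow, Real.sq_sqrt (by positivity)]
  field_simp

/-! ### `U(m)` -/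

section

open U1

theorem bgU_roundEq (hn : 3 ≤ n) {D : U1.Data n} (hp : ∀ r, D.R ≤ r → D.p r = 1) {G : Field n}
    (h : U1.FitsT D G) : (bgU hn D hp).RoundEq G := by
  intro r hr heq
  have hr' : D.R < r := hr
  have hr0 : 0 < r := D.hR.trans hr'
  have hn3 : (3 : ℝ) ≤ n := by exact_mod_cast hn
  have hb0 : 0 < D.b := by unfold U1.Data.b; linarith
  have hYb := D.Yb_pos hr'.le
  have hYf := D.Yf_pos hr'.le
  have hs := Real.sqrt_pos.2 hYf
  have hss := Real.mul_self_sqrt hYf.le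
  have heq' : D.lam r ^ 2 = ((n : ℝ) - 1) * D.L2 r := heq
  have e : D.lam r = D.Tf r + D.b * D.Tb r := by
    unfold U1.Data.lam U1.Data.Tf U1.Data.Tb; ring
  have e2 : (n : ℝ) - 1 = D.b + 1 := by unfold U1.Data.b; ring
  have h1 : D.b * (D.Tf r - D.Tb r) ^ 2 = 0 := by
    rw [e, e2] at heq'
    unfold U1.Data.L2 at heq'
    linear_combination -heq'
  have h2 : D.Tf r = D.Tb r := by
    have := (mul_eq_zero.1 h1).resolve_left hb0.ne'
    exact sub_eq_zero.1 (pow_eq_zero_iff (two_ne_zero) |>.1 this)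
  have h3 : D.Yf r = D.Yb r := by
    unfold U1.Data.Tf U1.Data.Tb at h2
    field_simp at h2
    have h4 : (D.b + 2) * (D.Yb r - √(D.Yf r) * √(D.Yf r)) = 0 := by
      linear_combination (1 / 2) * h2
    rw [hss] at h4
    have := (mul_eq_zero.1 h4).resolve_left (by linarith)
    linarith
  have hq : D.q r = D.al r := by
    have h4 := h3
    unfold U1.Data.Yf U1.Data.Yb at h4
    exact mul_left_cancel₀ (by positivity) h4
  have hrho : (bgU hn D hp).rho r = √(r ^ 2 * D.al r) := by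
    have h5 : (bgU hn D hp).ar r = (r ^ 2 * D.al r) ^ (((n : ℝ) - 1) / 2) := by
      show D.ar r = _
      unfold U1.Data.ar
      rw [h3]
      have h6 : D.Yb r = r ^ 2 * D.al r := rfl
      rw [← h6, Real.sqrt_eq_rpow, ← Real.rpow_add hYb]
      congr 1
      unfold U1.Data.b; ring
    unfold Bg.rho
    rw [h5, rpow_half (by have := D.al_pos r hr'.le; positivity) (by linarith)]
  have hal := D.al_pos r hr'.le
  refine ⟨?_, fun x hx i j => ?_⟩
  · rw [hrho]
    show D.lam r = _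
    have h6 : D.Yb r = r ^ 2 * D.al r := rfl
    unfold U1.Data.lam
    rw [h3, h6]
    have h7 : 0 < √(r ^ 2 * D.al r) := Real.sqrt_pos.2 (by positivity)
    have h8 := Real.mul_self_sqrt (show 0 ≤ r ^ 2 * D.al r by positivity)
    generalize √(r ^ 2 * D.al r) = s at *
    rw [← h8, e2]
    field_simp
    ring
  · subst hx
    rw [hrho, sqrt_sq_div hr0 hal, h.hg x hr'.le, hq, hp _ hr'.le]
    unfold U1.Cpx.tv
    rw [nx_eq, nx_eq]
    ring

end

/-! ### `Spin(9)` -/

section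

open Vale.Agent.S9

theorem bgO_roundEq (hn : n = 16) {D : Vale.Agent.S9.Data n} (hp : ∀ r, D.R ≤ r → D.p r = 1)
    {G K0 : Field n} (h : Vale.Agent.S9.Fits D G K0) : (bgO hn D hp).RoundEq G := by
  intro r hr heq
  have hr' : D.R < r := hr
  have hr0 : 0 < r := D.hR.trans hr'
  have hn' : (n : ℝ) = 16 := by exact_mod_cast hn
  have hYb := D.Yb_pos hr'.le
  have hYf := D.Yf_pos hr'.le
  have hs := Real.sqrt_pos.2 hYf
  have hss := Real.mul_self_sqrt hYf.le
  have heq' : D.lam r ^ 2 = ((n : ℝ) - 1) * D.L2 r := heq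
  have e : D.lam r = 7 * D.Tf r + 8 * D.Tb r := by
    unfold Vale.Agent.S9.Data.lam Vale.Agent.S9.Data.Tf Vale.Agent.S9.Data.Tb; ring
  have h1 : (D.Tf r - D.Tb r) ^ 2 = 0 := by
    rw [e, hn'] at heq'
    unfold Vale.Agent.S9.Data.L2 at heq'
    linear_combination (-1 / 56) * heq'
  have h2 : D.Tf r = D.Tb r := sub_eq_zero.1 (pow_eq_zero_iff (two_ne_zero) |>.1 h1)
  have h3 : D.Yf r = D.Yb r := by
    unfold Vale.Agent.S9.Data.Tf Vale.Agent.S9.Data.Tb at h2
    field_simp at h2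
    have h4 : D.Yb r - √(D.Yf r) * √(D.Yf r) = 0 := by
      linear_combination (1 / 11) * h2
    rw [hss] at h4
    linarith
  have hq : D.c r = D.al r := by
    have h4 := h3
    unfold Vale.Agent.S9.Data.Yf Vale.Agent.S9.Data.Yb at h4
    exact mul_left_cancel₀ (by positivity) h4
  have hal := D.al_pos r hr'.le
  have hrho : (bgO hn D hp).rho r = √(r ^ 2 * D.al r) := by
    have h5 : (bgO hn D hp).ar r = (r ^ 2 * D.al r) ^ (((n : ℝ) - 1) / 2) := by
      show D.ar r = _
      unfold Vale.Agent.S9.Data.ar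
      rw [h3]
      have h6 : D.Yb r = r ^ 2 * D.al r := rfl
      rw [← h6, Real.sqrt_eq_rpow, ← Real.rpow_natCast (D.Yb r) 4, ← Real.rpow_natCast (D.Yb r) 7,
        ← Real.rpow_mul hYb.le, ← Real.rpow_add hYb, hn']
      congr 1
      norm_num
    unfold Bg.rho
    rw [h5, rpow_half (by positivity) (by rw [hn']; norm_num)]
  refine ⟨?_, fun x hx i j => ?_⟩
  · rw [hrho]
    show D.lam r = _
    have h6 : D.Yb r = r ^ 2 * D.al r := rfl
    unfold Vale.Agent.S9.Data.lam
    rw [h3, h6, hn']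
    have h7 : 0 < √(r ^ 2 * D.al r) := Real.sqrt_pos.2 (by positivity)
    have h8 := Real.mul_self_sqrt (show 0 ≤ r ^ 2 * D.al r by positivity)
    generalize √(r ^ 2 * D.al r) = s at *
    rw [← h8]
    field_simp
    ring
  · subst hx
    rw [hrho, sqrt_sq_div hr0 hal, Vale.Agent.S9.g_tv h hr'.le, hq, hp _ hr'.le]
    unfold Vale.Agent.S9.Oct.tv nx
    have := (D.hR.trans hr').ne'
    field_simp
    ring

end

end Vale.Agent.T4
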