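import Vale.Agent.P366.T4.R68

/-! T4: the round background, scalar curvature. -/

open MeasureTheory Metric Filter Topology Set
open scoped ContDiff ENNReal Matrix

noncomputable section
namespace Vale.Agent.T4
open Vale.Agent.P366.Stmt Vale.Agent.P366.T2

variable {n : ℕ}

/-- contraction of the first derivatives, type `∂ₖUᵢⱼ ∂ᵢGⱼₗ` -/
lemma inX {x : E n} (hx0 : x ≠ 0) (u' c a' e : ℝ) (k l : Fin n) :
    ∑ i, ∑ j, (u' * (nx k x * Pj i j x) + c * (Pj i k x * nx j x + nx i x * Pj j k x)) *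
      (a' * (nx i x * Pj j l x) + e * (Pj j i x * nx l x + nx j x * Pj l i x)) =
      u' * e * ((n : ℝ) - 1) * (nx k x * nx l x) + c * (e + a') * Pj k l x := by
  have h1 : ∀ i j, (u' * (nx k x * Pj i j x) + c * (Pj i k x * nx j x + nx i x * Pj j k x)) *
      (a' * (nx i x * Pj j l x) + e * (Pj j i x * nx l x + nx j x * Pj l i x)) =
      u' * a' * nx k x * nx i x * (Pj i j x * Pj j l x) +
      u' * e * nx k x * nx l x * (Pj i j x * Pj j i x) +
      u' * e * nx k x * Pj l i x * (Pj i j x * nx j x) +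
      c * a' * Pj i k x * nx i x * (nx j x * Pj j l x) +
      c * e * Pj i k x * nx l x * (nx j x * Pj j i x) +
      c * e * Pj i k x * Pj l i x * (nx j x * nx j x) +
      c * a' * (nx i x * nx i x) * (Pj k j x * Pj j l x) +
      c * e * nx i x * nx l x * (Pj k j x * Pj j i x) +
      c * e * nx i x * Pj l i x * (Pj k j x * nx j x) := by
    intro i j
    rw [Pj_symm j k]
    ring
  simp only [h1, Finset.sum_add_distrib, ← Finset.mul_sum, Pj_nx hx0, Pj_Pj hx0, sum_nx_mul hx0,
    Pj_tr hx0, nx_Pj hx0, mul_zero, mul_one, add_zero, Finset.sum_const_zero]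
  have h2 : ∑ i, u' * a' * nx k x * nx i x * Pj i l x = 0 := by
    have e1 : ∀ i, u' * a' * nx k x * nx i x * Pj i l x =
        u' * a' * nx k x * (nx i x * Pj i l x) := fun i => by ring
    simp only [e1, ← Finset.mul_sum, nx_Pj hx0, mul_zero]
  have h3 : ∑ i, c * e * Pj i k x * Pj l i x = c * e * Pj k l x := by
    have e1 : ∀ i, c * e * Pj i k x * Pj l i x = c * e * (Pj k i x * Pj i l x) := fun i => by
      rw [Pj_symm i k, Pj_symm l i]; ring
    simp only [e1, ← Finset.mul_sum, Pj_Pj hx0]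
  have h4 : ∑ i, c * a' * (nx i x * nx i x) * Pj k l x = c * a' * Pj k l x := by
    have e1 : ∀ i, c * a' * (nx i x * nx i x) * Pj k l x =
        c * a' * Pj k l x * (nx i x * nx i x) := fun i => by ring
    simp only [e1, ← Finset.mul_sum, sum_nx_mul hx0, mul_one]
  have h5 : ∑ i, c * e * nx i x * nx l x * Pj k i x = 0 := by
    have e1 : ∀ i, c * e * nx i x * nx l x * Pj k i x =
        c * e * nx l x * (nx i x * Pj i k x) := fun i => by
      rw [Pj_symm k i]; ring
    simp only [e1, ← Finset.mul_sum, nx_Pj hx0, mul_zero]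
  rw [h2, h3, h4, h5]
  ring

/-- contraction of the first derivatives, type `∂ₖUᵢⱼ ∂ₗGᵢⱼ` -/
lemma inY {x : E n} (hx0 : x ≠ 0) (u' c a' e : ℝ) (k l : Fin n) :
    ∑ i, ∑ j, (u' * (nx k x * Pj i j x) + c * (Pj i k x * nx j x + nx i x * Pj j k x)) *
      (a' * (nx l x * Pj i j x) + e * (Pj i l x * nx j x + nx i x * Pj j l x)) =
      u' * a' * ((n : ℝ) - 1) * (nx k x * nx l x) + 2 * (c * e) * Pj k l x := by
  have h1 : ∀ i j, (u' * (nx k x * Pj i j x) + c * (Pj i k x * nx j x + nx i x * Pj j k x)) *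
      (a' * (nx l x * Pj i j x) + e * (Pj i l x * nx j x + nx i x * Pj j l x)) =
      u' * a' * nx k x * nx l x * (Pj i j x * Pj j i x) +
      u' * e * nx k x * Pj i l x * (Pj i j x * nx j x) +
      u' * e * nx k x * nx i x * (Pj i j x * Pj j l x) +
      c * a' * Pj i k x * nx l x * (nx j x * Pj j i x) +
      c * e * Pj i k x * Pj i l x * (nx j x * nx j x) +
      c * e * Pj i k x * nx i x * (nx j x * Pj j l x) +
      c * a' * nx i x * nx l x * (Pj k j x * Pj j i x) +
      c * e * nx i x * Pj i l x * (Pj k j x * nx j x) +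
      c * e * (nx i x * nx i x) * (Pj k j x * Pj j l x) := by
    intro i j
    rw [Pj_symm j k, Pj_symm j i]
    ring
  simp only [h1, Finset.sum_add_distrib, ← Finset.mul_sum, Pj_nx hx0, Pj_Pj hx0, sum_nx_mul hx0,
    Pj_tr hx0, nx_Pj hx0, mul_zero, mul_one, add_zero, Finset.sum_const_zero]
  have h2 : ∑ i, u' * e * nx k x * nx i x * Pj i l x = 0 := by
    have e1 : ∀ i, u' * e * nx k x * nx i x * Pj i l x =
        u' * e * nx k x * (nx i x * Pj i l x) := fun i => by ring
    simp only [e1, ← Finset.mul_sum, nx_Pj hx0, mul_zero]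
  have h3 : ∑ i, c * e * Pj i k x * Pj i l x = c * e * Pj k l x := by
    have e1 : ∀ i, c * e * Pj i k x * Pj i l x = c * e * (Pj k i x * Pj i l x) := fun i => by
      rw [Pj_symm i k]; ring
    simp only [e1, ← Finset.mul_sum, Pj_Pj hx0]
  have h4 : ∑ i, c * e * (nx i x * nx i x) * Pj k l x = c * e * Pj k l x := by
    have e1 : ∀ i, c * e * (nx i x * nx i x) * Pj k l x =
        c * e * Pj k l x * (nx i x * nx i x) := fun i => by ring
    simp only [e1, ← Finset.mul_sum, sum_nx_mul hx0, mul_one]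
  have h5 : ∑ i, c * a' * nx i x * nx l x * Pj k i x = 0 := by
    have e1 : ∀ i, c * a' * nx i x * nx l x * Pj k i x =
        c * a' * nx l x * (nx i x * Pj i k x) := fun i => by
      rw [Pj_symm k i]; ring
    simp only [e1, ← Finset.mul_sum, nx_Pj hx0, mul_zero]
  rw [h2, h3, h4, h5]
  ring

/-- the mean curvature of the leaves -/
def rH (n : ℕ) (a : ℝ → ℝ) (r : ℝ) : ℝ := ((n : ℝ) - 1) * (1 / r + deriv a r / (2 * a r))

namespace Round

variable {a : ℝ → ℝ} {R : ℝ} {G : Field n} (h : Round a R G) {x : E n}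
include h

/-- `w` -/
lemma V_eq (hx : R < len x) (k : Fin n) : Vg G k x =
    -(((n : ℝ) - 1) * deriv a (len x) / (2 * a (len x)) +
      ((n : ℝ) - 1) * (1 - 1 / a (len x)) / len x) * nx k x := by
  have hx0 := h.ne0 hx.le
  have hr := (h.lpos hx.le).ne'
  have ha := (h.pos _ hx.le).ne'
  unfold Vg
  have h1 : ∀ j, up G k j x * Lg G j x = ((n : ℝ) - 1) * deriv a (len x) / (2 * a (len x)) *
      (1 / a (len x)) * (Pj k j x * nx j x) +
      ((n : ℝ) - 1) * deriv a (len x) / (2 * a (len x)) * nx k x * (nx j x * nx j x) := by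
    intro j
    rw [h.up_eq hx.le, h.L_eq hx]
    ring
  have h2 : ∀ j, pd j (up G k j) x =
      -(deriv a (len x) / a (len x) ^ 2) * (Pj k j x * nx j x) +
      (1 - 1 / a (len x)) / len x * (Pj k j x * nx j x) +
      (1 - 1 / a (len x)) / len x * nx k x * Pj j j x := by
    intro j
    rw [(h.U_HP hx j k j).pd]
    ring
  simp only [h1, h2, Finset.sum_add_distrib, ← Finset.mul_sum, Pj_nx hx0, sum_nx_mul hx0,
    Pj_tr hx0, mul_zero, mul_one, zero_add]
  ring

omit h in
/-- the radial function of `L` -/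
lemma ell_hd (hsm : ContDiff ℝ ∞ a) {r : ℝ} (ha : a r ≠ 0) :
    HasDerivAt (fun r => ((n : ℝ) - 1) * deriv a r / (2 * a r))
      (((n : ℝ) - 1) * (deriv (deriv a) r / (2 * a r) - deriv a r ^ 2 / (2 * a r ^ 2))) r := by
  have h1 := ((hd2 hsm r).const_mul ((n : ℝ) - 1)).div ((hd1 hsm r).const_mul 2)
    (by simpa using ha)
  refine h1.congr_deriv ?_
  field_simp

omit h in
lemma w_hd (hsm : ContDiff ℝ ∞ a) {r : ℝ} (hr : r ≠ 0) (ha : a r ≠ 0) :
    HasDerivAt (fun r => ((n : ℝ) - 1) * deriv a r / (2 * a r) +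
      ((n : ℝ) - 1) * (1 - 1 / a r) / r)
      (((n : ℝ) - 1) * (deriv (deriv a) r / (2 * a r) - deriv a r ^ 2 / (2 * a r ^ 2)) +
        ((n : ℝ) - 1) * (deriv a r / a r ^ 2 / r - (1 - 1 / a r) / r ^ 2)) r := by
  have hu : HasDerivAt (fun r => 1 / a r) (-(deriv a r / a r ^ 2)) r := by
    have := (hasDerivAt_const r (1 : ℝ)).div (hd1 hsm r) ha
    refine this.congr_deriv ?_
    ring
  have h2 := (((hu.const_sub 1).const_mul ((n : ℝ) - 1)).div (hasDerivAt_id r) hr)
  have h1 := (ell_hd (n := n) hsm ha).add h2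
  refine h1.congr_deriv ?_
  simp only [id]
  field_simp

omit h in
lemma rH_hd (hsm : ContDiff ℝ ∞ a) {r : ℝ} (hr : r ≠ 0) (ha : a r ≠ 0) :
    HasDerivAt (rH n a) (((n : ℝ) - 1) * (-(1 / r ^ 2) + (deriv (deriv a) r / (2 * a r) -
      deriv a r ^ 2 / (2 * a r ^ 2)))) r := by
  have h0 : HasDerivAt (fun r : ℝ => 1 / r) (-(1 / r ^ 2)) r := by
    have := (hasDerivAt_const r (1 : ℝ)).div (hasDerivAt_id r) hr
    refine this.congr_deriv ?_
    simp only [id]
    ring
  have h1 := (hd2 hsm r).div ((hd1 hsm r).const_mul 2) (by simpa using ha)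
  have h2 := (h0.add h1).const_mul ((n : ℝ) - 1)
  refine h2.congr_deriv ?_
  field_simp

/-- **the scalar curvature of the round background** -/
theorem scal_eq (hn : 2 ≤ n) (hx : R < len x) : scal G x =
    ((n : ℝ) - 1) * ((n : ℝ) - 2) / (len x ^ 2 * a (len x)) -
      (rH n a (len x) ^ 2 / ((n : ℝ) - 1)) - rH n a (len x) ^ 2 - 2 * deriv (rH n a) (len x) := by
  have hx0 := h.ne0 hx.le
  have hr := (h.lpos hx.le).ne'
  have ha := (h.pos _ hx.le).ne'
  have hn1 : ((n : ℝ) - 1) ≠ 0 := by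
    have : (2 : ℝ) ≤ n := by exact_mod_cast hn
    linarith
  have hsc := scal_div (isOpen_out R) h.Gs (fun y hy i j => h.symm (le_of_lt hy) i j)
    (fun y hy => h.det_ne (le_of_lt hy)) (x := x) hx
  -- derivative of `V`
  have hT1 : ∑ k, pd k (Vg G k) x =
      -((((n : ℝ) - 1) * (deriv (deriv a) (len x) / (2 * a (len x)) -
        deriv a (len x) ^ 2 / (2 * a (len x) ^ 2)) +
        ((n : ℝ) - 1) * (deriv a (len x) / a (len x) ^ 2 / len x -
          (1 - 1 / a (len x)) / len x ^ 2)) +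
        (((n : ℝ) - 1) * deriv a (len x) / (2 * a (len x)) +
      ((n : ℝ) - 1) * (1 - 1 / a (len x)) / len x) * (((n : ℝ) - 1) / len x)) := by
    have e1 : ∀ k, pd k (Vg G k) x =
        -((((n : ℝ) - 1) * (deriv (deriv a) (len x) / (2 * a (len x)) -
        deriv a (len x) ^ 2 / (2 * a (len x) ^ 2)) +
        ((n : ℝ) - 1) * (deriv a (len x) / a (len x) ^ 2 / len x -
          (1 - 1 / a (len x)) / len x ^ 2)) * (nx k x * nx k x) +
        (((n : ℝ) - 1) * deriv a (len x) / (2 * a (len x)) +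
      ((n : ℝ) - 1) * (1 - 1 / a (len x)) / len x) / len x * Pj k k x) := by
      intro k
      have h2 := ((HP.radial hx0 (w_hd (n := n) h.sm hr ha) k).neg).mul (HP_nx hx0 k k)
      have h3 : (Vg G k) =ᶠ[𝓝 x] fun y => -(((n : ℝ) - 1) * deriv a (len y) / (2 * a (len y)) +
          ((n : ℝ) - 1) * (1 - 1 / a (len y)) / len y) * nx k y := by
        filter_upwards [(isOpen_out R).mem_nhds hx] with y hy
        exact h.V_eq hy k
      rw [(h2.congr h3).pd]
      unfold Pj nx
      field_simp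
      ring
    simp only [e1, Finset.sum_neg_distrib, Finset.sum_add_distrib, ← Finset.mul_sum,
      sum_nx_mul hx0, Pj_tr hx0]
    ring
  have hT2 : ∑ i, ∑ j, up G i j x * pd j (Lg G i) x =
      ((n : ℝ) - 1) * (deriv (deriv a) (len x) / (2 * a (len x)) -
        deriv a (len x) ^ 2 / (2 * a (len x) ^ 2)) +
      ((n : ℝ) - 1) * deriv a (len x) / (2 * a (len x)) / len x *
        (((n : ℝ) - 1) / a (len x)) := by
    rw [← h.U_con hx.le]
    refine Finset.sum_congr rfl fun i _ => Finset.sum_congr rfl fun j _ => ?_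
    congr 1
    have h2 := (HP.radial hx0 (ell_hd (n := n) h.sm ha) j).mul (HP_nx hx0 j i)
    have h3 : (Lg G i) =ᶠ[𝓝 x] fun y => ((n : ℝ) - 1) * deriv a (len y) / (2 * a (len y)) *
        nx i y := by
      filter_upwards [(isOpen_out R).mem_nhds hx] with y hy
      exact h.L_eq hy i
    rw [(h2.congr h3).pd]
    unfold Pj nx
    field_simp
  have hT3 : ∑ l, Lg G l x * Vg G l x =
      -(((n : ℝ) - 1) * deriv a (len x) / (2 * a (len x))) *
        (((n : ℝ) - 1) * deriv a (len x) / (2 * a (len x)) +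
      ((n : ℝ) - 1) * (1 - 1 / a (len x)) / len x) := by
    have e1 : ∀ l, Lg G l x * Vg G l x =
      -(((n : ℝ) - 1) * deriv a (len x) / (2 * a (len x))) *
        (((n : ℝ) - 1) * deriv a (len x) / (2 * a (len x)) +
      ((n : ℝ) - 1) * (1 - 1 / a (len x)) / len x) * (nx l x * nx l x) := by
      intro l
      rw [h.L_eq hx, h.V_eq hx]
      ring
    simp only [e1, ← Finset.mul_sum, sum_nx_mul hx0]
    ring
  have hT4 : ∑ k, ∑ l, up G k l x * ∑ i, ∑ j, pd k (up G i j) x * pd i (fun y => G y j l) x =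
      -(deriv a (len x) / a (len x) ^ 2) * ((1 - a (len x)) / len x) * ((n : ℝ) - 1) +
      (1 - 1 / a (len x)) / len x * ((1 - a (len x)) / len x + deriv a (len x)) *
        (((n : ℝ) - 1) / a (len x)) := by
    rw [← h.U_con hx.le]
    refine Finset.sum_congr rfl fun k _ => Finset.sum_congr rfl fun l _ => ?_
    congr 1
    rw [← inX hx0]
    refine Finset.sum_congr rfl fun i _ => Finset.sum_congr rfl fun j _ => ?_
    rw [(h.U_HP hx k i j).pd, (h.G_HP hx i j l).pd]
  have hT5 : ∑ k, ∑ l, up G k l x * ∑ i, ∑ j, pd k (up G i j) x * pd l (fun y => G y i j) x =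
      -(deriv a (len x) / a (len x) ^ 2) * deriv a (len x) * ((n : ℝ) - 1) +
      2 * ((1 - 1 / a (len x)) / len x * ((1 - a (len x)) / len x)) *
        (((n : ℝ) - 1) / a (len x)) := by
    rw [← h.U_con hx.le]
    refine Finset.sum_congr rfl fun k _ => Finset.sum_congr rfl fun l _ => ?_
    congr 1
    rw [← inY hx0]
    refine Finset.sum_congr rfl fun i _ => Finset.sum_congr rfl fun j _ => ?_
    rw [(h.U_HP hx k i j).pd, (h.G_HP hx l i j).pd]
  rw [hsc, hT1, hT2, hT3, hT4, hT5, (rH_hd (n := n) h.sm hr ha).deriv]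
  unfold rH
  field_simp
  ring

end Round

end Vale.Agent.T4
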