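import Vale.Agent.P366.T4.R68b
import Vale.Agent.P366.T4.BgQ

/-! T4, block [I4-S]: the round background. -/

open MeasureTheory Metric Filter Topology Set Asymptotics
open scoped ContDiff ENNReal Matrix

noncomputable section
namespace Vale.Agent.T4
open Vale.Agent.P366.Stmt Vale.Agent.P366.T2

variable {n : ℕ}

section

variable {a : ℝ → ℝ} {r : ℝ}

/-- the radius of the leaves -/
def rR (a : ℝ → ℝ) (r : ℝ) : ℝ := r * √(a r)

lemma rR_pos (hr : 0 < r) (ha : 0 < a r) : 0 < rR a r := mul_pos hr (Real.sqrt_pos.2 ha)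

lemma rR_sq (ha : 0 < a r) : rR a r ^ 2 = r ^ 2 * a r := by
  unfold rR
  rw [mul_pow, Real.sq_sqrt ha.le]

lemma rR_hd (hsm : ContDiff ℝ ∞ a) (hr : 0 < r) (ha : 0 < a r) :
    HasDerivAt (rR a) (rR a r * (1 / r + deriv a r / (2 * a r))) r := by
  have h1 := (hasDerivAt_id r).mul ((hd1 hsm r).sqrt ha.ne')
  refine h1.congr_deriv ?_
  have hs : √(a r) ≠ 0 := (Real.sqrt_pos.2 ha).ne'
  have h2 : a r = √(a r) ^ 2 := (Real.sq_sqrt ha.le).symm
  unfold rR
  simp only [id]
  have e : deriv a r / (2 * a r) = deriv a r / (2 * √(a r) ^ 2) := by rw [← h2]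
  rw [e]
  field_simp

end

/-- The round background: `G = a(r) (δ - NN) + NN`. -/
def bgR (hn : 2 ≤ n) (a : ℝ → ℝ) (R : ℝ) (hR : 0 < R) (hsm : ContDiff ℝ ∞ a)
    (hpos : ∀ r, R ≤ r → 0 < a r) : Bg n where
  R := R
  H := rH n a
  II2 := fun r => rH n a r ^ 2 / ((n : ℝ) - 1)
  Rh := fun r => ((n : ℝ) - 1) * ((n : ℝ) - 2) / (r ^ 2 * a r)
  ar := fun r => rR a r ^ (n - 1)
  lam := fun r => ((n : ℝ) - 1) / (2 * rR a r)
  L2 := fun r => (((n : ℝ) - 1) / (2 * rR a r)) ^ 2 / ((n : ℝ) - 1)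
  IT := fun r => ((n : ℝ) - 1) / (2 * rR a r) * rH n a r / ((n : ℝ) - 1)
  hR := hR
  ar_pos := fun r hr => pow_pos (rR_pos (hR.trans_le hr) (hpos r hr)) _
  lam_pos := fun r hr => by
    have h1 := rR_pos (hR.trans_le hr) (hpos r hr)
    have h2 : (2 : ℝ) ≤ n := by exact_mod_cast hn
    have h3 : 0 < (n : ℝ) - 1 := by linarith
    positivity
  H_diff := fun r hr => (Round.rH_hd hsm (hR.trans_le hr).ne' (hpos r hr).ne').differentiableAt
  ar_deriv := fun r hr => by
    have h1 := (rR_hd hsm (hR.trans_le hr) (hpos r hr)).pow (n - 1)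
    refine h1.congr_deriv ?_
    have h3 : ((n - 1 : ℕ) : ℝ) = (n : ℝ) - 1 := by
      rw [Nat.cast_sub (by omega)]; push_cast; ring
    have h4 : rR a r ^ (n - 1) = rR a r ^ (n - 1 - 1) * rR a r := by
      rw [← pow_succ]; congr 1; omega
    rw [h3, h4]
    unfold rH
    ring
  lam_deriv := fun r hr => by
    have h0 := (rR_pos (hR.trans_le hr) (hpos r hr)).ne'
    have h2 : (2 : ℝ) ≤ n := by exact_mod_cast hn
    have h3 : (n : ℝ) - 1 ≠ 0 := by linarith
    have h1 := (hasDerivAt_const r ((n : ℝ) - 1)).div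
      ((rR_hd hsm (hR.trans_le hr) (hpos r hr)).const_mul 2) (by simpa using h0)
    refine h1.congr_deriv ?_
    unfold rH
    field_simp
    ring
  hU := fun r _ y => by
    have h2 : (2 : ℝ) ≤ n := by exact_mod_cast hn
    have h3 : 0 < (n : ℝ) - 1 := by linarith
    have e : rH n a r ^ 2 / ((n : ℝ) - 1) -
        2 * y * (((n : ℝ) - 1) / (2 * rR a r) * rH n a r / ((n : ℝ) - 1)) +
        y ^ 2 * ((((n : ℝ) - 1) / (2 * rR a r)) ^ 2 / ((n : ℝ) - 1)) =
        (rH n a r - y * (((n : ℝ) - 1) / (2 * rR a r))) ^ 2 / ((n : ℝ) - 1) := by ring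
    rw [e]
    positivity
  hL := fun r _ => by
    have h2 : (2 : ℝ) ≤ n := by exact_mod_cast hn
    have h3 : (n : ℝ) - 1 ≠ 0 := by linarith
    rw [mul_div_cancel₀ _ h3]
  hJ := fun r hr => by
    have h0 := (rR_pos (hR.trans_le hr) (hpos r hr)).ne'
    have h2 : (2 : ℝ) ≤ n := by exact_mod_cast hn
    have h3 : (n : ℝ) - 1 ≠ 0 := by linarith
    rw [← rR_sq (hpos r hr)]
    refine le_of_eq ?_
    field_simp
    ring

namespace Round

variable {a : ℝ → ℝ} {R : ℝ} {G : Field n} (h : Round a R G) {x : E n}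
include h

lemma det_eq (hn : 1 ≤ n) (hx : R ≤ len x) : (mat G x).det = a (len x) ^ (n - 1) := by
  have hx0 := h.ne0 hx
  have ha := (h.pos _ hx).ne'
  have e : mat G x = a (len x) • (1 + Matrix.replicateCol Unit
      (fun i => (1 - a (len x)) / a (len x) * nx i x) *
      Matrix.replicateRow Unit (fun j => nx j x)) := by
    ext i j
    show G x i j = _
    rw [h.eq x hx]
    simp only [Matrix.smul_apply, Matrix.add_apply, Matrix.mul_apply, Matrix.one_apply,
      Matrix.replicateCol_apply, Matrix.replicateRow_apply, Finset.univ_unique,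
      Finset.sum_singleton, smul_eq_mul, Pj]
    field_simp
    ring
  rw [e, Matrix.det_smul, Matrix.det_one_add_replicateCol_mul_replicateRow, Fintype.card_fin]
  have e1 : (fun j => nx j x) ⬝ᵥ (fun i => (1 - a (len x)) / a (len x) * nx i x) =
      (1 - a (len x)) / a (len x) := by
    unfold dotProduct
    have e2 : ∀ i, nx i x * ((1 - a (len x)) / a (len x) * nx i x) =
        (1 - a (len x)) / a (len x) * (nx i x * nx i x) := fun i => by ring
    simp only [e2, ← Finset.mul_sum, sum_nx_mul hx0, mul_one]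
  have e3 : a (len x) ^ n = a (len x) ^ (n - 1) * a (len x) := by
    rw [← pow_succ]; congr 1; omega
  rw [e1, e3]
  field_simp
  ring

lemma Sm_eq (hx : R ≤ len x) (i j : Fin n) : Sm G i j x = 1 / a (len x) * Pj i j x := by
  unfold Sm
  rw [h.up_eq hx]
  ring

lemma dN_G (hx : R < len x) (i j : Fin n) :
    dN (fun y => G y i j) x = deriv a (len x) * Pj i j x := by
  have hx0 := h.ne0 hx.le
  unfold dN
  have e : ∀ m, nx m x * pd m (fun y => G y i j) x =
      deriv a (len x) * Pj i j x * (nx m x * nx m x) + (1 - a (len x)) / len x * nx j x *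
        (Pj i m x * nx m x) + (1 - a (len x)) / len x * nx i x * (Pj j m x * nx m x) := by
    intro m
    rw [(h.G_HP hx m i j).pd]
    ring
  simp only [e, Finset.sum_add_distrib, ← Finset.mul_sum, sum_nx_mul hx0, Pj_nx hx0, mul_zero,
    mul_one, add_zero]

lemma II_eq (hx : R < len x) (i j : Fin n) :
    IIf G x i j = (deriv a (len x) / 2 + a (len x) / len x) * Pj i j x := by
  unfold IIf
  rw [h.dN_G hx, h.eq x hx.le]
  ring

lemma ctr_II (hx : R < len x) : ctr G (IIf G) (IIf G) x =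
    ((n : ℝ) - 1) * (1 / len x + deriv a (len x) / (2 * a (len x))) ^ 2 := by
  have hx0 := h.ne0 hx.le
  have hr := (h.lpos hx.le).ne'
  have ha := (h.pos _ hx.le).ne'
  have hS : ∀ i j, Sm G i j x = Sm G j i x := fun i j => by
    rw [h.Sm_eq hx.le, h.Sm_eq hx.le, Pj_symm]
  have hI : ∀ i j, IIf G x i j = IIf G x j i := fun i j => by
    rw [h.II_eq hx, h.II_eq hx, Pj_symm]
  rw [ctr_eq hS hI]
  have h1 : ∀ k j, ∑ i, Sm G k i x * IIf G x i j =
      (deriv a (len x) / 2 + a (len x) / len x) / a (len x) * Pj k j x := by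
    intro k j
    have e : ∀ i, Sm G k i x * IIf G x i j =
        (deriv a (len x) / 2 + a (len x) / len x) / a (len x) * (Pj k i x * Pj i j x) := by
      intro i
      rw [h.Sm_eq hx.le, h.II_eq hx]
      ring
    simp only [e, ← Finset.mul_sum, Pj_Pj hx0]
  simp only [h1]
  have e : ∀ k j, (deriv a (len x) / 2 + a (len x) / len x) / a (len x) * Pj k j x *
      ((deriv a (len x) / 2 + a (len x) / len x) / a (len x) * Pj j k x) =
      ((deriv a (len x) / 2 + a (len x) / len x) / a (len x)) ^ 2 * (Pj k j x * Pj j k x) := by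
    intro k j
    ring
  simp only [e, ← Finset.mul_sum, Pj_Pj hx0, Pj_tr hx0]
  field_simp
  ring

/-- the round background is realized -/
theorem fits (hn : 2 ≤ n) : (bgR hn a R h.hR h.sm h.pos).Fits G where
  hdet := by
    intro x hx
    have hx' : R ≤ len x := hx
    have hr := h.lpos hx'
    have ha := h.pos _ hx'
    show len x ^ (n - 1) * √(mat G x).det = rR a (len x) ^ (n - 1)
    rw [h.det_eq (by omega) hx', rR, mul_pow]
    congr 1
    rw [Real.sqrt_eq_iff_mul_self_eq (by positivity) (by positivity), ← mul_pow,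
      Real.mul_self_sqrt ha.le]
  hL := by
    intro x hx i
    have hx' : R < len x := hx
    have hr := (h.lpos hx'.le).ne'
    have ha := (h.pos _ hx'.le).ne'
    show Lg G i x = (rH n a (len x) - ((n : ℝ) - 1) / len x) * nx i x
    rw [h.L_eq hx']
    unfold rH
    field_simp
    ring
  hII := by
    intro x hx
    have hx' : R < len x := hx
    show ctr G (IIf G) (IIf G) x = rH n a (len x) ^ 2 / ((n : ℝ) - 1)
    have h2 : (2 : ℝ) ≤ n := by exact_mod_cast hn
    have h3 : (n : ℝ) - 1 ≠ 0 := by linarith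
    rw [h.ctr_II hx', rH]
    field_simp
  hRh := by
    intro x hx
    have hx' : R < len x := hx
    show scal G x + rH n a (len x) ^ 2 / ((n : ℝ) - 1) + rH n a (len x) ^ 2 +
      2 * deriv (rH n a) (len x) = ((n : ℝ) - 1) * ((n : ℝ) - 2) / (len x ^ 2 * a (len x))
    rw [h.scal_eq hn hx']
    ring

omit h in
lemma rho_eq (hn : 2 ≤ n) (hR : 0 < R) (hsm : ContDiff ℝ ∞ a) (hpos : ∀ r, R ≤ r → 0 < a r)
    {r : ℝ} (hr : R ≤ r) : (bgR hn a R hR hsm hpos).rho r = rR a r := by
  show (rR a r ^ (n - 1)) ^ (1 / ((n : ℝ) - 1)) = rR a r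
  have h3 : ((n - 1 : ℕ) : ℝ) = (n : ℝ) - 1 := by
    rw [Nat.cast_sub (by omega)]; push_cast; ring
  rw [← h3, one_div]
  exact Real.pow_rpow_inv_natCast (rR_pos (hR.trans_le hr) (hpos r hr)).le (by omega)

/-- the weight of the round background is exact -/
theorem lamOK (hn : 2 ≤ n) : (bgR hn a R h.hR h.sm h.pos).LamOK G := by
  intro q _ _
  refine IsBigO.congr' (isBigO_zero _ _) ?_ EventuallyEq.rfl
  filter_upwards [eventually_ge_atTop R] with r hr
  have h0 := (rR_pos (h.hR.trans_le hr) (h.pos r hr)).ne'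
  have h2 : (2 : ℝ) ≤ n := by exact_mod_cast hn
  have h3 : (n : ℝ) - 1 ≠ 0 := by linarith
  rw [rho_eq hn h.hR h.sm h.pos hr]
  show (0 : ℝ) = 2 * (((n : ℝ) - 1) / (2 * rR a r)) * rR a r / ((n : ℝ) - 1) - 1
  field_simp
  ring

end Round

end Vale.Agent.T4
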