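import Vale.Agent.P366.T4.Touch92

/-! T4: functions whose gradient is radial are constant on the centred spheres. -/

open MeasureTheory Metric Filter Topology Set
open scoped ContDiff

noncomputable section
namespace Vale.Agent.T4
open Vale.Agent.P366.Stmt Vale.Agent.P366.T2

variable {n : ℕ}

lemma fderiv_eq_sum_pd {f : E n → ℝ} {z : E n} (hf : DifferentiableAt ℝ f z) (w : E n) :
    fderiv ℝ f z w = ∑ i, w i * pd i f z := by
  have hw : w = ∑ i, w i • EuclideanSpace.single i (1 : ℝ) := by
    ext j
    simp [Pi.single_apply]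
  conv_lhs => rw [hw]
  rw [map_sum]
  refine Finset.sum_congr rfl fun i _ => ?_
  rw [map_smul, smul_eq_mul]
  congr 1
  exact (hf.hasFDerivAt.hasLineDerivAt (EuclideanSpace.single i (1 : ℝ))).lineDeriv.symm

/-- **Functions with radial gradient are constant on spheres.** -/
theorem const_on_sphere (hn : 2 ≤ n) {f : E n → ℝ} {c : E n → ℝ} {r : ℝ} (hr : 0 < r)
    (hf : ∀ x, len x = r → DifferentiableAt ℝ f x)
    (hpd : ∀ x, len x = r → ∀ i, pd i f x = c x * nx i x) {x y : E n} (hx : len x = r)
    (hy : len y = r) : f x = f y := by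
  set φ : E n → E n := fun z => (r / ‖z‖) • z with hφ
  have hφn : ∀ z : E n, z ≠ 0 → ‖φ z‖ = r := by
    intro z hz
    have hz' : 0 < ‖z‖ := norm_pos_iff.2 hz
    simp only [hφ, norm_smul, Real.norm_eq_abs, abs_of_pos (div_pos hr hz')]
    field_simp
  have hφd : ∀ z : E n, z ≠ 0 → DifferentiableAt ℝ φ z := by
    intro z hz
    have h1 : DifferentiableAt ℝ (fun z : E n => ‖z‖) z :=
      (contDiffAt_norm ℝ hz (n := 1)).differentiableAt (by norm_num)
    have h2 : DifferentiableAt ℝ (fun z : E n => r / ‖z‖) z := by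
      simp only [div_eq_mul_inv]
      exact (h1.inv (norm_ne_zero_iff.2 hz)).const_mul r
    exact h2.smul differentiableAt_id
  have hfix : ∀ z : E n, len z = r → φ z = z := by
    intro z hz
    have : ‖z‖ = r := hz
    simp only [hφ, this, div_self hr.ne', one_smul]
  have hrank : 1 < Module.rank ℝ (E n) := by
    rw [← Module.finrank_eq_rank, finrank_euclideanSpace, Fintype.card_fin]
    exact_mod_cast hn
  have hconn : IsPreconnected ({(0 : E n)}ᶜ : Set (E n)) :=
    (isConnected_compl_singleton_of_one_lt_rank hrank 0).isPreconnected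
  have hzero : ∀ z : E n, z ≠ 0 → HasFDerivAt (fun z => f (φ z)) (0 : E n →L[ℝ] ℝ) z := by
    intro z hz
    have hl : len (φ z) = r := hφn z hz
    have h1 := (hf (φ z) hl).hasFDerivAt.comp z (hφd z hz).hasFDerivAt
    refine h1.congr_fderiv ?_
    ext v
    rw [ContinuousLinearMap.comp_apply, fderiv_eq_sum_pd (hf (φ z) hl)]
    simp only [hpd (φ z) hl]
    -- tangential derivative
    have h2 : HasFDerivAt (fun z => ‖φ z‖ ^ 2)
        (2 • (innerSL ℝ (φ z)).comp (fderiv ℝ φ z)) z := (hφd z hz).hasFDerivAt.norm_sq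
    have h3 : HasFDerivAt (fun z => ‖φ z‖ ^ 2) (0 : E n →L[ℝ] ℝ) z := by
      refine (hasFDerivAt_const (r ^ 2) z).congr_of_eventuallyEq ?_
      filter_upwards [isOpen_ne.mem_nhds hz] with w hw
      rw [hφn w hw]
    have h4 := congrArg (fun L => L v) (h2.unique h3)
    simp only [smul_apply, ContinuousLinearMap.comp_apply, innerSL_apply_apply,
      zero_apply, nsmul_eq_mul, Nat.cast_ofNat, mul_eq_zero, OfNat.ofNat_ne_zero,
      false_or] at h4
    rw [PiLp.inner_apply] at h4
    have h5 : ∑ i, (fderiv ℝ φ z v) i * (c (φ z) * nx i (φ z)) =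
        c (φ z) / len (φ z) * ∑ i, inner ℝ ((φ z) i) ((fderiv ℝ φ z v) i) := by
      rw [Finset.mul_sum]
      refine Finset.sum_congr rfl fun i _ => ?_
      unfold nx
      simp only [RCLike.inner_apply, conj_trivial]
      ring
    rw [h5, h4, mul_zero]
    rfl
  have hopen : IsOpen ({(0 : E n)}ᶜ : Set (E n)) := isOpen_compl_singleton
  have hx0 : x ≠ 0 := by
    intro h0
    rw [h0] at hx
    simp only [len, norm_zero] at hx
    exact hr.ne hx
  have hy0 : y ≠ 0 := by
    intro h0
    rw [h0] at hy
    simp only [len, norm_zero] at hy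
    exact hr.ne hy
  have h6 := hopen.is_const_of_fderiv_eq_zero (f := fun z => f (φ z)) (𝕜 := ℝ) hconn
    (fun z hz => (hzero z hz).differentiableAt.differentiableWithinAt)
    (fun z hz => (hzero z hz).fderiv) (x := x) (y := y) hx0 hy0
  simp only [hfix x hx, hfix y hy] at h6
  exact h6

/-- **The lapse is radial if its gradient is.** -/
theorem rad_const (hn : 2 ≤ n) {G g : Field n} {R : ℝ} (h : Lapse G g R)
    (hg : ∀ x, R < len x → ∀ i, glf g i x = dN (lf g) x * nx i x) (x y : E n)
    (hx : R < len x) (hxy : len x = len y) : rad g x = rad g y := by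
  have hr : 0 < len x := h.hR.trans hx
  have h1 : lf g x = lf g y := by
    refine const_on_sphere hn (f := lf g) (c := dN (lf g)) hr (fun z hz => ?_) (fun z hz i => ?_)
      rfl hxy.symm
    · have hz' : R ≤ len z := by rw [hz]; exact hx.le
      exact (contDiffAt_lf h.gs (h.ne_zero hz') (h.ppos z hz')).differentiableAt (by simp)
    · have hz' : R < len z := by rw [hz]; exact hx
      exact hg z hz' i
  have e : ∀ z, R ≤ len z → rad g z = Real.exp (2 * lf g z) := by
    intro z hz
    unfold lf
    rw [mul_div_cancel₀ _ two_ne_zero, Real.exp_log (h.ppos z hz)]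
  rw [e x hx.le, e y (by rw [← hxy]; exact hx.le), h1]

end Vale.Agent.T4
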