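import Vale.Agent.P366.T4.Slice
import Vale.Agent.P366.T4.Point
import Vale.Agent.P366.T4.Key
import Vale.Agent.P366.T4.StB68
import Vale.Agent.P366.T5.TA92
import Vale.Agent.P366.T5.W3

/-! T4/T5: the equality case, last step: the data are a slice. -/

open MeasureTheory Metric Filter Topology Set
open scoped ContDiff ENNReal Matrix

noncomputable section
namespace Vale.Agent.T4
open Vale.Agent.P366.Stmt Vale.Agent.P366.T2

variable {n : ℕ}

/-- statement of the embedding theorem -/
def StEmb (n : ℕ) : Prop := ∀ {R M : ℝ}, 0 < R → ∀ {rho q k kN : ℝ → ℝ},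
  ContDiffOn ℝ ∞ rho (Ioi R) → ContDiffOn ℝ ∞ q (Ioi R) → ContDiffOn ℝ ∞ k (Ioi R) →
  (∀ r, R < r → 0 < rho r) → (∀ r, R < r → 0 < deriv rho r) → (∀ r, R < r → 0 < q r) →
  (∀ r, R < r → 0 < 1 - 2 * M / rho r ^ (n - 2)) →
  (∀ r, R < r → (deriv rho r / q r) ^ 2 - (rho r * k r) ^ 2 = 1 - 2 * M / rho r ^ (n - 2)) →
  (∀ r, R < r → kN r * deriv rho r = deriv (fun s => rho s * k s) r) →
  ∀ {g K : Field n},
  (∀ x, R < len x → ∀ i j, g x i j = (rho (len x) / len x) ^ 2 *
    ((if i = j then 1 else 0) - nx i x * nx j x) + q (len x) ^ 2 * (nx i x * nx j x)) →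
  (∀ x, R < len x → ∀ i j, K x i j = k (len x) * (rho (len x) / len x) ^ 2 *
    ((if i = j then 1 else 0) - nx i x * nx j x) + kN (len x) * q (len x) ^ 2 *
      (nx i x * nx j x)) → IsSlice M g K {x | R < len x}

/-- the metric of round spheres of radius `B.rho` -/
def Bg.RoundAt (B : Bg n) (G : Field n) : Prop := ∀ x, B.R < len x → ∀ i j,
  G x i j = (B.rho (len x) / len x) ^ 2 * ((if i = j then 1 else 0) - nx i x * nx j x) +
    nx i x * nx j x

section

variable {G g K : Field n} {B : Bg n} {kap : ℝ → ℝ}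

/-- contraction of a radial tensor vanishes -/
lemma Lapse.ctr_nn {R : ℝ} (h : Lapse G g R) {x : E n} (hx : R ≤ len x) (c : ℝ)
    (A C : Field n) (hA : ∀ i j, A x i j = c * (nx i x * nx j x)) : ctr G A C x = 0 := by
  unfold ctr
  have e : ∀ i j k l, Sm G i k x * Sm G j l x * A x i j * C x k l =
      c * Sm G j l x * nx j x * C x k l * (nx i x * Sm G i k x) := by
    intro i j k l; rw [hA i j]; ring
  simp only [e]
  have e2 : ∑ i, ∑ j, ∑ k, ∑ l, c * Sm G j l x * nx j x * C x k l * (nx i x * Sm G i k x) =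
      ∑ j, ∑ k, ∑ l, c * Sm G j l x * nx j x * C x k l * ∑ i, nx i x * Sm G i k x := by
    rw [Finset.sum_comm]
    refine Finset.sum_congr rfl fun j _ => ?_
    rw [Finset.sum_comm]
    refine Finset.sum_congr rfl fun k _ => ?_
    rw [Finset.sum_comm]
    refine Finset.sum_congr rfl fun l _ => ?_
    rw [← Finset.mul_sum]
  rw [e2]
  simp only [h.nx_Sm hx, mul_zero, Finset.sum_const_zero]

/-- **the radial component of `K` from the momentum constraint** -/
theorem radK_eq (hB4 : StB n) (h : Lapse G g B.R) (hF : B.Fits0 G)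
    (hK : ∀ i j, Smooth (fun x => K x i j))
    (hKs : ∀ x, B.R ≤ len x → ∀ i j, K x i j = K x j i)
    (hk : ∀ x, B.R ≤ len x → √(rad g x) * trT G K x = kap (len x)) {x : E n}
    (hx : B.R < len x) (hkd : DifferentiableAt ℝ kap (len x))
    (hmom : ∀ j, mom g K j x = 0) (hrow : ∀ y, B.R < len y → ∀ i, row K i y = rad K y * nx i y)
    {t : ℝ} (hKx : ∀ i j, K x i j = rad K x * nx i x * nx j x + t * IIf G x i j) :
    rad K x / rad g x * B.H (len x) = √(1 / rad g x) * deriv kap (len x) -
      √(1 / rad g x) * kap (len x) * dN (lf g) x + t * ctr G (IIf G) (IIf G) x := by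
  obtain ⟨b1, b2, b3, b4⟩ := hB4 G g K B.R h hK hKs x hx
  have hS2 : ∀ w : Fin n → E n → ℝ, S2 G w (row K) x = 0 := by
    intro w
    unfold S2
    have e : ∀ k l, Sm G k l x * w k x * row K l x =
        rad K x * w k x * (Sm G k l x * nx l x) := by
      intro k l; rw [hrow x hx l]; ring
    simp only [e, ← Finset.mul_sum, h.Sm_nx hx.le, mul_zero, Finset.sum_const_zero]
  have hDS : DS G (row K) x = 0 := by
    unfold DS
    have e : ∀ k, pd k (fun y => ∑ l, Sm G k l y * row K l y) x = 0 := by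
      intro k
      have hev : (fun y => ∑ l, Sm G k l y * row K l y) =ᶠ[𝓝 x] fun _ => (0 : ℝ) := by
        filter_upwards [(isOpen_out B.R).mem_nhds hx] with y hy
        have hy' : B.R < len y := hy
        have e : ∀ l, Sm G k l y * row K l y = rad K y * (Sm G k l y * nx l y) := by
          intro l; rw [hrow y hy' l]; ring
        simp only [e, ← Finset.mul_sum, h.Sm_nx hy'.le, mul_zero]
      exact (HP.congr (HP.const k (0 : ℝ) x) hev).pd
    simp only [e, Finset.sum_const_zero]
  rw [hS2, hS2, hDS, H1_eq0 hF hx, dN_trT h hk hx hkd] at b3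
  have hctr : ctr G K (IIf G) x = t * ctr G (IIf G) (IIf G) x := by
    have e1 : ctr G K (IIf G) x =
        ctr G (fun y i j => rad K x * (nx i x * nx j x)) (IIf G) x +
          t * ctr G (IIf G) (IIf G) x := by
      unfold ctr
      simp only [Finset.mul_sum, ← Finset.sum_add_distrib]
      refine Finset.sum_congr rfl fun i _ => Finset.sum_congr rfl fun j _ =>
        Finset.sum_congr rfl fun k _ => Finset.sum_congr rfl fun l _ => ?_
      rw [hKx i j]; ring
    rw [e1, h.ctr_nn hx.le (rad K x) _ _ (fun i j => rfl), zero_add]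
  rw [hctr] at b3
  simp only [hmom, mul_zero, Finset.sum_const_zero] at b3
  linarith

/-- the second fundamental form of round spheres -/
theorem IIf_round (hr : B.RoundAt G) {x : E n} (hx : B.R < len x) (i j : Fin n) :
    IIf G x i j = B.H (len x) / ((n : ℝ) - 1) * ((B.rho (len x) / len x) ^ 2 *
      ((if i = j then 1 else 0) - nx i x * nx j x)) := by
  have hx0 := ne_zero_of_len B.hR hx.le
  have hl := len_ne hx0
  have hev : (fun y => G y i j) =ᶠ[𝓝 x] fun y => (B.rho (len y) / len y) ^ 2 *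
      ((if i = j then 1 else 0) - nx i y * nx j y) + nx i y * nx j y := by
    filter_upwards [(isOpen_out B.R).mem_nhds hx] with y hy
    exact hr y hy i j
  have hρ := B.rho_hasDerivAt hx.le
  have ha : HasDerivAt (fun r => (B.rho r / r) ^ 2)
      (2 * (B.rho (len x) / len x) ^ 1 * ((B.rho (len x) * (1 * B.H (len x) / ((n : ℝ) - 1)) *
        len x - B.rho (len x) * 1) / len x ^ 2)) (len x) := by
    refine ((hρ.fun_div (hasDerivAt_id' _) hl).fun_pow 2).congr_deriv ?_
    simp
  have h1 : ∀ k, pd k (fun y => G y i j) x = _ := fun k =>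
    ((((HP.radial hx0 ha k).mul ((HP.const k (if i = j then (1 : ℝ) else 0) x).sub
      ((HP_nx hx0 k i).mul (HP_nx hx0 k j)))).add
      ((HP_nx hx0 k i).mul (HP_nx hx0 k j))).congr hev).pd
  have hp : ∀ i : Fin n, ∑ k, nx k x * (((if i = k then 1 else 0) - nx i x * nx k x) / len x) =
      0 := by
    intro i
    have e : ∀ k, nx k x * (((if i = k then 1 else 0) - nx i x * nx k x) / len x) =
        (1 / len x) * ((if i = k then nx k x else 0) - nx i x * (nx k x * nx k x)) := by
      intro k; split_ifs <;> ring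
    simp only [e, ← Finset.mul_sum, Finset.sum_sub_distrib, sum_nx_mul hx0]
    simp
  have h2 : dN (fun y => G y i j) x = (2 * (B.rho (len x) / len x) ^ 1 *
      ((B.rho (len x) * (1 * B.H (len x) / ((n : ℝ) - 1)) * len x - B.rho (len x) * 1) /
        len x ^ 2)) * ((if i = j then 1 else 0) - nx i x * nx j x) := by
    unfold dN
    simp only [h1]
    set a' := 2 * (B.rho (len x) / len x) ^ 1 *
      ((B.rho (len x) * (1 * B.H (len x) / ((n : ℝ) - 1)) * len x - B.rho (len x) * 1) /
        len x ^ 2) with ha'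
    set a := (B.rho (len x) / len x) ^ 2 with haa
    have e : ∀ k, nx k x * (a' / len x * x k * ((if i = j then 1 else 0) - nx i x * nx j x) +
        a * (0 - (((if i = k then 1 else 0) - nx i x * nx k x) / len x * nx j x +
          nx i x * (((if j = k then 1 else 0) - nx j x * nx k x) / len x))) +
        (((if i = k then 1 else 0) - nx i x * nx k x) / len x * nx j x +
          nx i x * (((if j = k then 1 else 0) - nx j x * nx k x) / len x))) =
        a' * ((if i = j then 1 else 0) - nx i x * nx j x) * (nx k x * nx k x) +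
        (1 - a) * nx j x * (nx k x * (((if i = k then 1 else 0) - nx i x * nx k x) / len x)) +
        (1 - a) * nx i x * (nx k x * (((if j = k then 1 else 0) - nx j x * nx k x) / len x)) := by
      intro k
      have : a' / len x * x k = a' * nx k x := by unfold nx; ring
      rw [this]; ring
    simp only [e, Finset.sum_add_distrib, ← Finset.mul_sum, hp, sum_nx_mul hx0]
    ring
  unfold IIf
  rw [h2, hr x hx i j]
  field_simp
  ring

/-- `|II|²` of round spheres -/
theorem ctr_II_round (h : Lapse G g B.R) (hF : B.Fits0 G) (hr : B.RoundAt G) {x : E n}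
    (hx : B.R < len x) : ctr G (IIf G) (IIf G) x = B.H (len x) ^ 2 / ((n : ℝ) - 1) := by
  have h1 := h.ctr_II_G hx
  rw [H1_eq0 hF hx] at h1
  have e : ∀ i j, IIf G x i j = B.H (len x) / ((n : ℝ) - 1) * (G x i j - nx i x * nx j x) := by
    intro i j
    rw [IIf_round hr hx, hr x hx i j]; ring
  have h2 : ctr G (IIf G) (IIf G) x = B.H (len x) / ((n : ℝ) - 1) * ctr G (IIf G) G x := by
    unfold ctr
    have e1 : ∀ i j k l, Sm G i k x * Sm G j l x * IIf G x i j * IIf G x k l =
        B.H (len x) / ((n : ℝ) - 1) * (Sm G i k x * Sm G j l x * IIf G x i j * G x k l) -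
        B.H (len x) / ((n : ℝ) - 1) * Sm G i k x * IIf G x i j * nx k x *
          (Sm G j l x * nx l x) := by
      intro i j k l; rw [e k l]; ring
    simp only [e1, Finset.sum_sub_distrib, ← Finset.mul_sum, h.Sm_nx hx.le, mul_zero,
      sub_zero]
  rw [h2, h1]
  ring

/-- the average of a function that is constant on a sphere -/
lemma av_eq (hn : 1 ≤ n) {f : E n → ℝ} {r c : ℝ} (hr : 0 ≤ r) (hf : ∀ x, len x = r → f x = c) :
    Vale.Agent.P366.av f r = c := by
  have hω : Vale.Agent.P366.omega n ≠ 0 := by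
    have : Nonempty (Fin n) := ⟨⟨0, by omega⟩⟩
    have : Nontrivial (E n) := inferInstance
    exact Vale.Agent.P366.omega_pos'.ne'
  unfold Vale.Agent.P366.av
  rw [Vale.Agent.P366.sphI_congr hr (v := fun _ => c) (fun x hx => hf x hx),
    Vale.Agent.P366.sphI_const, mul_div_assoc, div_self hω, mul_one]

end

/-- the point at distance `r` on the first axis -/
def ry (i0 : Fin n) (r : ℝ) : E n := EuclideanSpace.single i0 r

lemma len_ry (i0 : Fin n) {r : ℝ} (hr : 0 < r) : len (ry i0 r) = r := by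
  unfold len ry
  rw [PiLp.norm_single, Real.norm_eq_abs, abs_of_pos hr]

lemma nx_ry (i0 i : Fin n) {r : ℝ} (hr : 0 < r) : nx i (ry i0 r) = if i = i0 then 1 else 0 := by
  unfold nx
  rw [len_ry i0 hr]
  unfold ry
  rw [PiLp.single_apply]
  split_ifs with h1
  · field_simp
  · simp

lemma contDiff_ry (i0 : Fin n) : ContDiff ℝ ∞ (ry i0) := by
  rw [contDiff_piLp]
  intro i
  unfold ry
  by_cases h : i = i0
  · subst h
    have : (fun r : ℝ => (EuclideanSpace.single i r : E n) i) = fun r => r := by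
      funext r
      simp
    rw [this]
    exact contDiff_id
  · have : (fun r : ℝ => (EuclideanSpace.single i0 r : E n) i) = fun _ => 0 := by
      funext r
      simp [h]
    rw [this]
    exact contDiff_const

lemma smooth_ry (i0 : Fin n) {f : E n → ℝ} (hf : Smooth f) :
    ContDiff ℝ ∞ (fun r => f (ry i0 r)) := ContDiff.comp hf (contDiff_ry i0)

lemma rad_ry (T : Field n) (i0 : Fin n) {r : ℝ} (hr : 0 < r) :
    rad T (ry i0 r) = T (ry i0 r) i0 i0 := by
  unfold rad
  simp [nx_ry i0 _ hr]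

/-- **The data are a slice of Schwarzschild–Tangherlini.** -/
theorem isSlice_of_eq (hn : 3 ≤ n) (hE : StEmb n) (hB4 : StB n) {m : ℝ} {G g K : Field n}
    {B : Bg n} {kap : ℝ → ℝ} (h : Lapse G g B.R)
    (hF : B.Fits0 G) (hK : ∀ i j, Smooth (fun x => K x i j))
    (hKs : ∀ x, B.R ≤ len x → ∀ i j, K x i j = K x j i)
    (hk : ∀ x, B.R ≤ len x → √(rad g x) * trT G K x = kap (len x))
    (hkd : ∀ r, B.R < r → DifferentiableAt ℝ kap r)
    (hr : B.RoundAt G) (hlam : ∀ r, B.R < r → B.lam r = ((n : ℝ) - 1) / (2 * B.rho r))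
    (hP : ∀ x y, B.R < len x → len x = len y → rad g x = rad g y)
    (hmom : ∀ x, B.R < len x → ∀ j, mom g K j x = 0)
    (hrow : ∀ x, B.R < len x → ∀ i, row K i x = rad K x * nx i x)
    (hKx : ∀ x, B.R < len x → ∀ i j, K x i j = rad K x * nx i x * nx j x +
      kap (len x) * √(1 / rad g x) / B.H (len x) * IIf G x i j)
    (hlt : ∀ r, B.R < r → |kap r| < B.H r)
    (hm : ∀ r, B.R < r → B.rho r ^ ((n : ℝ) - 2) *
      (1 - Vav g r * (B.H r ^ 2 - kap r ^ 2) / (4 * B.lam r ^ 2)) = 2 * m) :
    IsSlice m g K {x | B.R < len x} := by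
  have hn3 : (3 : ℝ) ≤ n := by exact_mod_cast hn
  have hN : 0 < (n : ℝ) - 1 := by linarith
  set i0 : Fin n := ⟨0, by omega⟩ with hi0
  set i1 : Fin n := ⟨1, by omega⟩ with hi1
  have h10 : i1 ≠ i0 := by
    intro hh
    have := congrArg Fin.val hh
    simp [hi0, hi1] at this
  have hR := B.hR
  set P : ℝ → ℝ := fun r => g (ry i0 r) i0 i0 with hPdef
  have hPs : ContDiff ℝ ∞ P := smooth_ry i0 (h.gs i0 i0)
  have hPr : ∀ x, B.R < len x → rad g x = P (len x) := by
    intro x hx
    have h0 : 0 < len x := hR.trans hx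
    rw [hP x (ry i0 (len x)) hx (len_ry i0 h0).symm, rad_ry g i0 h0]
  have hPp : ∀ r, B.R < r → 0 < P r := by
    intro r hr
    have h0 : 0 < r := hR.trans hr
    have h1 : B.R < len (ry i0 r) := by rw [len_ry i0 h0]; exact hr
    have := h.ppos (ry i0 r) h1.le
    rwa [hPr _ h1, len_ry i0 h0] at this
  set A : ℝ → ℝ := fun r => G (ry i0 r) i1 i1 with hAdef
  have hAs : ContDiff ℝ ∞ A := smooth_ry i0 (h.Gs i1 i1)
  have hAr : ∀ r, B.R < r → A r = (B.rho r / r) ^ 2 := by
    intro r hr'
    have h0 : 0 < r := hR.trans hr'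
    have h1 : B.R < len (ry i0 r) := by rw [len_ry i0 h0]; exact hr'
    have := hr (ry i0 r) h1 i1 i1
    rw [nx_ry i0 _ h0, len_ry i0 h0, if_neg h10, if_pos rfl] at this
    rw [hAdef]
    simp only [this]; ring
  have hρ : ∀ r, B.R < r → 0 < B.rho r := fun r hr => B.rho_pos hr.le
  have hAp : ∀ r, B.R < r → 0 < A r := by
    intro r hr'
    rw [hAr r hr']
    have := hρ r hr'
    have h0 : 0 < r := hR.trans hr'
    positivity
  have hρs : ContDiffOn ℝ ∞ B.rho (Ioi B.R) := by
    have h1 : ContDiffOn ℝ ∞ (fun r => r * √(A r)) (Ioi B.R) :=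
      contDiffOn_id.mul (hAs.contDiffOn.sqrt fun r hr' => (hAp r hr').ne')
    refine h1.congr fun r hr' => ?_
    have h0 : 0 < r := hR.trans hr'
    have := hρ r hr'
    rw [hAr r hr', Real.sqrt_sq (by positivity)]
    field_simp
  set q : ℝ → ℝ := fun r => √(P r) with hq
  have hqs : ContDiffOn ℝ ∞ q (Ioi B.R) := hPs.contDiffOn.sqrt fun r hr' => (hPp r hr').ne'
  have hqp : ∀ r, B.R < r → 0 < q r := fun r hr' => Real.sqrt_pos.2 (hPp r hr')
  have hq2 : ∀ r, B.R < r → q r ^ 2 = P r := fun r hr' => Real.sq_sqrt (hPp r hr').le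
  set k : ℝ → ℝ := fun r => K (ry i0 r) i1 i1 / A r with hkdef
  have hks : ContDiffOn ℝ ∞ k (Ioi B.R) :=
    (smooth_ry i0 (hK i1 i1)).contDiffOn.div hAs.contDiffOn fun r hr' => (hAp r hr').ne'
  have hkr : ∀ r, B.R < r → k r = kap r * √(1 / P r) / ((n : ℝ) - 1) := by
    intro r hr'
    have h0 : 0 < r := hR.trans hr'
    have h1 : B.R < len (ry i0 r) := by rw [len_ry i0 h0]; exact hr'
    have hHp : 0 < B.H r := (abs_nonneg _).trans_lt (hlt r hr')
    have h2 := hKx (ry i0 r) h1 i1 i1
    rw [IIf_round hr h1, hPr _ h1, nx_ry i0 _ h0, len_ry i0 h0, if_neg h10, if_pos rfl] at h2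
    have h3 := hρ r hr'
    simp only [hkdef]
    rw [h2, hAr r hr']
    field_simp
    ring
  have hdρ : ∀ r, B.R < r → deriv B.rho r = B.rho r * B.H r / ((n : ℝ) - 1) := by
    intro r hr'
    rw [(B.rho_hasDerivAt hr'.le).deriv]; ring
  have hdρp : ∀ r, B.R < r → 0 < deriv B.rho r := by
    intro r hr'
    rw [hdρ r hr']
    have hHp : 0 < B.H r := (abs_nonneg _).trans_lt (hlt r hr')
    have := hρ r hr'
    positivity
  have hVav : ∀ r, B.R < r → Vav g r = 1 / P r := by
    intro r hr'
    have h0 : 0 < r := hR.trans hr'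
    exact av_eq (by omega) h0.le fun x hx => by rw [hPr x (by rw [hx]; exact hr'), hx]
  -- the mass function
  have hmass : ∀ r, B.R < r → (deriv B.rho r / q r) ^ 2 - (B.rho r * k r) ^ 2 =
      1 - 2 * m / B.rho r ^ (n - 2) := by
    intro r hr'
    have h1 := hm r hr'
    have hρ0 := hρ r hr'
    have hP0 := hPp r hr'
    have hpow : B.rho r ^ ((n : ℝ) - 2) = B.rho r ^ (n - 2) := by
      have : (n : ℝ) - 2 = ((n - 2 : ℕ) : ℝ) := by
        rw [Nat.cast_sub (by omega)]; norm_num
      rw [this, Real.rpow_natCast]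
    rw [hpow, hVav r hr', hlam r hr'] at h1
    have hpp : 0 < B.rho r ^ (n - 2) := by positivity
    rw [← h1, mul_div_assoc, mul_comm, mul_div_assoc]
    have e1 : B.rho r ^ (n - 2) / B.rho r ^ (n - 2) = 1 := div_self hpp.ne'
    rw [hdρ r hr', hkr r hr', div_pow, mul_pow, div_pow, mul_pow, div_pow, hq2 r hr']
    have e2 : √(1 / P r) ^ 2 = 1 / P r := Real.sq_sqrt (by positivity)
    rw [mul_pow, e2]
    field_simp
    ring
  have hpos : ∀ r, B.R < r → 0 < 1 - 2 * m / B.rho r ^ (n - 2) := by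
    intro r hr'
    rw [← hmass r hr', hdρ r hr', hkr r hr']
    have hρ0 := hρ r hr'
    have hP0 := hPp r hr'
    have e2 : √(1 / P r) ^ 2 = 1 / P r := Real.sq_sqrt (by positivity)
    have e3 : (B.rho r * B.H r / ((n : ℝ) - 1) / q r) ^ 2 -
        (B.rho r * (kap r * √(1 / P r) / ((n : ℝ) - 1))) ^ 2 =
        B.rho r ^ 2 / (((n : ℝ) - 1) ^ 2 * P r) * (B.H r ^ 2 - kap r ^ 2) := by
      rw [div_pow, hq2 r hr', mul_pow, div_pow, div_pow, mul_pow, mul_pow, e2]
      field_simp
    rw [e3]
    have h2 : 0 < B.H r ^ 2 - kap r ^ 2 := by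
      have := hlt r hr'
      rw [← sq_abs (kap r)]
      have h3 := abs_nonneg (kap r)
      nlinarith
    positivity
  -- derivative of `k`
  set f : ℝ → ℝ := fun r => Real.log (P r) / 2 with hf
  have hfd : ∀ r, B.R < r → HasDerivAt f (deriv f r) r := by
    intro r hr'
    have h1 : DifferentiableAt ℝ P r := hPs.differentiable (by simp) r
    exact ((h1.log (hPp r hr').ne').div_const 2).hasDerivAt
  have hs : ∀ r, B.R < r → √(1 / P r) = Real.exp (-f r) := by
    intro r hr'
    have hP0 := hPp r hr'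
    rw [Real.sqrt_eq_iff_mul_self_eq_of_pos (Real.exp_pos _), ← Real.exp_add]
    have : -f r + -f r = -Real.log (P r) := by simp only [hf]; ring
    rw [this, Real.exp_neg, Real.exp_log hP0, one_div]
  have hkd' : ∀ r, B.R < r → HasDerivAt k ((deriv kap r * √(1 / P r) -
      kap r * (deriv f r * √(1 / P r))) / ((n : ℝ) - 1)) r := by
    intro r hr'
    have h1 := (hkd r hr').hasDerivAt
    have h2 : HasDerivAt (fun s => Real.exp (-f s)) (Real.exp (-f r) * -deriv f r) r :=
      (hfd r hr').neg.exp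
    have h3 := (h1.fun_mul h2).div_const ((n : ℝ) - 1)
    have h4 := h3.congr_of_eventuallyEq (f₁ := k) (by
      filter_upwards [Ioi_mem_nhds hr'] with s hs'
      rw [hkr s hs', hs s hs'])
    refine h4.congr_deriv ?_
    rw [hs r hr']
    ring
  -- the radial component of `K`
  set kN : ℝ → ℝ := fun r => deriv (fun s => B.rho s * k s) r / deriv B.rho r with hkN
  have hradK : ∀ x, B.R < len x → rad K x = kN (len x) * q (len x) ^ 2 := by
    intro x hx
    have hr0 : 0 < len x := hR.trans hx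
    have hHp : 0 < B.H (len x) := (abs_nonneg _).trans_lt (hlt _ hx)
    have hρ0 := hρ _ hx
    have hP0 := hPp _ hx
    have h1 := radK_eq hB4 h hF hK hKs hk hx (hkd _ hx) (hmom x hx) hrow (hKx x hx)
    have hdN : dN (lf g) x = deriv f (len x) := by
      refine dN_radial (ne_zero_of_len hR hx.le) (hfd _ hx).differentiableAt ?_
      filter_upwards [(isOpen_out B.R).mem_nhds hx] with y hy
      unfold lf
      rw [hPr y hy]
    rw [ctr_II_round h hF hr hx, hdN, hPr x hx] at h1
    have h2 : deriv (fun s => B.rho s * k s) (len x) = _ :=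
      ((B.rho_hasDerivAt hx.le).fun_mul (hkd' _ hx)).deriv
    simp only [hkN]
    rw [h2, hq2 _ hx, hdρ _ hx, hkr _ hx]
    have h3 : rad K x = (√(1 / P (len x)) * deriv kap (len x) -
      √(1 / P (len x)) * kap (len x) * deriv f (len x) +
      kap (len x) * √(1 / P (len x)) / B.H (len x) * (B.H (len x) ^ 2 / ((n : ℝ) - 1))) *
        P (len x) / B.H (len x) := by
      rw [← h1]; field_simp
    rw [h3]
    field_simp
    ring
  refine hE hR hρs hqs hks hρ hdρp hqp hpos hmass (kN := kN) (fun r hr' => ?_)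
    (fun x hx i j => ?_) (fun x hx i j => ?_)
  · simp only [hkN]
    rw [div_mul_cancel₀ _ (hdρp r hr').ne']
  · rw [h.eq x (le_of_lt hx), hr x hx, hPr x hx, hq2 _ hx]
    ring
  · have hHp : 0 < B.H (len x) := (abs_nonneg _).trans_lt (hlt _ hx)
    rw [hKx x hx i j, IIf_round hr hx, hkr _ hx, ← hradK x hx, hPr x hx]
    field_simp
    ring

end Vale.Agent.T4
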