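import Vale.Agent.P366.T4.R68c
import Vale.Agent.P366.T2.G2.SO
import Vale.Agent.P366.T2.G2.Oct

/-! T4, block [I4-S]: backgrounds invariant under a group acting transitively on the pairs. -/

open MeasureTheory Metric Filter Topology Set Asymptotics
open scoped ContDiff ENNReal Matrix

noncomputable section
namespace Vale.Agent.T4
open Vale.Agent.P366.Stmt Vale.Agent.P366.T2

variable {n : ℕ} {Gr : Matrix (Fin n) (Fin n) ℝ → Prop} {G g : Field n} {R : ℝ}

/-- a background with unit lapse, invariant under a group acting transitively on the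
orthonormal pairs, is round -/
theorem Lapse.round (h : Lapse G g R) (hG : G2.PairTrans Gr) (hn : 2 ≤ n)
    (hinv : G2.InvUnder Gr R G) : ∃ a, Round a R G := by
  classical
  set e : Fin n → ℝ := _root_.Pi.single ⟨0, by omega⟩ 1 with he_def
  set f : Fin n → ℝ := _root_.Pi.single ⟨1, by omega⟩ 1 with hf_def
  have he : e ⬝ᵥ e = 1 := by simp [he_def]
  have hf : f ⬝ᵥ f = 1 := by simp [hf_def]
  have hef : e ⬝ᵥ f = 0 := by simp [he_def, hf_def]
  have hf0 : f ≠ 0 := by
    intro h0
    rw [h0, dotProduct_zero] at hf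
    exact zero_ne_one hf
  have hlen : ∀ r, R ≤ r → R ≤ len (pt e r) := by
    intro r hr
    rw [len_pt he, abs_of_pos (h.hR.trans_le hr)]; exact hr
  have hp : ∀ r, R ≤ r → G2.pC G e r = 1 := by
    intro r hr
    have hr0 : 0 < r := h.hR.trans_le hr
    have h1 : mat G (pt e r) *ᵥ e = e := by
      ext i
      have h2 := h.unit (pt e r) (hlen r hr) i
      have h3 : ∀ j, pt e r j = r * e j := fun j => rfl
      simp only [h3] at h2
      have h4 : ∑ j, G (pt e r) i j * (r * e j) = r * ∑ j, G (pt e r) i j * e j := by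
        rw [Finset.mul_sum]
        exact Finset.sum_congr rfl fun j _ => by ring
      rw [h4] at h2
      exact mul_left_cancel₀ hr0.ne' h2
    rw [G2.pC, h1, he]
  refine ⟨G2.aC G e f, h.hR, Quat.form_smooth h.Gs e _ _, fun r hr => ?_, h.Gs,
    fun x hx i j => ?_⟩
  · have h1 := (h.pos _ (hlen r hr)).dotProduct_mulVec_pos hf0
    have h2 : 0 < f ⬝ᵥ (mat G (pt e r) *ᵥ f) := by simpa using h1
    exact h2
  · rw [G2.radial_form hG h.hR hinv (fun x hx => h.symm x hx) he hf hef hx i j, hp _ hx]
    unfold Pj nx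
    have := (h.hR.trans_le hx).ne'
    field_simp

/-- **[I4-S]** a background with unit lapse, invariant under a group acting transitively on the
orthonormal pairs, is realized. -/
theorem Lapse.exists_bg (h : Lapse G g R) (hG : G2.PairTrans Gr) (hn : 2 ≤ n)
    (hinv : G2.InvUnder Gr R G) : ∃ B : Bg n, B.R = R ∧ B.Fits G ∧ B.LamOK G := by
  obtain ⟨a, ha⟩ := h.round hG hn hinv
  exact ⟨bgR hn a R ha.hR ha.sm ha.pos, rfl, ha.fits hn, ha.lamOK hn⟩

end Vale.Agent.T4
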