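import Vale.Agent.P366.T4.StShift
import Vale.Agent.P366.T4.Emb68b
import Vale.Agent.P366.T4.Cov919

/-! T4: slices with a rotating shift. -/

open MeasureTheory Metric Filter Topology Set
open scoped ContDiff Matrix

noncomputable section
namespace Vale.Agent.T4
open Vale.Agent.P366.Stmt Vale.Agent.P366.T2

variable {n : ℕ}

/-- statement of the existence of the rotating frame -/
def StFrame (n : ℕ) : Prop := ∀ {W : ℝ → Matrix (Fin n) (Fin n) ℝ} {R : ℝ},
  (∀ i j, ContDiffOn ℝ ∞ (fun r => W r i j) (Ioi R)) → (∀ r, R < r → (W r)ᵀ = -W r) →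
  ∃ A : ℝ → Matrix (Fin n) (Fin n) ℝ, (∀ i j, ContDiffOn ℝ ∞ (fun r => A r i j) (Ioi R)) ∧
    (∀ r, R < r → (A r)ᵀ * A r = 1) ∧
    ∀ r, R < r → ∀ i j, HasDerivAt (fun s => A s i j) ((A r * W r) i j) r

/-- the rotated point -/
def rot (A : ℝ → Matrix (Fin n) (Fin n) ℝ) (x : E n) : E n :=
  WithLp.toLp 2 fun i => ∑ j, A (len x) i j * x j

lemma rot_apply (A : ℝ → Matrix (Fin n) (Fin n) ℝ) (x : E n) (i : Fin n) :
    rot A x i = ∑ j, A (len x) i j * x j := rfl

section

variable {A W : ℝ → Matrix (Fin n) (Fin n) ℝ} {R : ℝ}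

lemma orth_sum {B : Matrix (Fin n) (Fin n) ℝ} (h : Bᵀ * B = 1) (u v : Fin n → ℝ) :
    ∑ k, (∑ l, B k l * u l) * (∑ m, B k m * v m) = ∑ l, u l * v l := by
  have h1 : ∀ l m, ∑ k, B k l * B k m = if l = m then 1 else 0 := by
    intro l m
    have := congrFun (congrFun h l) m
    rw [Matrix.mul_apply, Matrix.one_apply] at this
    simpa [Matrix.transpose_apply] using this
  have e : ∀ k, (∑ l, B k l * u l) * (∑ m, B k m * v m) =
      ∑ l, ∑ m, B k l * B k m * (u l * v m) := by
    intro k
    rw [Finset.sum_mul_sum]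
    exact Finset.sum_congr rfl fun l _ => Finset.sum_congr rfl fun m _ => by ring
  simp only [e]
  rw [Finset.sum_comm]
  refine Finset.sum_congr rfl fun l _ => ?_
  rw [Finset.sum_comm]
  simp only [← Finset.sum_mul, h1]
  simp

lemma len_rot (hA : ∀ r, R < r → (A r)ᵀ * A r = 1) {x : E n} (hx : R < len x) :
    len (rot A x) = len x := by
  have h1 : len (rot A x) ^ 2 = len x ^ 2 := by
    rw [len_sq, len_sq]
    simp only [rot_apply, sq]
    exact orth_sum (hA _ hx) _ _
  exact (pow_left_inj₀ (norm_nonneg _) (norm_nonneg _) two_ne_zero).1 h1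

lemma nx_rot (hA : ∀ r, R < r → (A r)ᵀ * A r = 1) {x : E n} (hx : R < len x) (k : Fin n) :
    nx k (rot A x) = ∑ l, A (len x) k l * nx l x := by
  unfold nx
  rw [len_rot hA hx, rot_apply, Finset.sum_div]
  exact Finset.sum_congr rfl fun l _ => by ring

lemma wv_nx (hW : ∀ r, R < r → (W r)ᵀ = -W r) {x : E n} (hx : R < len x) :
    ∑ l, wv W l x * nx l x = 0 := by
  have h1 : ∀ l m, W (len x) l m = -W (len x) m l := by
    intro l m
    have := congrFun (congrFun (hW _ hx) m) l
    simpa [Matrix.transpose_apply] using this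
  have h2 : ∑ l, wv W l x * nx l x = -∑ l, wv W l x * nx l x := by
    have e : ∀ l, wv W l x * nx l x = ∑ m, W (len x) l m * (x m * x l / len x) := by
      intro l
      unfold wv nx
      rw [Finset.sum_mul]
      exact Finset.sum_congr rfl fun m _ => by ring
    simp only [e]
    nth_rewrite 1 [Finset.sum_comm]
    rw [← Finset.sum_neg_distrib]
    refine Finset.sum_congr rfl fun l _ => ?_
    rw [← Finset.sum_neg_distrib]
    refine Finset.sum_congr rfl fun m _ => ?_
    rw [h1 m l]
    ring
  linarith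

lemma pd_rot (hR : 0 < R)
    (hd : ∀ r, R < r → ∀ i j, HasDerivAt (fun s => A s i j) ((A r * W r) i j) r)
    {x : E n} (hx : R < len x) (i k : Fin n) :
    pd i (fun y => rot A y k) x =
      ∑ l, A (len x) k l * ((if l = i then 1 else 0) + wv W l x * nx i x) := by
  have hx0 := ne_zero_of_len hR hx.le
  have h1 := HP.sum (k := i) (x := x) Finset.univ (f := fun j y => A (len y) k j * y j)
    (d := fun j => (A (len x) * W (len x)) k j / len x * x i * x j +
      A (len x) k j * (if j = i then 1 else 0))
    (fun j _ => (HP.radial hx0 (hd _ hx k j) i).mul (HP.coord i j x))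
  have h2 : pd i (fun y => rot A y k) x = _ := h1.pd
  rw [h2]
  simp only [mul_add, Finset.sum_add_distrib]
  rw [add_comm]
  congr 1
  have e : ∀ j, (A (len x) * W (len x)) k j / len x * x i * x j =
      ∑ l, A (len x) k l * (W (len x) l j * x j * nx i x) := by
    intro j
    rw [Matrix.mul_apply, Finset.sum_div, Finset.sum_mul, Finset.sum_mul]
    refine Finset.sum_congr rfl fun l _ => ?_
    unfold nx
    ring
  simp only [e]
  rw [Finset.sum_comm]
  refine Finset.sum_congr rfl fun l _ => ?_
  unfold wv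
  rw [← Finset.mul_sum, Finset.sum_mul]

lemma rot_smooth (hR : 0 < R) (hA : ∀ i j, ContDiffOn ℝ ∞ (fun r => A r i j) (Ioi R))
    (k : Fin n) : ContDiffOn ℝ ∞ (fun y : E n => rot A y k) {x | R < len x} := by
  have hmaps : MapsTo (len : E n → ℝ) {x | R < len x} (Ioi R) := fun x hx => hx
  have hlen : ContDiffOn ℝ ∞ (len : E n → ℝ) {x | R < len x} := fun x hx =>
    (contDiffAt_len (ne_zero_of_len hR (le_of_lt hx))).contDiffWithinAt
  simp only [rot_apply]
  refine ContDiffOn.sum fun j _ => ?_
  refine ((hA k j).comp hlen hmaps).mul ?_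
  have : ContDiff ℝ ∞ (fun x : E n => x j) :=
    (EuclideanSpace.proj (𝕜 := ℝ) j : E n →L[ℝ] ℝ).contDiff
  exact this.contDiffOn

lemma rot_inj (hA : ∀ r, R < r → (A r)ᵀ * A r = 1) : InjOn (rot A) {x : E n | R < len x} := by
  intro x hx y hy hxy
  have hx' : R < len x := hx
  have hy' : R < len y := hy
  have h1 : len x = len y := by rw [← len_rot hA hx', ← len_rot hA hy', hxy]
  have h2 : len (y - x) ^ 2 = 0 := by
    rw [len_sq]
    have h3 := orth_sum (hA _ hx') (fun i => y i - x i) (fun i => y i - x i)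
    have h4 : ∀ k, ∑ l, A (len x) k l * (y l - x l) = 0 := by
      intro k
      have h5 : rot A x k = rot A y k := by rw [hxy]
      rw [rot_apply, rot_apply, ← h1] at h5
      simp only [mul_sub, Finset.sum_sub_distrib]
      linarith
    simp only [h4, mul_zero, Finset.sum_const_zero] at h3
    simp only [PiLp.sub_apply, sq]
    exact h3.symm
  have h6 : ‖y - x‖ = 0 := by
    have : len (y - x) = 0 := by simpa using h2
    exact this
  exact (sub_eq_zero.1 (norm_eq_zero.1 h6)).symm

/-- the contraction of a radial tensor with the Jacobian of the rotation -/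
lemma rot_pull (hR : 0 < R) (hA : ∀ r, R < r → (A r)ᵀ * A r = 1)
    (hW : ∀ r, R < r → (W r)ᵀ = -W r)
    (hd : ∀ r, R < r → ∀ i j, HasDerivAt (fun s => A s i j) ((A r * W r) i j) r)
    {x : E n} (hx : R < len x) (a b : ℝ) (i j : Fin n) :
    ∑ k, ∑ l, (a * ((if k = l then 1 else 0) - nx k (rot A x) * nx l (rot A x)) +
      b * (nx k (rot A x) * nx l (rot A x))) * pd i (fun y => rot A y k) x *
        pd j (fun y => rot A y l) x = a * hh W x i j + b * (nx i x * nx j x) := by
  have hx0 := ne_zero_of_len hR hx.le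
  have hwn := wv_nx hW hx
  -- the two contractions
  have c1 : ∀ i, ∑ k, nx k (rot A x) * pd i (fun y => rot A y k) x = nx i x := by
    intro i
    simp only [nx_rot hA hx, pd_rot hR hd hx]
    rw [orth_sum (hA _ hx)]
    have e : ∀ l, nx l x * ((if l = i then 1 else 0) + wv W l x * nx i x) =
        (if l = i then nx l x else 0) + nx i x * (wv W l x * nx l x) := by
      intro l; split_ifs <;> ring
    simp only [e, Finset.sum_add_distrib, ← Finset.mul_sum, hwn]
    simp
  have c2 : ∑ k, pd i (fun y => rot A y k) x * pd j (fun y => rot A y k) x =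
      (if i = j then 1 else 0) + wv W i x * nx j x + nx i x * wv W j x +
        (∑ l, wv W l x ^ 2) * (nx i x * nx j x) := by
    simp only [pd_rot hR hd hx]
    rw [orth_sum (hA _ hx)]
    have e : ∀ l, ((if l = i then 1 else 0) + wv W l x * nx i x) *
        ((if l = j then 1 else 0) + wv W l x * nx j x) =
        (if l = i then (if l = j then 1 else 0) else 0) +
        (if l = i then wv W l x * nx j x else 0) + (if l = j then nx i x * wv W l x else 0) +
        wv W l x ^ 2 * (nx i x * nx j x) := by
      intro l; split_ifs <;> ring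
    simp only [e, Finset.sum_add_distrib, ← Finset.sum_mul]
    simp
  have e : ∀ k l, (a * ((if k = l then 1 else 0) - nx k (rot A x) * nx l (rot A x)) +
      b * (nx k (rot A x) * nx l (rot A x))) * pd i (fun y => rot A y k) x *
        pd j (fun y => rot A y l) x =
      a * (if k = l then pd i (fun y => rot A y k) x * pd j (fun y => rot A y l) x else 0) +
      (b - a) * ((nx k (rot A x) * pd i (fun y => rot A y k) x) *
        (nx l (rot A x) * pd j (fun y => rot A y l) x)) := by
    intro k l; split_ifs <;> ring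
  simp only [e, Finset.sum_add_distrib, ← Finset.mul_sum, ← Finset.sum_mul, c1]
  simp only [Finset.sum_ite_eq, Finset.mem_univ, if_true, c2]
  unfold hh
  ring

end

/-- **Slices with a rotating shift.** -/
theorem stShift_of_frame (hn : 2 ≤ n) (hfr : StFrame n) : StShift n := by
  intro R M hR rho q k kN h1 h2 h3 h4 h5 h6 h7 h8 h9 W hW hsk g K hg hK
  obtain ⟨A, hAs, hA, hd⟩ := hfr hW fun r _ => hsk r
  have hsk' : ∀ r, R < r → (W r)ᵀ = -W r := fun r _ => hsk r
  set g' : Field n := fun x i j => (rho (len x) / len x) ^ 2 *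
    ((if i = j then 1 else 0) - nx i x * nx j x) + q (len x) ^ 2 * (nx i x * nx j x) with hg'
  set K' : Field n := fun x i j => k (len x) * (rho (len x) / len x) ^ 2 *
    ((if i = j then 1 else 0) - nx i x * nx j x) + kN (len x) * q (len x) ^ 2 *
      (nx i x * nx j x) with hK'
  have hS : IsSlice M g' K' {x | R < len x} :=
    stEmb hn hR h1 h2 h3 h4 h5 h6 h7 h8 h9 (fun x _ i j => rfl) (fun x _ i j => rfl)
  refine C919.isSlice_cov (isOpen_out R) (isOpen_out R) (χ := rot A) (rot_smooth hR hAs)
    (fun x hx => ?_) (rot_inj hA) (fun x hx i j => ?_) (fun x hx i j => ?_) hS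
  · have hx' : R < len x := hx
    have : R < len (rot A x) := by rw [len_rot hA hx']; exact hx'
    exact this
  · have hx' : R < len x := hx
    rw [hg x hx' i j, ← rot_pull hR hA hsk' hd hx']
    simp only [hg', len_rot hA hx']
  · have hx' : R < len x := hx
    rw [hK x hx' i j, ← rot_pull hR hA hsk' hd hx']
    simp only [hK', len_rot hA hx']

end Vale.Agent.T4
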