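import Vale.Agent.P366.T4.Shift919
import Vale.Agent.P366.T4.Ode92

/-! T4: slices with a rotating shift: the final form. -/

open Set
open scoped ContDiff

noncomputable section
namespace Vale.Agent.T4

variable {n : ℕ}

/-- **Slices with a rotating shift.** -/
theorem stShift (hn : 2 ≤ n) : StShift n :=
  stShift_of_frame hn (fun {_ _} hW hsk => exists_frame hW hsk)

end Vale.Agent.T4
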