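import Vale.Agent.P366.Stmt

/-! Spacelike hypersurfaces of the Schwarzschild–Tangherlini spacetime. -/

open Set
open scoped ContDiff

noncomputable section
namespace Vale.Agent.T4
open Vale.Agent.P366 Vale.Agent.P366.Stmt

variable {n : ℕ}

/-- The function `f = 1 - 2 M / |y| ^ (n - 2)` of Schwarzschild–Tangherlini. -/
def stF (M : ℝ) (y : E n) : ℝ := 1 - 2 * M / len y ^ (n - 2)

/-- The spatial part `y` of a point `z = (t, y)`. -/
def spc (z : E (n + 1)) : E n := WithLp.toLp 2 fun i => z i.succ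

/-- The exterior Schwarzschild–Tangherlini metric `- f dt² + |dy|² + (1 / f - 1) (y · dy / |y|)²`
of mass `M` in the coordinates `z = (t, y)`. -/
def tang (M : ℝ) : Stmt.Field (n + 1) := fun z =>
  Fin.cons (Fin.cons (-stF M (spc z)) fun _ => 0) fun i : Fin n =>
    Fin.cons 0 fun j : Fin n => (if i = j then (1 : ℝ) else 0) +
      (1 / stF M (spc z) - 1) * (spc z i * spc z j / len (spc z) ^ 2)

/-- The point with components `Φ a x`. -/
def toPt (Φ : Fin (n + 1) → E n → ℝ) (x : E n) : E (n + 1) := WithLp.toLp 2 fun a => Φ a x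

/-- The data `(g, K)` on `U` are those of a spacelike hypersurface in the exterior region `f > 0`
of the Schwarzschild–Tangherlini spacetime of mass `M`: there is a smooth injective isometric
immersion `Φ` with the future unit normal `N` and the second fundamental form
`K(X, Y) = - ⟨N, ∇_X Y⟩`. -/
def IsSlice (M : ℝ) (g K : Stmt.Field n) (U : Set (E n)) : Prop :=
  ∃ Φ N : Fin (n + 1) → E n → ℝ, (∀ a, ContDiffOn ℝ ∞ (Φ a) U) ∧ InjOn (toPt Φ) U ∧
    ∀ x ∈ U, 0 < len (spc (toPt Φ x)) ∧ 0 < stF M (spc (toPt Φ x)) ∧ 0 < N 0 x ∧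
      (∀ i j, g x i j = ∑ a, ∑ b, tang M (toPt Φ x) a b * pd i (Φ a) x * pd j (Φ b) x) ∧
      ∑ a, ∑ b, tang M (toPt Φ x) a b * N a x * N b x = -1 ∧
      (∀ i, ∑ a, ∑ b, tang M (toPt Φ x) a b * N a x * pd i (Φ b) x = 0) ∧
      ∀ i j, K x i j = -∑ a, ∑ b, tang M (toPt Φ x) a b * N a x *
        (pd i (pd j (Φ b)) x +
          ∑ c, ∑ d, chr (tang M) b c d (toPt Φ x) * pd i (Φ c) x * pd j (Φ d) x)

end Vale.Agent.T4
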