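import Vale.Agent.P366.T4.Groups2
import Vale.Agent.P366.T4.R3c92
import Vale.Agent.P366.T4.Final4
import Vale.Agent.P366.T2.FinalM
import Vale.Agent.P366.T2.U1.Final
import Vale.Agent.P366.T2.S9.Final
import Vale.Agent.P366.T2.G2.Spin7
import Vale.Agent.P366.T2.P765

/-! T4: the Penrose inequality for data of cohomogeneity one. -/

open MeasureTheory Metric Filter Topology Set Matrix
open scoped ContDiff ENNReal Matrix

noncomputable section
namespace Vale.Agent.T4
open Vale.Agent.P366.Stmt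
open Vale.Agent.P366.T2 (act pt len_pt hat hat_unit pt_hat act_pt len_sq_eq flx_even)

variable {n : ℕ}

/-- `Γ` moves a unit vector to every unit vector. -/
def MovesBase (Γ : Matrix (Fin n) (Fin n) ℝ → Prop) : Prop :=
  ∃ e : Fin n → ℝ, e ⬝ᵥ e = 1 ∧ ∀ f : Fin n → ℝ, f ⬝ᵥ f = 1 → ∃ A, Γ A ∧ A *ᵥ e = f

lemma single_unit (hn : 0 < n) :
    (_root_.Pi.single (⟨0, hn⟩ : Fin n) (1 : ℝ) : Fin n → ℝ) ⬝ᵥ
      _root_.Pi.single ⟨0, hn⟩ 1 = 1 := by simp

lemma PairTrans.moves (hn : 2 ≤ n) {Γ : Matrix (Fin n) (Fin n) ℝ → Prop}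
    (h : Vale.Agent.G2.PairTrans Γ) : MovesBase Γ := by
  have he := single_unit (n := n) (by omega)
  set e : Fin n → ℝ := _root_.Pi.single ⟨0, by omega⟩ 1 with hedef
  set f : Fin n → ℝ := _root_.Pi.single ⟨1, by omega⟩ 1 with hfdef
  have hf : f ⬝ᵥ f = 1 := by simp [hfdef]
  have hef : e ⬝ᵥ f = 0 := by simp [hedef, hfdef]
  refine ⟨e, he, fun u hu => ?_⟩
  obtain ⟨A, hA, hAe, -⟩ := Vale.Agent.G2.exists_move he hu
  obtain ⟨B, hB, hBe, -⟩ := h.2 e f u (A *ᵥ f) he hf hef hu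
    (by rw [Vale.Agent.G2.orth_dot hA, hf])
    (by rw [← hAe, Vale.Agent.G2.orth_dot hA, hef])
  exact ⟨B, hB, hBe⟩

lemma pairTrans_so (hn : 3 ≤ n) : Vale.Agent.G2.PairTrans
    (fun A : Matrix (Fin n) (Fin n) ℝ => A.transpose * A = 1 ∧ A.det = 1) :=
  Vale.Agent.G2.pairTrans_SO hn

lemma pairTrans_g2 : Vale.Agent.G2.PairTrans
    (fun A : Matrix (Fin 7) (Fin 7) ℝ => A.transpose * A = 1 ∧
      ∀ x y, A *ᵥ cross7 x y = cross7 (A *ᵥ x) (A *ᵥ y)) :=
  Vale.Agent.G2.pairTrans_G2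

lemma pairTrans_spin7 : Vale.Agent.G2.PairTrans
    (fun A : Matrix (Fin 8) (Fin 8) ℝ => A.transpose * A = 1 ∧
      ∃ B : Matrix (Fin 7) (Fin 7) ℝ, ∀ u x, A *ᵥ octMul u x = octMul (B *ᵥ u) (A *ᵥ x)) :=
  Vale.Agent.G2.pairTrans_Spin7

theorem TransGroup.orth {Γ : Matrix (Fin n) (Fin n) ℝ → Prop} (h : TransGroup n Γ) :
    ∀ A, Γ A → Aᵀ * A = 1 := by
  induction h with
  | so => exact fun A h => h.1
  | u J _ _ => exact fun A h => h.1
  | su _ J _ _ => exact fun A h => h.1.1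
  | sp Q => exact fun A h => h.1
  | g2 => exact fun A h => h.1
  | spin7 => exact fun A h => h.1
  | spin9 O => exact fun A h => h.1

theorem TransGroup.moves (hn : 3 ≤ n) {Γ : Matrix (Fin n) (Fin n) ℝ → Prop}
    (h : TransGroup n Γ) : MovesBase Γ := by
  induction h with
  | so => exact PairTrans.moves (by omega) (pairTrans_so hn)
  | u J skew sq =>
    exact ⟨_, single_unit (by omega), fun f hf =>
      (Vale.Agent.U1.Cpx.full_U (Q := ⟨J, skew, sq⟩)).trans _ f (single_unit (by omega)) hf⟩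
  | su h6 J skew sq =>
    exact ⟨_, single_unit (by omega), fun f hf =>
      (Vale.Agent.U1.Cpx.full_SU (Q := ⟨J, skew, sq⟩) (by omega)).trans _ f
        (single_unit (by omega)) hf⟩
  | sp Q => exact ⟨_, single_unit (by omega), fun f hf => Q.transitive (single_unit (by omega)) hf⟩
  | g2 => exact PairTrans.moves (by omega) pairTrans_g2
  | spin7 => exact PairTrans.moves (by omega) pairTrans_spin7
  | spin9 O =>
    obtain ⟨e, he, hPe⟩ := O.exists_base (by omega)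
    refine ⟨e, he, fun f hf => ?_⟩
    obtain ⟨A, hA, -, h⟩ := O.transitive he hPe hf
    exact ⟨A, hA, h⟩

/-- **Every homogeneous background is realized, and equality in `hL` forces the round metric.** -/
theorem exists_bg_trans (hn : 3 ≤ n) {Γ : Matrix (Fin n) (Fin n) ℝ → Prop} (hΓ : TransGroup n Γ)
    {G : Field n} {R : ℝ} (hR : 0 < R)
    (Gs : ∀ i j, Smooth (fun x => G x i j)) (symm : ∀ x i j, G x i j = G x j i)
    (pos : ∀ x, R ≤ len x → (mat G x).PosDef)
    (unit : ∀ x, R ≤ len x → ∀ i, ∑ j, G x i j * x j = x i)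
    (hG : InvUnder Γ R G) : ∃ B : Bg n, B.R = R ∧ B.Fits G ∧ B.LamOK G ∧ B.RoundEq G := by
  induction hΓ with
  | so => exact famPair' (by omega) (pairTrans_so hn) hR Gs symm pos unit hG
  | u J skew sq =>
    exact famFull' hn ⟨J, skew, sq⟩ Vale.Agent.U1.Cpx.full_U hR Gs symm pos unit hG
  | su h6 J skew sq =>
    exact famFull' hn ⟨J, skew, sq⟩ (Vale.Agent.U1.Cpx.full_SU (by omega)) hR Gs symm pos unit hG
  | sp Q => exact famSp' (by omega) Q hR Gs symm pos unit hG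
  | g2 => exact famPair' (by omega) pairTrans_g2 hR Gs symm pos unit hG
  | spin7 => exact famPair' (by omega) pairTrans_spin7 hR Gs symm pos unit hG
  | spin9 O => exact famSpin' (by omega) O hR Gs symm pos unit hG

/-! ### invariance -/

section

variable {Γ : Matrix (Fin n) (Fin n) ℝ → Prop} {R : ℝ} {T : Field n}

lemma InvUnder.mat_eq (hT : InvUnder Γ R T) {A : Matrix (Fin n) (Fin n) ℝ} (hA : Γ A) {x : E n}
    (hx : R ≤ len x) : Aᵀ * mat T (act A x) * A = mat T x :=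
  Vale.Agent.G2.InvUnder.mat_eq hT hA hx

lemma invUnder_of_mat (h : ∀ A, Γ A → ∀ x : E n, R ≤ len x →
    Aᵀ * mat T (act A x) * A = mat T x) : InvUnder Γ R T := by
  intro A hA x y hx hy i j
  have hy' : y = act A x := by
    ext i
    rw [hy i]
    rfl
  subst hy'
  have h1 := congrFun (congrFun (h A hA x hx) i) j
  refine Eq.trans ?_ h1
  simp only [Matrix.mul_apply, Matrix.transpose_apply, Finset.sum_mul]
  rw [Finset.sum_comm]
  rfl

lemma len_act {A : Matrix (Fin n) (Fin n) ℝ} (hA : Aᵀ * A = 1) (x : E n) :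
    len (act A x) = len x := by
  have h1 : len (act A x) ^ 2 = len x ^ 2 := by
    rw [len_sq_eq, len_sq_eq]
    exact Vale.Agent.G2.orth_dot hA _ _
  exact (pow_left_inj₀ (norm_nonneg _) (norm_nonneg _) two_ne_zero).1 h1

lemma hat_act {A : Matrix (Fin n) (Fin n) ℝ} (hA : Aᵀ * A = 1) (x : E n) :
    hat (act A x) = A *ᵥ hat x := by
  unfold hat
  rw [len_act hA, mulVec_smul]
  rfl

lemma rad_hat (T : Field n) (x : E n) : rad T x = hat x ⬝ᵥ (mat T x *ᵥ hat x) := by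
  have e : ∀ i, hat x i = nx i x := fun i => Vale.Agent.P366.T2.Quat.hat_apply x i
  simp only [dotProduct, Matrix.mulVec, Finset.mul_sum, e]
  unfold rad
  exact Finset.sum_congr rfl fun i _ => Finset.sum_congr rfl fun j _ => by
    show T x i j * nx i x * nx j x = nx i x * (T x i j * nx j x)
    ring

lemma InvUnder.rad_act (hT : InvUnder Γ R T) {A : Matrix (Fin n) (Fin n) ℝ} (hA : Γ A)
    (hA1 : Aᵀ * A = 1) {x : E n} (hx : R ≤ len x) : rad T (act A x) = rad T x := by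
  rw [rad_hat, rad_hat, hat_act hA1, ← hT.mat_eq hA hx, Vale.Agent.P366.T2.Quat.transport]

lemma mat_tanP (g : Field n) (x : E n) :
    mat (tanP g) x = mat g x - rad g x • vecMulVec (hat x) (hat x) := by
  have e : ∀ i, hat x i = nx i x := fun i => Vale.Agent.P366.T2.Quat.hat_apply x i
  ext i j
  simp only [Matrix.sub_apply, Matrix.smul_apply, vecMulVec_apply, smul_eq_mul, e]
  show tanP g x i j = g x i j - _
  unfold tanP
  ring

lemma InvUnder.tanP (hΓ : ∀ A, Γ A → Aᵀ * A = 1) (hT : InvUnder Γ R T) :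
    InvUnder Γ R (tanP T) := by
  refine invUnder_of_mat fun A hA x hx => ?_
  have hA1 := hΓ A hA
  have h1 : Aᵀ * vecMulVec (A *ᵥ hat x) (A *ᵥ hat x) * A = vecMulVec (hat x) (hat x) := by
    rw [mul_vecMulVec, mulVec_mulVec, hA1, one_mulVec, vecMulVec_mul, ← mulVec_transpose,
      mulVec_mulVec, hA1, one_mulVec]
  rw [mat_tanP, mat_tanP, hT.rad_act hA hA1 hx, hat_act hA1, Matrix.mul_sub, Matrix.sub_mul,
    hT.mat_eq hA hx, Matrix.mul_smul, Matrix.smul_mul, h1]

lemma trT_trace (G K : Field n) (x : E n) :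
    trT G K x = (((mat G x)⁻¹ - vecMulVec (hat x) (hat x)) * (mat K x)ᵀ).trace := by
  have e : ∀ i, hat x i = nx i x := fun i => Vale.Agent.P366.T2.Quat.hat_apply x i
  unfold trT Matrix.trace
  refine Finset.sum_congr rfl fun i _ => ?_
  rw [Matrix.diag_apply, Matrix.mul_apply]
  refine Finset.sum_congr rfl fun j _ => ?_
  simp only [Matrix.sub_apply, vecMulVec_apply, e, Matrix.transpose_apply]
  rfl

lemma trT_act {G K : Field n} (hG : InvUnder Γ R G) (hK : InvUnder Γ R K)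
    (hpos : ∀ x, R ≤ len x → (mat G x).PosDef) {A : Matrix (Fin n) (Fin n) ℝ} (hA : Γ A)
    (hA1 : Aᵀ * A = 1) {x : E n} (hx : R ≤ len x) : trT G K (act A x) = trT G K x := by
  have hA2 : A * Aᵀ = 1 := mul_eq_one_comm.1 hA1
  have hxA : R ≤ len (act A x) := by rw [len_act hA1]; exact hx
  have h1 := hG.mat_eq hA hx
  have h2 := hK.mat_eq hA hx
  have h3 : (mat G (act A x))⁻¹ = A * (mat G x)⁻¹ * Aᵀ := by
    refine Matrix.inv_eq_left_inv ?_
    have hdet : IsUnit (mat G x).det := isUnit_iff_ne_zero.2 (hpos x hx).det_pos.ne'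
    have h4 : mat G (act A x) = A * mat G x * Aᵀ := by
      rw [← h1]
      simp only [Matrix.mul_assoc, hA2, Matrix.mul_one]
      rw [← Matrix.mul_assoc, hA2, Matrix.one_mul]
    rw [h4]
    simp only [Matrix.mul_assoc]
    rw [← Matrix.mul_assoc Aᵀ A, hA1, Matrix.one_mul, ← Matrix.mul_assoc (mat G x)⁻¹,
      Matrix.nonsing_inv_mul _ hdet, Matrix.one_mul, hA2]
  have h5 : vecMulVec (A *ᵥ hat x) (A *ᵥ hat x) = A * vecMulVec (hat x) (hat x) * Aᵀ := by
    rw [mul_vecMulVec, vecMulVec_mul, ← mulVec_transpose, transpose_transpose]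
  rw [trT_trace, trT_trace, hat_act hA1, h3, h5, ← Matrix.sub_mul, ← Matrix.mul_sub,
    Matrix.mul_assoc A, Matrix.mul_assoc A, Matrix.trace_mul_comm A, Matrix.mul_assoc,
    ← h2, Matrix.transpose_mul, Matrix.transpose_mul, transpose_transpose]
  simp only [Matrix.mul_assoc]

end

/-! ### data invariant under a transitive group -/

section

variable {Γ : Matrix (Fin n) (Fin n) ℝ → Prop} {R : ℝ}

theorem exists_kappa (hM : MovesBase Γ) (hΓ : ∀ A, Γ A → Aᵀ * A = 1) {g G K : Field n}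
    (h : Lapse G g R) (hG : InvUnder Γ R G) (hg : InvUnder Γ R g) (hK : InvUnder Γ R K) :
    ∃ κ : ℝ → ℝ, ∀ x, R ≤ len x → √(rad g x) * trT G K x = κ (len x) := by
  obtain ⟨e, he, hmove⟩ := hM
  refine ⟨fun r => √(rad g (pt e r)) * trT G K (pt e r), fun x hx => ?_⟩
  have hx0 : 0 < len x := h.hR.trans_le hx
  obtain ⟨A, hA, hAe⟩ := hmove _ (hat_unit hx0)
  have hp : R ≤ len (pt e (len x)) := by rw [len_pt he, abs_of_pos hx0]; exact hx
  have h1 : act A (pt e (len x)) = x := by rw [act_pt, hAe, pt_hat hx0]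
  have h2 := hg.rad_act hA (hΓ A hA) hp
  have h3 := trT_act hG hK h.pos hA (hΓ A hA) hp
  rw [h1] at h2 h3
  simp only [← h2, ← h3]

/-- the background of invariant data, `x` orthogonal to the spheres -/
theorem lapse_trans (hn : 3 ≤ n) (hΓ : ∀ A, Γ A → Aᵀ * A = 1) {X : Exterior n} {R₁ : ℝ}
    (hR : IsGreatest {r | ∃ x, X.F x = 0 ∧ len x = r} R₁) (hg : InvUnder Γ R₁ X.g)
    (hperp : PerpAt R₁ X.g) :
    Lapse (bgF R₁ X.g) X.g R₁ ∧ InvUnder Γ R₁ (bgF R₁ X.g) := by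
  have hout := Vale.Agent.C92.outside_nonneg (by omega) X hR
  have hR0 : 0 < R₁ :=
    (Vale.Agent.P366.Bridge.toRaw X).R1_pos (by omega) (Vale.Agent.P366.Bridge.raw_R1 X hR)
  have hpos : ∀ x, R₁ ≤ len x → (mat X.g x).PosDef := fun x hx => X.pos x (hout x hx)
  have hgs : ∀ i j, Smooth (fun x => X.g x i j) := fun i j => (X.smooth i j).1
  have hgsy : ∀ x i j, X.g x i j = X.g x j i := fun x i j => (X.symm x i j).1
  exact ⟨lapse_bgF hR0 hgs hgsy hpos (hperp.nx hR0), inv_bgF hR0 hΓ (hg.tanP hΓ)⟩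

/-- an invariant tensor field of a group transitive on the pairs -/
theorem pair_form (hn : 2 ≤ n) (hΓ : Vale.Agent.G2.PairTrans Γ) (hR : 0 < R) {T : Field n}
    (hT : InvUnder Γ R T) (hs : ∀ x i j, T x i j = T x j i) : ∃ a p : ℝ → ℝ,
      ∀ x, R ≤ len x → ∀ i j, T x i j = a (len x) * ((if i = j then 1 else 0) -
        x i * x j / len x ^ 2) + p (len x) * (x i * x j / len x ^ 2) := by
  set e : Fin n → ℝ := _root_.Pi.single ⟨0, by omega⟩ 1 with hedef
  set f : Fin n → ℝ := _root_.Pi.single ⟨1, by omega⟩ 1 with hfdef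
  have he : e ⬝ᵥ e = 1 := by simp [hedef]
  have hf : f ⬝ᵥ f = 1 := by simp [hfdef]
  have hef : e ⬝ᵥ f = 0 := by simp [hedef, hfdef]
  exact ⟨Vale.Agent.G2.aC T e f, Vale.Agent.G2.pC T e, fun x hx i j =>
    Vale.Agent.G2.radial_form hΓ hR hT (fun x _ => hs x) he hf hef hx i j⟩

theorem perp_of_pair (hn : 2 ≤ n) (hΓ : Vale.Agent.G2.PairTrans Γ) (hR : 0 < R) {T : Field n}
    (hT : InvUnder Γ R T) (hs : ∀ x i j, T x i j = T x j i) : PerpAt R T := by
  obtain ⟨a, p, hap⟩ := pair_form hn hΓ hR hT hs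
  intro x hx i
  have hl : len x ≠ 0 := (hR.trans_le hx).ne'
  have hsum : ∑ j, x j ^ 2 = len x ^ 2 := (len_sq x).symm
  have h1 : ∀ i, ∑ j, T x i j * x j = p (len x) * x i := by
    intro i
    have e : ∀ j, T x i j * x j = a (len x) * (if i = j then x j else 0) +
        (p (len x) - a (len x)) * x i / len x ^ 2 * x j ^ 2 := by
      intro j
      rw [hap x hx i j]
      split_ifs <;> ring
    simp only [e, Finset.sum_add_distrib, ← Finset.mul_sum, hsum, Finset.sum_ite_eq,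
      Finset.mem_univ, if_true]
    field_simp
    ring
  have h2 : radial T x = p (len x) := by
    unfold radial
    have e : ∀ i, ∑ j, T x i j * x i * x j = p (len x) * x i ^ 2 := by
      intro i
      have e2 : ∀ j, T x i j * x i * x j = x i * (T x i j * x j) := fun j => by ring
      simp only [e2, ← Finset.mul_sum, h1 i]
      ring
    simp only [e, ← Finset.mul_sum, hsum]
    field_simp
  rw [h1 i, h2]

/-- the momentum of even data vanishes -/
theorem momentum_even {X : Exterior n} {P : Fin n → ℝ} (hP : X.IsMomentum P) (hR : 0 < R)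
    (hg : ∀ x, R ≤ len x → ∀ i j, X.g (-x) i j = X.g x i j)
    (hK : ∀ x, R ≤ len x → ∀ i j, X.K (-x) i j = X.K x i j) : P = 0 := by
  funext i
  have h1 : (flx fun j x => momT X.g X.K x i j) =ᶠ[atTop] fun _ => (0 : ℝ) := by
    filter_upwards [eventually_ge_atTop R] with r hr
    refine flx_even (fun x hx j => ?_) (hR.le.trans hr)
    have hx' : R ≤ len x := by rw [hx]; exact hr
    have hm : mat X.g (-x) = mat X.g x := by
      funext i j; exact hg x hx' i j
    have hu : ∀ i j, up X.g i j (-x) = up X.g i j x := fun i j => by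
      unfold up; rw [hm]
    unfold momT tr
    simp only [hg x hx', hK x hx', hu]
  have h2 := (tendsto_congr' h1).1 (hP i)
  exact tendsto_nhds_unique h2 tendsto_const_nhds

lemma pair_even (hn : 2 ≤ n) (hΓ : Vale.Agent.G2.PairTrans Γ) (hR : 0 < R) {T : Field n}
    (hT : InvUnder Γ R T) (hs : ∀ x i j, T x i j = T x j i) :
    ∀ x, R ≤ len x → ∀ i j, T (-x) i j = T x i j := by
  obtain ⟨a, p, hap⟩ := pair_form hn hΓ hR hT hs
  intro x hx i j
  have hl : len (-x) = len x := norm_neg x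
  rw [hap x hx i j, hap (-x) (by rw [hl]; exact hx) i j, hl]
  simp only [PiLp.neg_apply, mul_neg, neg_mul, neg_neg]

/-- the Penrose inequality for data invariant under a group transitive on the pairs -/
theorem penrose_pair (hn : 3 ≤ n) (hΓ : Vale.Agent.G2.PairTrans Γ) {X : Exterior n}
    (hAF : X.IsAF) (hDEC : X.DEC) (hT : X.Trapped) {m : ℝ} {P : Fin n → ℝ} (hm : X.IsEnergy m)
    (hP : X.IsMomentum P) {R₁ : ℝ} (hR : IsGreatest {r | ∃ x, X.F x = 0 ∧ len x = r} R₁)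
    (hg : InvUnder Γ R₁ X.g) (hK : InvUnder Γ R₁ X.K) :
    P = 0 ∧ X.Amin ≠ ⊤ ∧ √(∑ i, P i ^ 2) < m ∧
    (X.Amin.toReal / omega n) ^ (((n : ℝ) - 2) / (n - 1)) / 2 ≤
      √(m ^ 2 - ∑ i, P i ^ 2) := by
  have hR0 : 0 < R₁ :=
    (Vale.Agent.P366.Bridge.toRaw X).R1_pos (by omega) (Vale.Agent.P366.Bridge.raw_R1 X hR)
  have hgsy : ∀ x i j, X.g x i j = X.g x j i := fun x i j => (X.symm x i j).1
  have hKsy : ∀ x i j, X.K x i j = X.K x j i := fun x i j => (X.symm x i j).2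
  have hP0 := momentum_even hP hR0 (pair_even (by omega) hΓ hR0 hg hgsy)
    (pair_even (by omega) hΓ hR0 hK hKsy)
  obtain ⟨hl, hinv⟩ := lapse_trans hn hΓ.1 hR hg (perp_of_pair (by omega) hΓ hR0 hg hgsy)
  obtain ⟨κ, hκ⟩ := exists_kappa (PairTrans.moves (by omega) hΓ) hΓ.1 hl hinv hg hK
  obtain ⟨B, rfl, hB, hL, -⟩ := famPair' (by omega) hΓ hR0 hl.Gs (bgF_symm hgsy) hl.pos hl.unit
    hinv
  obtain ⟨r, hr, hρ, hle, hAm⟩ := penrose_bg hn (stA n) (stE hn) hl hB hL hAF hDEC hT hm hR hκ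
  exact ⟨hP0, Vale.Agent.P366.T2.conclude hn hP0 hρ hAm hle⟩

end

/-- **The spacetime Penrose inequality for data of cohomogeneity one**: data invariant under a
linear group that acts transitively on the spheres. -/
theorem penrose_trans (hn : 3 ≤ n) {X : Exterior n} (hAF : X.IsAF) (hDEC : X.DEC)
    (hT : X.Trapped) {m : ℝ} {P : Fin n → ℝ} (hm : X.IsEnergy m) (hP : X.IsMomentum P) {R₁ : ℝ}
    (hR : IsGreatest {r | ∃ x, X.F x = 0 ∧ len x = r} R₁)
    {Γ : Matrix (Fin n) (Fin n) ℝ → Prop} (hΓ : TransGroup n Γ)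
    (hg : InvUnder Γ R₁ X.g) (hK : InvUnder Γ R₁ X.K) :
    P = 0 ∧ X.Amin ≠ ⊤ ∧ √(∑ i, P i ^ 2) < m ∧
    (X.Amin.toReal / omega n) ^ (((n : ℝ) - 2) / (n - 1)) / 2 ≤
      √(m ^ 2 - ∑ i, P i ^ 2) := by
  induction hΓ with
  | so => exact penrose_pair hn (pairTrans_so hn) hAF hDEC hT hm hP hR hg hK
  | u J skew sq =>
    exact Vale.Agent.U1.penrose_um hn ⟨J, skew, sq⟩ hAF hDEC hT hm hP hR hg hK
  | su h6 J skew sq =>
    exact Vale.Agent.U1.penrose_sum (by omega) ⟨J, skew, sq⟩ hAF hDEC hT hm hP hR hg hK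
  | sp Q =>
    exact Vale.Agent.P366.T2.penrose_spM Q hAF hDEC hT hm hP hR
      (fun A h1 h2 => hg A ⟨h1, h2⟩) (fun A h1 h2 => hK A ⟨h1, h2⟩)
  | g2 => exact penrose_pair hn pairTrans_g2 hAF hDEC hT hm hP hR hg hK
  | spin7 => exact penrose_pair hn pairTrans_spin7 hAF hDEC hT hm hP hR hg hK
  | spin9 O =>
    exact Vale.Agent.S9.penrose_spin9 O hAF hDEC hT hm hP hR
      (fun A h1 h2 => hg A ⟨h1, h2⟩) (fun A h1 h2 => hK A ⟨h1, h2⟩)

end Vale.Agent.T4
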