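import Vale.Agent.P366.T4.Basic
import Vale.Agent.P366.T2.U1.Scal0
import Vale.Agent.P366.T2.U1.Amin

/-! T4, block [I4-U]: `U(m)`-invariant backgrounds. -/

open MeasureTheory Metric Filter Topology Set
open scoped ContDiff ENNReal Matrix

noncomputable section
namespace Vale.Agent.T4
open Vale.Agent.P366.Stmt Vale.Agent.P366.T2

variable {n : ℕ}

/-- The background of `U(m)`-invariant metrics with unit lapse and no shift. -/
def bgU (hn : 3 ≤ n) (D : U1.Data n) (hp : ∀ r, D.R ≤ r → D.p r = 1) : Bg n where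
  R := D.R
  H := D.H
  II2 := D.II2
  Rh := D.Rh
  ar := D.ar
  lam := D.lam
  L2 := D.L2
  IT := D.IT
  hR := D.hR
  ar_pos := fun _ hr => D.ar_pos hr
  lam_pos := fun _ hr => D.lam_pos hn hr
  H_diff := fun _ hr => D.H_diff hr
  ar_deriv := fun r hr => by
    have h1 : D.lp r = 1 := by unfold U1.Data.lp; rw [hp r hr, Real.sqrt_one]
    have h2 := D.ar_deriv hr
    rwa [h1, one_mul] at h2
  lam_deriv := fun r hr => by
    have h1 : D.lp r = 1 := by unfold U1.Data.lp; rw [hp r hr, Real.sqrt_one]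
    have h2 := D.lam_deriv hr
    rwa [h1, one_mul] at h2
  hU := fun _ hr y => D.hU_le hn hr y
  hL := fun r _ => D.hL_le hn r
  hJ := fun _ hr => (D.hJ_eq hr).le

section

variable {D : U1.Data n} {G : Field n}

/-- the data without shift -/
def D0 (D : U1.Data n) : U1.Data n where
  Q := D.Q
  R := D.R
  hR := D.hR
  be := fun _ => 0
  al := D.al
  p := D.p
  q := D.q
  ka := fun _ => 0
  kn := fun _ => 0
  v := fun _ => 0
  s := fun _ => 0
  be_smooth := contDiff_const
  al_smooth := D.al_smooth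
  p_smooth := D.p_smooth
  q_smooth := D.q_smooth
  ka_smooth := contDiff_const
  kn_smooth := contDiff_const
  v_smooth := contDiff_const
  s_smooth := contDiff_const
  al_pos := D.al_pos
  p_pos := D.p_pos
  q_pos := D.q_pos

theorem fits_D0 (h : U1.FitsT D G) : U1.Fits (D0 D) G (fun _ _ _ => 0) := by
  refine ⟨fun i j => ⟨h.smooth i j, contDiff_const⟩, fun x hx i j => ?_, fun x hx i j => ?_⟩
  · have h0 : x ≠ 0 := U1.ne_zero_of_le (D := D) hx
    have hr := U1.len_ne h0
    rw [h.hg x hx]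
    unfold U1.Cpx.ten U1.Cpx.tv U1.Cpx.Pi U1.Cpx.Z U1.Nn U1.Cpx.ff D0
    simp only
    field_simp
    ring
  · unfold U1.Cpx.ten D0
    simp

theorem detT (hn : 2 ≤ n) (h : U1.FitsT D G) {x : E n} (hx : D.R ≤ len x) :
    (mat G x).det = D.al (len x) ^ (n - 2) * (D.p (len x) * D.q (len x)) :=
  U1.det_eq hn (fits_D0 h) hx

variable (hp : ∀ r, D.R ≤ r → D.p r = 1)

include hp in
theorem dp_zero {r : ℝ} (hr : D.R < r) : deriv D.p r = 0 := by
  have h1 : D.p =ᶠ[𝓝 r] fun _ => 1 := by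
    filter_upwards [isOpen_Ioi.mem_nhds hr] with t ht
    exact hp t (le_of_lt ht)
  rw [h1.deriv_eq, deriv_const]

theorem nx_eq (x : E n) (i : Fin n) : nx i x = U1.Nn x i := rfl

theorem dN_G (h : U1.FitsT D G) {x : E n} (hx : D.R < len x) (i j : Fin n) :
    dN (fun y => G y i j) x =
      D.Q.tv (deriv D.al (len x)) (deriv D.p (len x)) (deriv D.q (len x)) x i j := by
  have h0 : x ≠ 0 := U1.ne_zero_of_le (D := D) hx.le
  unfold dN
  have e : ∀ k, nx k x * pd k (fun y => G y i j) x =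
      D.Q.tv (deriv D.al (len x)) (deriv D.p (len x)) (deriv D.q (len x)) x i j *
        (U1.Nn x k * U1.Nn x k) +
      (D.p (len x) - D.al (len x)) / len x *
        ((U1.P0 x i k * U1.Nn x k) * U1.Nn x j + U1.Nn x i * (U1.P0 x j k * U1.Nn x k)) +
      (D.q (len x) - D.al (len x)) / len x *
        ((D.Q.tau x i k * U1.Nn x k) * D.Q.ff x j + D.Q.ff x i * (D.Q.tau x j k * U1.Nn x k)) := by
    intro k
    rw [U1.pdT_g h hx, nx_eq]
    unfold U1.Cpx.gT
    ring
  have h1 := U1.NN h0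
  have h2 : ∀ i, ∑ k, U1.P0 x i k * U1.Nn x k = 0 := by
    intro i
    have := U1.P0_N h0 i
    unfold U1.dt at this
    rw [← this]
    exact Finset.sum_congr rfl fun k _ => by rw [U1.P0_symm x i k]
  have h3 : ∀ i, ∑ k, D.Q.tau x i k * U1.Nn x k = 0 := fun i => D.Q.tau_N' h0 i
  unfold U1.dt at h1
  simp only [e, Finset.sum_add_distrib, ← Finset.mul_sum, ← Finset.sum_mul, h1, h2, h3]
  ring

theorem IIf_eq (h : U1.FitsT D G) {x : E n} (hx : D.R < len x) (i j : Fin n) :
    IIf G x i j = D.Q.tv (deriv D.al (len x) / 2 + D.al (len x) / len x)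
      (deriv D.p (len x) / 2 + (D.p (len x) - 1) / len x)
      (deriv D.q (len x) / 2 + D.q (len x) / len x) x i j := by
  have hr : len x ≠ 0 := (lt_trans D.hR hx).ne'
  unfold IIf
  rw [dN_G h hx, h.hg x hx.le, nx_eq, nx_eq]
  unfold U1.Cpx.tv
  field_simp
  ring

theorem Sm_eq (h : U1.FitsT D G) {x : E n} (hx : D.R ≤ len x) (i j : Fin n) :
    Sm G i j x = D.Q.tv (D.al (len x))⁻¹ ((D.p (len x))⁻¹ - 1) (D.q (len x))⁻¹ x i j := by
  unfold Sm
  rw [U1.upT_eq h hx, nx_eq, nx_eq]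
  unfold U1.Cpx.tv
  ring

theorem ctr_tv {x : E n} (hx : x ≠ 0) {a b c a' b' c' a'' b'' c'' : ℝ} {A B : Field n}
    (hS : ∀ i j, Sm G i j x = D.Q.tv a b c x i j) (hA : ∀ i j, A x i j = D.Q.tv a' b' c' x i j)
    (hB : ∀ i j, B x i j = D.Q.tv a'' b'' c'' x i j) :
    ctr G A B x = ((n : ℝ) - 2) * (a ^ 2 * a' * a'') + b ^ 2 * b' * b'' + c ^ 2 * c' * c'' := by
  unfold ctr
  have e : ∀ i j, ∑ k, ∑ l, Sm G i k x * Sm G j l x * A x i j * B x k l =
      D.Q.tv a' b' c' x i j * D.Q.tv (a * a'' * a) (b * b'' * b) (c * c'' * c) x i j := by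
    intro i j
    have e1 : ∀ k, ∑ l, Sm G i k x * Sm G j l x * A x i j * B x k l =
        D.Q.tv a' b' c' x i j * (D.Q.tv a b c x i k *
          D.Q.tv (a'' * a) (b'' * b) (c'' * c) x k j) := by
      intro k
      rw [← D.Q.tv_mul hx a'' b'' c'' a b c k j, Finset.mul_sum, Finset.mul_sum]
      refine Finset.sum_congr rfl fun l _ => ?_
      rw [hS, hS, hA, hB, D.Q.tv_symm a b c x j l]
      ring
    simp only [e1, ← Finset.mul_sum]
    rw [D.Q.tv_mul hx]
    congr 2 <;> ring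
  simp only [e]
  rw [D.Q.C_tv hx]
  ring

include hp in
/-- **[I4-U]** -/
theorem bgU_fits (hn : 3 ≤ n) (h : U1.FitsT D G) : (bgU hn D hp).Fits G := by
  refine ⟨⟨fun x hx => ?_, fun x hx i => ?_⟩, fun x hx => ?_, fun x hx => ?_⟩
  · -- the determinant
    have hx' : D.R ≤ len x := hx
    set r := len x with hr
    have hr0 : 0 < r := D.hR.trans_le hx'
    have hal := D.al_pos r hx'
    have hq := D.q_pos r hx'
    change r ^ (n - 1) * √(mat G x).det = D.ar r
    rw [detT (by omega) h hx', ← hr, hp r hx', one_mul]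
    have hn' : ((n - 2 : ℕ) : ℝ) = (n : ℝ) - 2 := by
      rw [Nat.cast_sub (by omega)]; push_cast; ring
    unfold U1.Data.ar U1.Data.Yb U1.Data.Yf U1.Data.b
    rw [Real.sqrt_mul (by positivity), Real.sqrt_mul (by positivity), Real.sqrt_sq hr0.le]
    have e3 : √(D.al r ^ (n - 2)) = D.al r ^ (((n : ℝ) - 2) / 2) := by
      rw [Real.sqrt_eq_rpow, ← Real.rpow_natCast, ← Real.rpow_mul hal.le]
      congr 1
      rw [hn']
      ring
    have e4 : (r ^ 2 * D.al r) ^ (((n : ℝ) - 2) / 2) =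
        r ^ (n - 2) * D.al r ^ (((n : ℝ) - 2) / 2) := by
      rw [Real.mul_rpow (by positivity) hal.le]
      congr 1
      rw [← Real.rpow_natCast r 2, ← Real.rpow_mul hr0.le, ← Real.rpow_natCast r (n - 2)]
      congr 1
      rw [hn']
      push_cast
      ring
    rw [e3, e4]
    have e5 : r ^ (n - 1) = r * r ^ (n - 2) := by rw [← pow_succ']; congr 1; omega
    rw [e5]
    ring
  · -- the logarithmic derivative of the volume
    have hx' : D.R < len x := hx
    have hr : len x ≠ 0 := (lt_trans D.hR hx').ne'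
    have hal := (D.al_pos _ hx'.le).ne'
    have hq := (D.q_pos _ hx'.le).ne'
    rw [U1.LgT_eq h hx', nx_eq]
    change _ = (D.H (len x) - ((n : ℝ) - 1) / len x) * U1.Nn x i
    congr 1
    rw [D.H_eq hx'.le, hp _ hx'.le, Real.sqrt_one]
    unfold U1.Data.ell U1.Data.hh
    rw [dp_zero hp hx']
    field_simp
    ring
  · -- the second fundamental form
    have hx' : D.R < len x := hx
    have h0 : x ≠ 0 := U1.ne_zero_of_le (D := D) hx'.le
    have hr : len x ≠ 0 := U1.len_ne h0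
    have hal := (D.al_pos _ hx'.le).ne'
    have hq := (D.q_pos _ hx'.le).ne'
    rw [ctr_tv h0 (fun i j => Sm_eq h hx'.le i j) (fun i j => IIf_eq h hx' i j)
      (fun i j => IIf_eq h hx' i j)]
    change _ = D.II2 (len x)
    unfold U1.Data.II2 U1.Data.b
    rw [D.yb_eq hx'.le, D.yf_eq hx'.le, hp _ hx'.le, dp_zero hp hx']
    field_simp
    ring
  · -- the scalar curvature
    have hx' : D.R < len x := hx
    change scal G x + D.II2 (len x) + D.H (len x) ^ 2 + 2 * deriv D.H (len x) = D.Rh (len x)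
    rw [U1.scalT_eq h hx']
    unfold U1.Data.Rg U1.Data.lp
    rw [hp _ hx'.le, Real.sqrt_one]
    ring

end

end Vale.Agent.T4
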