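import Vale.Agent.P366.T4.U92
import Vale.Agent.P366.T2.U1.E765
import Vale.Agent.P366.T2.U1.Inv765

/-! T4, block [I4-U]: invariance and asymptotics of `U(m)`-invariant backgrounds. -/

open MeasureTheory Metric Filter Topology Set Asymptotics
open scoped ContDiff ENNReal Matrix

noncomputable section
namespace Vale.Agent.T4
open Vale.Agent.P366.Stmt Vale.Agent.P366.T2
open Vale.Agent.P366.T2.E68 (O0 O1 O2 ray ray_apply len_ray kr bigO_ray rpow_taylor)

variable {n : ℕ}

/-! ### `O(r^{-q})` for functions on the exterior -/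

theorem bigO_add {q : ℝ} {f g : E n → ℝ} (hf : BigO q f) (hg : BigO q g) :
    BigO q (fun x => f x + g x) := by
  obtain ⟨C, R, h⟩ := hf
  obtain ⟨C', R', h'⟩ := hg
  refine ⟨C + C', max R R', fun x hx => ?_⟩
  have h1 := h x ((le_max_left _ _).trans_lt hx)
  have h2 := h' x ((le_max_right _ _).trans_lt hx)
  calc |f x + g x| ≤ |f x| + |g x| := abs_add_le _ _
    _ ≤ C * len x ^ (-q) + C' * len x ^ (-q) := add_le_add h1 h2
    _ = (C + C') * len x ^ (-q) := by ring

theorem bigO_zero (q : ℝ) : BigO q (fun _ : E n => 0) := ⟨0, 0, fun x _ => by simp⟩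

theorem bigO_sum {ι : Type*} (s : Finset ι) {q : ℝ} {f : ι → E n → ℝ}
    (h : ∀ i ∈ s, BigO q (f i)) : BigO q (fun x => ∑ i ∈ s, f i x) := by
  classical
  induction s using Finset.induction_on with
  | empty => simpa using bigO_zero q
  | insert a s ha ih =>
    simp only [Finset.sum_insert ha]
    exact bigO_add (h a (Finset.mem_insert_self a s))
      (ih fun i hi => h i (Finset.mem_insert_of_mem hi))

theorem bigO_bdd {q : ℝ} {f b : E n → ℝ} (hf : BigO q f) (hb : ∀ x, |b x| ≤ 1) :
    BigO q (fun x => f x * b x) := by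
  obtain ⟨C, R, h⟩ := hf
  refine ⟨C, R, fun x hx => ?_⟩
  have h1 := h x hx
  rw [abs_mul]
  calc |f x| * |b x| ≤ |f x| * 1 := mul_le_mul_of_nonneg_left (hb x) (abs_nonneg _)
    _ = |f x| := mul_one _
    _ ≤ _ := h1

theorem bigO_congr {q R : ℝ} {f g : E n → ℝ} (hf : BigO q f)
    (h : ∀ x, R ≤ len x → g x = f x) : BigO q g := by
  obtain ⟨C, R', h'⟩ := hf
  refine ⟨C, max R R', fun x hx => ?_⟩
  rw [h x ((le_max_left _ _).trans hx.le)]
  exact h' x ((le_max_right _ _).trans_lt hx)

theorem abs_nx_le (i : Fin n) (x : E n) : |nx i x| ≤ 1 := by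
  unfold nx len
  rw [abs_div, abs_of_nonneg (norm_nonneg x)]
  refine div_le_one_of_le₀ ?_ (norm_nonneg x)
  have := PiLp.norm_apply_le x i
  simpa using this

/-- the background has the decay of the metric -/
theorem Lapse.bigO_G {G g : Field n} {R : ℝ} (h : Lapse G g R) {q : ℝ}
    (h1 : ∀ i j, BigO q (fun x => g x i j - if i = j then 1 else 0)) (i j : Fin n) :
    BigO q (fun x => G x i j - if i = j then 1 else 0) := by
  have h2 : BigO q (fun x => ∑ k, ∑ l, (g x k l - if k = l then 1 else 0) *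
      ((nx k x * nx l x) * (-(nx i x * nx j x)))) := by
    refine bigO_sum _ fun k _ => bigO_sum _ fun l _ => bigO_bdd (h1 k l) fun x => ?_
    rw [abs_mul, abs_neg, abs_mul, abs_mul]
    have e := abs_nx_le (n := n)
    have a1 : |nx k x| * |nx l x| ≤ 1 := mul_le_one₀ (e k x) (abs_nonneg _) (e l x)
    have a2 : |nx i x| * |nx j x| ≤ 1 := mul_le_one₀ (e i x) (abs_nonneg _) (e j x)
    exact mul_le_one₀ a1 (by positivity) a2
  refine bigO_congr (R := R) (bigO_add (h1 i j) h2) fun x hx => ?_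
  have h0 := h.ne_zero hx
  have e2 : ∑ k, ∑ l, (g x k l - if k = l then 1 else 0) *
      ((nx k x * nx l x) * (-(nx i x * nx j x))) = -(rad g x - 1) * (nx i x * nx j x) := by
    have e3 : ∀ k l, (g x k l - if k = l then 1 else 0) *
        ((nx k x * nx l x) * (-(nx i x * nx j x))) =
        -(nx i x * nx j x) * (g x k l * nx k x * nx l x - if k = l then nx k x * nx l x else 0) := by
      intro k l; split_ifs <;> ring
    simp only [e3, ← Finset.mul_sum, Finset.sum_sub_distrib]
    have e4 : ∑ k, ∑ l, (if k = l then nx k x * nx l x else 0) = 1 := by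
      rw [← sum_nx_mul h0]
      exact Finset.sum_congr rfl fun k _ => by simp
    rw [e4]
    unfold rad
    ring
  rw [e2, h.eq x hx i j]
  ring

theorem lin_decay1 {g : Field n} {q : ℝ}
    (h1 : ∀ i j, BigO q (fun x => g x i j - if i = j then 1 else 0)) (i0 : Fin n)
    (c : Fin n → Fin n → ℝ) {f : ℝ → ℝ} {R : ℝ}
    (hf : ∀ r, R < r → f r = ∑ i, ∑ j, c i j * g (ray i0 r) i j) :
    O1 q (fun r => f r - ∑ i, c i i) := by
  have e1 : O1 q (fun r => ∑ i, ∑ j, c i j *
      (g (ray i0 r) i j - if i = j then 1 else 0)) := by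
    refine IsBigO.fun_sum fun i _ => IsBigO.fun_sum fun j _ => ?_
    exact (bigO_ray (h1 i j) i0).const_mul_left _
  refine e1.congr' ?_
  filter_upwards [eventually_gt_atTop R] with r hr
  rw [hf r hr]
  simp only [mul_sub, Finset.sum_sub_distrib]
  congr 1
  refine Finset.sum_congr rfl fun i _ => ?_
  simp

section

variable {D : U1.Data n} {G : Field n}

theorem coef_decay (hn : 3 ≤ n) (h : U1.FitsT D G) {q : ℝ}
    (h1 : ∀ i j, BigO q (fun x => G x i j - if i = j then 1 else 0)) :
    O1 q (fun r => D.q r - 1) ∧ O1 q (fun r => D.al r - 1) := by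
  have i0 : Fin n := ⟨0, by omega⟩
  have hf := fits_D0 h
  have hray : ∀ {r : ℝ}, D.R < r → ∀ i j, G (ray i0 r) i j =
      D.Q.ten (fun _ => 0) D.al D.p (fun _ => 0) D.q (ray i0 r) i j := by
    intro r hr i j
    exact hf.hg _ (by rw [show (D0 D).R = D.R from rfl, len_ray i0 (D.hR.trans hr).le]; exact hr.le)
      i j
  have hb : (n : ℝ) - 2 ≠ 0 := by
    have : (3 : ℝ) ≤ n := by exact_mod_cast hn
    intro h; linarith
  constructor
  · have := lin_decay1 h1 i0 (U1E.cs D.Q i0) (f := D.q) (R := D.R) (fun r hr => by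
      simp only [hray hr]
      exact U1E.s_ray D.Q D.al D.p _ D.q i0 (D.hR.trans hr))
    rwa [U1E.cs_tr] at this
  · have := lin_decay1 h1 i0 (fun i j => ((n : ℝ) - 2)⁻¹ * U1E.cf D.Q i0 i j) (f := D.al)
      (R := D.R) (fun r hr => by
        have h4 := U1E.f_ray D.Q D.al D.p (fun _ => 0) D.q i0 (D.hR.trans hr)
        simp only [hray hr, mul_assoc, ← Finset.mul_sum]
        rw [← h4]
        field_simp)
    rw [← Finset.mul_sum, U1E.cf_tr, inv_mul_cancel₀ hb] at this
    exact this

end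

end Vale.Agent.T4
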