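import Vale.Agent.P366.T4.U92a

/-! T4, block [I4-U]: the weight at infinity; invariance. -/

open MeasureTheory Metric Filter Topology Set Asymptotics
open scoped ContDiff ENNReal Matrix

noncomputable section
namespace Vale.Agent.T4
open Vale.Agent.P366.Stmt Vale.Agent.P366.T2
open Vale.Agent.P366.T2.E68 (O0 O1 O2 rpow_taylor)

variable {n : ℕ}

theorem lim_one {q : ℝ} {f : ℝ → ℝ} (hq0 : 0 < q) (hf : O1 q fun r => f r - 1) :
    Tendsto f atTop (𝓝 1) := by
  have := (hf.tendsto hq0).add_const 1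
  simpa using this

theorem pow_O2 {q : ℝ} {f : ℝ → ℝ} (hq0 : 0 < q) (hf : O1 q fun r => f r - 1) (s : ℝ) :
    O2 q fun r => (f r) ^ s - 1 - s * (f r - 1) :=
  ((rpow_taylor s).comp_tendsto (lim_one hq0 hf)).trans (hf.mul hf)

/-- the weight at infinity -/
theorem lamU_O2 (hn : 3 ≤ n) (D : U1.Data n) {q : ℝ} (hq0 : 0 < q)
    (hq : O1 q fun r => D.q r - 1) (ha : O1 q fun r => D.al r - 1) :
    O2 q fun r => 2 * D.lam r * D.rho r / ((n : ℝ) - 1) - 1 := by
  have hn3 : (3 : ℝ) ≤ n := by exact_mod_cast hn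
  set N : ℝ := (n : ℝ) - 1 with hN
  have hN0 : N ≠ 0 := by rw [hN]; intro h; linarith
  have hNn : (n : ℝ) = N + 1 := by rw [hN]; ring
  have hq1 := lim_one hq0 hq
  have ha1 := lim_one hq0 ha
  have hia0 : O0 fun r => 1 / D.al r :=
    O0.of_tendsto (by simpa using ha1.inv₀ one_ne_zero)
  have hal0 : ∀ᶠ r in atTop, D.al r ≠ 0 := ha1.eventually_ne one_ne_zero
  -- the inverse of `al`
  have hA1 : O2 q fun r => 1 / D.al r - 1 + (D.al r - 1) := by
    refine (hia0.mul2 (ha.mul ha)).congr' ?_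
    filter_upwards [hal0] with r hr
    field_simp
    ring
  -- the super-potential
  have hL : O2 q fun r => U1E.ell D r - (N / 2 - (D.q r - 1) / 4 - (N - 1) * (D.al r - 1) / 4) := by
    have e2 : O2 q fun r => ((N + 1) / 4) *
        ((D.q r) ^ (-(1 / 2) : ℝ) - 1 - (-(1 / 2)) * (D.q r - 1)) :=
      (pow_O2 hq0 hq _).cmul _
    have e4 : O2 q fun r => ((N - 1) / 4) * ((1 / D.al r) *
        ((D.q r) ^ ((1 / 2) : ℝ) - 1 - (1 / 2) * (D.q r - 1))) :=
      (hia0.mul2 (pow_O2 hq0 hq _)).cmul _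
    have e5 : O2 q fun r => ((N - 1) / 4) * ((1 + 1 / 2 * (D.q r - 1)) *
        (1 / D.al r - 1 + (D.al r - 1))) :=
      (((O0.const 1).add ((hq.o0 hq0).cmul _)).mul2 hA1).cmul _
    have e6 : O2 q fun r => -((N - 1) / 8) * ((D.q r - 1) * (D.al r - 1)) := (hq.mul ha).cmul _
    refine (((e2.add e4).add e5).add e6).congr' (Eventually.of_forall fun r => ?_)
    unfold U1E.ell
    rw [hNn]
    ring
  -- the area radius
  set s : ℝ := 1 / (2 * N) with hs
  set t : ℝ := (N - 1) / (2 * N) with ht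
  have hAq := pow_O2 hq0 hq s
  have hBa := pow_O2 hq0 ha t
  have hz : O1 q fun r => s * (D.q r - 1) + t * (D.al r - 1) := (hq.cmul s).add (ha.cmul t)
  have hB0 : O0 fun r => (D.al r) ^ t := by
    have h := ha1.rpow_const (p := t) (Or.inl one_ne_zero)
    rw [Real.one_rpow] at h
    exact O0.of_tendsto h
  have hA0 : O0 fun r => (D.q r) ^ s := by
    have h := hq1.rpow_const (p := s) (Or.inl one_ne_zero)
    rw [Real.one_rpow] at h
    exact O0.of_tendsto h
  have hAB : O2 q fun r => (D.q r) ^ s * (D.al r) ^ t -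
      (1 + (s * (D.q r - 1) + t * (D.al r - 1))) := by
    have e1 : O2 q fun r => (D.al r) ^ t * ((D.q r) ^ s - 1 - s * (D.q r - 1)) := hB0.mul2 hAq
    have e2 : O2 q fun r => (1 + s * (D.q r - 1)) * ((D.al r) ^ t - 1 - t * (D.al r - 1)) :=
      ((O0.const 1).add ((hq.o0 hq0).cmul _)).mul2 hBa
    have e3 : O2 q fun r => (s * t) * ((D.q r - 1) * (D.al r - 1)) := (hq.mul ha).cmul _
    refine ((e1.add e2).add e3).congr' (Eventually.of_forall fun r => ?_)
    ring
  have hE : O2 q fun r => 2 / N * U1E.ell D r - (1 - (s * (D.q r - 1) + t * (D.al r - 1))) := by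
    refine (hL.cmul (2 / N)).congr' (Eventually.of_forall fun r => ?_)
    rw [hs, ht]
    field_simp
    ring
  have f1 : O2 q fun r => (D.q r) ^ s * (D.al r) ^ t *
      (2 / N * U1E.ell D r - (1 - (s * (D.q r - 1) + t * (D.al r - 1)))) :=
    (hA0.mul hB0).mul2 hE
  have f2 : O2 q fun r => (1 + (-1) * (s * (D.q r - 1) + t * (D.al r - 1))) *
      ((D.q r) ^ s * (D.al r) ^ t - (1 + (s * (D.q r - 1) + t * (D.al r - 1)))) :=
    ((O0.const 1).add ((hz.o0 hq0).cmul _)).mul2 hAB
  have f3 : O2 q fun r => (s * (D.q r - 1) + t * (D.al r - 1)) *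
      (s * (D.q r - 1) + t * (D.al r - 1)) := hz.mul hz
  refine ((f1.add f2).sub f3).congr' ?_
  filter_upwards [eventually_ge_atTop D.R] with r hr
  have hr0 : 0 < r := D.hR.trans_le hr
  have hal := D.al_pos r hr
  have hqp := D.q_pos r hr
  have hrho : D.rho r = r * ((D.q r) ^ s * (D.al r) ^ t) := by
    have h1 : D.ar r = r ^ N * (√(D.q r) * D.al r ^ (((n : ℝ) - 2) / 2)) := by
      unfold U1.Data.ar U1.Data.Yf U1.Data.Yb U1.Data.b
      rw [Real.sqrt_mul (by positivity), Real.sqrt_sq hr0.le,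
        Real.mul_rpow (by positivity) hal.le]
      have e1 : (r ^ 2) ^ (((n : ℝ) - 2) / 2) = r ^ ((n : ℝ) - 2) := by
        rw [← Real.rpow_natCast, ← Real.rpow_mul hr0.le]
        congr 1
        push_cast
        ring
      have e2 : r ^ N = r * r ^ ((n : ℝ) - 2) := by
        rw [← Real.rpow_one_add' hr0.le (by rw [hNn]; intro h; apply hN0; linarith)]
        congr 1
        rw [hN]
        ring
      rw [e1, e2]
      ring
    unfold U1.Data.rho
    rw [h1, Real.mul_rpow (by positivity) (by positivity), ← Real.rpow_mul hr0.le,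
      Real.mul_rpow (by positivity) (by positivity), Real.sqrt_eq_rpow,
      ← Real.rpow_mul hqp.le, ← Real.rpow_mul hal.le]
    have e3 : N * (1 / N) = 1 := by field_simp
    have e4 : (1 / 2 : ℝ) * (1 / N) = s := by rw [hs]; field_simp
    have e5 : ((n : ℝ) - 2) / 2 * (1 / N) = t := by rw [ht, hNn]; field_simp; ring
    rw [e3, e4, e5, Real.rpow_one]
  rw [hrho, U1E.lam_ell hr]
  field_simp
  ring

/-! ### invariance -/

section inv

variable {G g : Field n} {R : ℝ}

/-- the symmetric part of a field -/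
def symF (G : Field n) : Field n := fun x i j => (G x i j + G x j i) / 2

theorem Lapse.symF_eq (h : Lapse G g R) {x : E n} (hx : R ≤ len x) (i j : Fin n) :
    symF G x i j = G x i j := by
  unfold symF
  rw [h.symm x hx j i]
  ring

theorem exists_dataU (hn : 3 ≤ n) (Q : U1.Cpx n) {Γ : Matrix (Fin n) (Fin n) ℝ → Prop}
    (hΓ : Q.Full Γ) (h : Lapse G g R) (hG : U1.InvariantUnder Γ R G) :
    ∃ D : U1.Data n, D.R = R ∧ D.Q = Q ∧ (∀ r, D.R ≤ r → D.p r = 1) ∧ U1.FitsT D G := by
  have hsm : ∀ i j, Smooth (fun x => symF G x i j) ∧ Smooth (fun _ : E n => (0 : ℝ)) :=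
    fun i j => ⟨((h.Gs i j).add (h.Gs j i)).div_const 2, contDiff_const⟩
  have hmat : ∀ x, R ≤ len x → mat (symF G) x = mat G x := fun x hx => by
    ext i j
    exact h.symF_eq hx i j
  have hinv : U1.InvariantUnder Γ R (symF G) := by
    intro A hA x y hx hy i j
    have h1 := hG A hA x y hx hy i j
    have h2 := hG A hA x y hx hy j i
    have h3 : ∑ k, ∑ l, A k i * G y l k * A l j = G x j i := by
      rw [← h2, Finset.sum_comm]
      exact Finset.sum_congr rfl fun k _ => Finset.sum_congr rfl fun l _ => by ring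
    have h4 : ∀ k l, A k i * symF G y k l * A l j =
        (A k i * G y k l * A l j) / 2 + (A k i * G y l k * A l j) / 2 := by
      intro k l; unfold symF; ring
    simp only [h4, Finset.sum_add_distrib, ← Finset.sum_div, h1, h3]
    unfold symF
    ring
  have hinv0 : U1.InvariantUnder Γ R (fun _ _ _ => 0) := by
    intro A hA x y hx hy i j
    simp
  obtain ⟨D, hDR, hDQ, hF⟩ := U1.fits_of_full hn Q hΓ h.hR hsm
    (fun x i j => ⟨by unfold symF; ring, rfl⟩)
    (fun x hx => by rw [hmat x hx]; exact h.pos x hx) hinv.inv hinv0.inv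
  have i0 : Fin n := ⟨0, by omega⟩
  -- no shift, unit lapse
  have hfac : ∀ r, D.R ≤ r → D.be r = 0 ∧ D.p r = 1 := by
    intro r hr
    have hr0 : 0 < r := D.hR.trans_le hr
    set x : E n := EuclideanSpace.single i0 r with hxdef
    have hx : len x = r := by
      rw [hxdef, len, PiLp.norm_single, Real.norm_eq_abs, abs_of_pos hr0]
    have hx' : D.R ≤ len x := by rw [hx]; exact hr
    have h0 : x ≠ 0 := U1.ne_zero_of_le hx'
    have hq := D.q_pos r hr
    have h1 : ∀ i, D.p r * x i + D.q r * D.be r * D.Q.Z D.be x i = x i := by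
      intro i
      have e1 := h.unit x (by rw [← hDR]; exact hx') i
      have e2 : ∑ j, G x i j * x j = ∑ j, D.Q.ten D.be D.al D.p (fun _ => 0) D.q x i j * x j := by
        refine Finset.sum_congr rfl fun j _ => ?_
        rw [← hF.hg x hx' i j, h.symF_eq (by rw [← hDR]; exact hx')]
      have hZx : ∑ j, D.Q.Z D.be x j * x j = D.be (len x) * len x ^ 2 := by
        rw [← D.Q.x_Z D.be x]
        exact Finset.sum_congr rfl fun j _ => mul_comm _ _
      rw [e2, D.Q.ten_vec, D.Q.Pi_x h0, U1.sum_sq, hZx, hx] at e1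
      have hr2 : r ^ 2 ≠ 0 := by positivity
      refine Eq.trans ?_ e1
      field_simp
      ring
    have h2 : D.q r * D.be r * r ^ 2 = 0 := by
      have e1 : ∑ i, D.Q.Y x i * (D.p r * x i + D.q r * D.be r * D.Q.Z D.be x i) =
          ∑ i, D.Q.Y x i * x i := Finset.sum_congr rfl fun i _ => by rw [h1]
      have e2 : ∀ i, D.Q.Y x i * (D.p r * x i + D.q r * D.be r * D.Q.Z D.be x i) =
          D.p r * (D.Q.Y x i * x i) + D.q r * D.be r * (D.Q.Y x i * D.Q.Z D.be x i) :=
        fun i => by ring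
      simp only [e2, Finset.sum_add_distrib, ← Finset.mul_sum, D.Q.Y_x, D.Q.Y_Z, hx] at e1
      linarith
    have h3 : D.be r = 0 := by
      have hr2 : r ^ 2 ≠ 0 := by positivity
      rcases mul_eq_zero.1 h2 with h4 | h4
      · rcases mul_eq_zero.1 h4 with h5 | h5
        · exact absurd h5 hq.ne'
        · exact h5
      · exact absurd h4 hr2
    refine ⟨h3, ?_⟩
    have h4 := h1 i0
    rw [h3] at h4
    have h5 : x i0 = r := by simp [hxdef]
    rw [h5] at h4
    have h6 : D.p r * r = 1 * r := by linarith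
    exact mul_right_cancel₀ hr0.ne' h6
  refine ⟨D, hDR, hDQ, fun r hr => (hfac r hr).2, fun i j => h.Gs i j, fun x hx i j => ?_⟩
  have h0 : x ≠ 0 := U1.ne_zero_of_le hx
  have hr := U1.len_ne h0
  rw [← h.symF_eq (by rw [← hDR]; exact hx) i j, hF.hg x hx i j]
  unfold U1.Cpx.ten U1.Cpx.tv U1.Cpx.Pi U1.Cpx.Z U1.Nn U1.Cpx.ff
  rw [(hfac _ hx).1]
  field_simp
  ring

end inv

/-- **[I4-U]** everything the assembly needs for `U(m)`- and `SU(m)`-invariant backgrounds. -/
theorem exists_bgU (hn : 3 ≤ n) (Q : U1.Cpx n) {Γ : Matrix (Fin n) (Fin n) ℝ → Prop}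
    (hΓ : Q.Full Γ) {G g : Field n} {R : ℝ} (h : Lapse G g R)
    (hG : U1.InvariantUnder Γ R G) {q : ℝ} (hq0 : 0 < q)
    (h1 : ∀ i j, BigO q (fun x => g x i j - if i = j then 1 else 0)) :
    ∃ B : Bg n, B.R = R ∧ B.Fits G ∧
      O2 q fun r => 2 * B.lam r * B.rho r / ((n : ℝ) - 1) - 1 := by
  obtain ⟨D, hDR, hDQ, hp, hF⟩ := exists_dataU hn Q hΓ h hG
  obtain ⟨hq, ha⟩ := coef_decay hn hF (h.bigO_G h1)
  exact ⟨bgU hn D hp, hDR, bgU_fits hp hn hF, lamU_O2 hn D hq0 hq ha⟩

end Vale.Agent.T4
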